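import Vale.Agent.P011.E6I.Defs

/-!
Cyclic cubic extensions: the automorphism has order three, its fixed field is the ground field, and
the norm is the product of the conjugates.
-/

namespace Vale.Agent.P011.E6I

section gal

variable {k L : Type} [Field k] [CharZero k] [Field L] [Algebra k L] {ρ : L ≃ₐ[k] L}

theorem orderOf_rho (h3 : Module.finrank k L = 3) (hρ : ρ ≠ 1) :
    orderOf ρ = 3 ∧ IntermediateField.fixedField (Subgroup.zpowers ρ) = ⊥ := by
  have : FiniteDimensional k L := Module.finite_of_finrank_pos (by omega)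
  have h1 := IntermediateField.finrank_fixedField_eq_card (F := k) (E := L) (Subgroup.zpowers ρ)
  have h2 := Module.finrank_mul_finrank k
    (IntermediateField.fixedField (Subgroup.zpowers ρ) : IntermediateField k L) L
  rw [h1, h3, Nat.card_zpowers] at h2
  have h4 : orderOf ρ ∣ 3 := Dvd.intro_left _ h2
  have h5 : orderOf ρ = 3 := by
    rcases (Nat.dvd_prime Nat.prime_three).mp h4 with h | h
    · exact absurd (orderOf_eq_one_iff.mp h) hρ
    · exact h
  refine ⟨h5, ?_⟩
  rw [h5] at h2
  have h6 : Module.finrank k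
      (IntermediateField.fixedField (Subgroup.zpowers ρ) : IntermediateField k L) = 1 := by
    omega
  exact IntermediateField.finrank_eq_one_iff.mp h6

theorem rho3 (h3 : Module.finrank k L = 3) (hρ : ρ ≠ 1) (t : L) : ρ (ρ (ρ t)) = t := by
  have h : ρ ^ 3 = 1 := by
    rw [← (orderOf_rho h3 hρ).1]
    exact pow_orderOf_eq_one ρ
  have h1 := congrArg (fun f : L ≃ₐ[k] L => f t) h
  simpa [pow_succ] using h1

theorem rho_fix (h3 : Module.finrank k L = 3) (hρ : ρ ≠ 1) {t : L} (ht : ρ t = t) :
    ∃ s : k, algebraMap k L s = t := by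
  have h1 : t ∈ IntermediateField.fixedField (Subgroup.zpowers ρ) := by
    rw [IntermediateField.mem_fixedField_iff]
    intro f hf
    obtain ⟨n, rfl⟩ := Subgroup.mem_zpowers_iff.mp hf
    have h2 : ∀ n : ℕ, (ρ ^ n) t = t := by
      intro n
      induction n with
      | zero => rfl
      | succ n ih => rw [pow_succ, AlgEquiv.mul_apply, ht, ih]
    obtain ⟨m, rfl | rfl⟩ := n.eq_nat_or_neg
    · rw [zpow_natCast]; exact h2 m
    · rw [zpow_neg, zpow_natCast]
      conv_lhs => rw [← h2 m]
      exact (ρ ^ m).symm_apply_apply t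
  rw [(orderOf_rho h3 hρ).2] at h1
  exact IntermediateField.mem_bot.mp h1

theorem norm_rho (h3 : Module.finrank k L = 3) (hρ : ρ ≠ 1) (t : L) :
    algebraMap k L (Algebra.norm k t) = t * ρ t * ρ (ρ t) := by
  have : FiniteDimensional k L := Module.finite_of_finrank_pos (by omega)
  have h5 := (orderOf_rho h3 hρ).1
  have hfix : IntermediateField.fixedField (⊤ : Subgroup (L ≃ₐ[k] L)) = ⊥ := by
    rw [eq_bot_iff, ← (orderOf_rho h3 hρ).2]
    exact IntermediateField.fixedField_antitone le_top
  have : IsGalois k L := IsGalois.of_fixedField_eq_bot k L hfix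
  have hcard : Nat.card (L ≃ₐ[k] L) = 3 := by
    rw [IsGalois.card_aut_eq_finrank, h3]
  rw [Algebra.norm_eq_prod_automorphisms]
  have hinj : Function.Injective (fun i : Fin 3 => ρ ^ (i : ℕ)) := by
    intro i j hij
    have h := pow_injOn_Iio_orderOf (x := ρ) (by rw [h5]; exact i.2) (by rw [h5]; exact j.2) hij
    exact Fin.ext h
  have hbij : Function.Bijective (fun i : Fin 3 => ρ ^ (i : ℕ)) := by
    rw [Fintype.bijective_iff_injective_and_card]
    refine ⟨hinj, ?_⟩
    rw [← Nat.card_eq_fintype_card, ← Nat.card_eq_fintype_card, hcard, Nat.card_fin]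
  rw [← hbij.prod_comp]
  rw [Fin.prod_univ_three]
  simp [pow_succ]

end gal

end Vale.Agent.P011.E6I
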