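import Vale.Agent.P011.E6I.Defs

/-!
The inner group of type `E₆` as a group of permutations.
-/

namespace Vale.Agent.P011.E6I

open Vale.Agent.P011.D4 Vale.Agent.P011.E6

variable {k L : Type} [Field k] [Field L] [Algebra k L]

/-- The map `φ` is linear over `L`, preserves the cubic norm and commutes with `ph`. -/
def IsE6I (ρ : L ≃ₐ[k] L) (lam : kˣ) {a b c : kˣ} (φ : AlbL L a b c → AlbL L a b c) : Prop :=
  (∀ x y, φ (x + y) = φ x + φ y) ∧ (∀ (t : L) x, φ (t • x) = t • φ x) ∧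
    (∀ x, Alb.cub (φ x) = Alb.cub x) ∧ ∀ x, φ (ph ρ lam x) = ph ρ lam (φ x)

/-- The group of rational points of the inner group of type `E₆` of the cyclic algebra
`(L/k, ρ, lam)` and of the octonion algebra `(a, b, c)`. -/
def GPI (ρ : L ≃ₐ[k] L) (lam : kˣ) (a b c : kˣ) : Subgroup (Equiv.Perm (AlbL L a b c)) where
  carrier := {φ | IsE6I ρ lam φ}
  mul_mem' := by
    rintro φ ψ ⟨f1, f2, f3, f4⟩ ⟨h1, h2, h3, h4⟩
    refine ⟨fun x y => ?_, fun t x => ?_, fun x => ?_, fun x => ?_⟩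
    · rw [Equiv.Perm.mul_apply, h1, f1]; rfl
    · rw [Equiv.Perm.mul_apply, h2, f2]; rfl
    · rw [Equiv.Perm.mul_apply, f3, h3]
    · rw [Equiv.Perm.mul_apply, Equiv.Perm.mul_apply, h4, f4]
  one_mem' := ⟨fun _ _ => rfl, fun _ _ => rfl, fun _ => rfl, fun _ => rfl⟩
  inv_mem' := by
    rintro φ ⟨f1, f2, f3, f4⟩
    have e : ∀ x, φ (φ⁻¹ x) = x := fun x => φ.apply_symm_apply x
    refine ⟨fun x y => ?_, fun t x => ?_, fun x => ?_, fun x => ?_⟩
    · apply φ.injective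
      rw [f1, e, e, e]
    · apply φ.injective
      rw [f2, e, e]
    · rw [← f3, e]
    · apply φ.injective
      rw [f4, e, e]

end Vale.Agent.P011.E6I
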