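import Vale.Agent.P011.E6I.DivQ
import Vale.Agent.P011.E6.Coord
import Vale.Agent.P011.E6.Ids2
import Vale.Agent.P011.D4.Springer

/-!
Block E6I: basic facts (rows B of `E6I/Spec.lean`), without the group `Res`.
-/

open NumberField Matrix

namespace Vale.Agent.P011.E6I

open Vale.Agent.P011.MPQ Vale.Agent.P011.D4 Vale.Agent.P011.D4.Oct Vale.Agent.P011.E6
open Vale.Agent.P011.E6.Alb

section gen

variable {k L : Type} [Field k] [Field L] [Algebra k L] {ρ : L ≃ₐ[k] L} {lam : kˣ} {a b c : kˣ}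

theorem herN_map (S : MQ L a b) : H64.herN (S.map (qmap ρ)) = ρ (H64.herN S) := by
  simp only [H64.herN, Matrix.map_apply, nrd_qmap, ← qmap_mul, map_sub, map_add, map_mul]
  simp only [qmap, map_ofNat]

theorem nu_map (m : MQ L a b) : nu (m.map (qmap ρ)) = ρ (nu m) := by
  rw [H64.nu_eq, H64.nu_eq, ← H64.map_qmap_conjTranspose, ← H64.map_mul_qmap, herN_map]

/-- The matrix `u`, as a unit. -/
def uU (L : Type) [Field L] [Algebra k L] (lam : kˣ) {a b : kˣ} : (MQ L a b)ˣ :=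
  ⟨toMQ (u0 L lam), toMQ (w0 L lam), uq_mul_wq, wq_mul_uq⟩

theorem uq_mul_apply (S : MQ L a b) (i j : Fin 3) :
    ((toMQ (u0 L lam) : MQ L a b) * S) i j =
      (![((up L lam)⁻¹ : Lˣ) • S 2 j, S 0 j, S 1 j] : Fin 3 → Qt (up L a) (up L b)) i := by
  have h0 : (((0 : L) : Qt (up L a) (up L b))) = 0 := rfl
  have h1 : (((1 : L) : Qt (up L a) (up L b))) = 1 := rfl
  rw [Matrix.mul_apply, Fin.sum_univ_three]
  simp only [toMQ_apply]
  fin_cases i
  · change ((0 : L) : Qt (up L a) (up L b)) * S 0 j + ((0 : L) : Qt (up L a) (up L b)) * S 1 j +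
      ((((up L lam)⁻¹ : Lˣ) : L) : Qt (up L a) (up L b)) * S 2 j = (((up L lam)⁻¹ : Lˣ) : L) • S 2 j
    rw [h0, zero_mul, zero_mul, zero_add, zero_add, QuaternionAlgebra.coe_mul_eq_smul]
  · change ((1 : L) : Qt (up L a) (up L b)) * S 0 j + ((0 : L) : Qt (up L a) (up L b)) * S 1 j +
      ((0 : L) : Qt (up L a) (up L b)) * S 2 j = S 0 j
    rw [h0, h1, zero_mul, zero_mul, one_mul, add_zero, add_zero]
  · change ((0 : L) : Qt (up L a) (up L b)) * S 0 j + ((1 : L) : Qt (up L a) (up L b)) * S 1 j +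
      ((0 : L) : Qt (up L a) (up L b)) * S 2 j = S 1 j
    rw [h0, h1, zero_mul, zero_mul, one_mul, add_zero, zero_add]

theorem mul_uq_apply (S : MQ L a b) (i j : Fin 3) :
    (S * (toMQ (u0 L lam) : MQ L a b)ᴴ) i j =
      (![((up L lam)⁻¹ : Lˣ) • S i 2, S i 0, S i 1] : Fin 3 → Qt (up L a) (up L b)) j := by
  have h0 : (((0 : L) : Qt (up L a) (up L b))) = 0 := rfl
  have h1 : (((1 : L) : Qt (up L a) (up L b))) = 1 := rfl
  rw [Matrix.mul_apply, Fin.sum_univ_three]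
  simp only [Matrix.conjTranspose_apply, toMQ_apply, H64.star_coe']
  fin_cases j
  · change S i 0 * ((0 : L) : Qt (up L a) (up L b)) + S i 1 * ((0 : L) : Qt (up L a) (up L b)) +
      S i 2 * ((((up L lam)⁻¹ : Lˣ) : L) : Qt (up L a) (up L b)) = (((up L lam)⁻¹ : Lˣ) : L) • S i 2
    rw [h0, mul_zero, mul_zero, zero_add, zero_add, ← QuaternionAlgebra.coe_commutes,
      QuaternionAlgebra.coe_mul_eq_smul]
  · change S i 0 * ((1 : L) : Qt (up L a) (up L b)) + S i 1 * ((0 : L) : Qt (up L a) (up L b)) +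
      S i 2 * ((0 : L) : Qt (up L a) (up L b)) = S i 0
    rw [h0, h1, mul_zero, mul_zero, mul_one, add_zero, add_zero]
  · change S i 0 * ((0 : L) : Qt (up L a) (up L b)) + S i 1 * ((1 : L) : Qt (up L a) (up L b)) +
      S i 2 * ((0 : L) : Qt (up L a) (up L b)) = S i 1
    rw [h0, h1, mul_zero, mul_zero, mul_one, add_zero, zero_add]

theorem mat_ph (x : AlbL L a b c) : mat (ph ρ lam x) = (up L lam : L) •
    ((toMQ (u0 L lam) : MQ L a b) * (mat x).map (qmap ρ) * (toMQ (u0 L lam) : MQ L a b)ᴴ) := by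
  have hl : (up L lam : L) * ((up L lam)⁻¹ : Lˣ) = 1 := Units.mul_inv _
  apply Matrix.ext
  intro i j
  rw [Matrix.smul_apply, mul_uq_apply, uq_mul_apply, uq_mul_apply, uq_mul_apply]
  simp only [Matrix.map_apply]
  fin_cases i <;> fin_cases j
  · change ((((up L lam)⁻¹ : Lˣ) * ρ x.d3 : L) : Qt (up L a) (up L b)) = (up L lam : L) •
      ((((up L lam)⁻¹ : Lˣ) : L) • ((((up L lam)⁻¹ : Lˣ) : L) •
        qmap ρ ((x.d3 : L) : Qt (up L a) (up L b))))
    rw [smul_smul, hl, one_smul, H64.qmap_coe, QuaternionAlgebra.coe_mul,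
      QuaternionAlgebra.coe_mul_eq_smul]
  · change qmap ρ x.x2.fst = (up L lam : L) • ((((up L lam)⁻¹ : Lˣ) : L) • qmap ρ x.x2.fst)
    rw [smul_smul, hl, one_smul]
  · change star (qmap ρ x.x1.fst) =
      (up L lam : L) • ((((up L lam)⁻¹ : Lˣ) : L) • qmap ρ (star x.x1.fst))
    rw [smul_smul, hl, one_smul, qmap_star]
  · change star (qmap ρ x.x2.fst) =
      (up L lam : L) • ((((up L lam)⁻¹ : Lˣ) : L) • qmap ρ (star x.x2.fst))
    rw [smul_smul, hl, one_smul, qmap_star]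
  · change ((up L lam * ρ x.d1 : L) : Qt (up L a) (up L b)) = (up L lam : L) •
      qmap ρ ((x.d1 : L) : Qt (up L a) (up L b))
    rw [H64.qmap_coe, QuaternionAlgebra.coe_mul, QuaternionAlgebra.coe_mul_eq_smul]
  · rfl
  · change qmap ρ x.x1.fst = (up L lam : L) • ((((up L lam)⁻¹ : Lˣ) : L) • qmap ρ x.x1.fst)
    rw [smul_smul, hl, one_smul]
  · change star ((up L lam : L) • qmap ρ x.x3.fst) = (up L lam : L) • qmap ρ (star x.x3.fst)
    rw [qmap_star, QuaternionAlgebra.star_smul]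
  · change ((up L lam * ρ x.d2 : L) : Qt (up L a) (up L b)) = (up L lam : L) •
      qmap ρ ((x.d2 : L) : Qt (up L a) (up L b))
    rw [H64.qmap_coe, QuaternionAlgebra.coe_mul, QuaternionAlgebra.coe_mul_eq_smul]

theorem vec_ph (x : AlbL L a b c) : vec (ph ρ lam x) = Trow ρ lam (vec x) := by
  rw [Trow_eq]
  funext i
  fin_cases i <;> rfl

theorem InD.inv' {m : (MQ L a b)ˣ} (hm : InD ρ lam (m : MQ L a b)) :
    InD ρ lam ((m⁻¹ : (MQ L a b)ˣ) : MQ L a b) := by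
  have h1 : m * uU L lam = uU L lam * H64.umap ρ m := Units.ext hm
  have h2 : m⁻¹ * uU L lam = uU L lam * H64.umap ρ m⁻¹ := by
    rw [map_inv, inv_mul_eq_iff_eq_mul, ← mul_assoc, h1, mul_assoc, mul_inv_cancel, mul_one]
  exact congrArg Units.val h2

theorem InD.mul {m m' : MQ L a b} (hm : InD ρ lam m) (hm' : InD ρ lam m') :
    InD ρ lam (m * m') := by
  rw [InD] at *
  rw [H64.map_mul_qmap, Matrix.mul_assoc, hm', ← Matrix.mul_assoc, hm, Matrix.mul_assoc]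

theorem ph_act' [NeZero (2 : L)] {m : (MQ L a b)ˣ} (hm : InD ρ lam (m : MQ L a b))
    (κ : Qt a b) (x : AlbL L a b c) :
    ph ρ lam (Alb.act m (qup L κ) x) = Alb.act m (qup L κ) (ph ρ lam x) := by
  apply H64.ext_mat_vec
  · rw [mat_ph, mat_act, mat_act, mat_ph, H64.map_mul_qmap, H64.map_mul_qmap,
      H64.map_qmap_conjTranspose, Matrix.mul_smul, Matrix.smul_mul]
    congr 1
    have h1 : (toMQ (u0 L lam) : MQ L a b) * (m : MQ L a b).map (qmap ρ) =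
      (m : MQ L a b) * toMQ (u0 L lam) := hm.symm
    have h2 := congrArg Matrix.conjTranspose h1
    rw [Matrix.conjTranspose_mul, Matrix.conjTranspose_mul] at h2
    calc _ = ((toMQ (u0 L lam) : MQ L a b) * (m : MQ L a b).map (qmap ρ)) *
          (mat x).map (qmap ρ) * (((m : MQ L a b).map (qmap ρ))ᴴ *
            (toMQ (u0 L lam) : MQ L a b)ᴴ) := by simp only [Matrix.mul_assoc]
      _ = _ := by rw [h1, h2]; simp only [Matrix.mul_assoc]
  · rw [vec_ph, H64.row_vec_act, vec_ph]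
    have h3 : ∀ v : Fin 3 → Qt (up L a) (up L b), H64.row (Trow ρ lam v) =
        (H64.row v).map (qmap ρ) * (toMQ (w0 L lam) : MQ L a b) := fun v => rfl
    rw [h3, h3, H64.row_vec_act, H64.map_mul_qmap, H64.map_mul_qmap, H64.q1_map, qmap_qup,
      Matrix.mul_assoc, Matrix.mul_assoc, (InD.inv' hm).comm_wq]
    simp only [Matrix.mul_assoc]

end gen

section B

variable {k L : Type} [Field k] [NumberField k] [Field L] [NumberField L] [Algebra k L]
  {ρ : L ≃ₐ[k] L} {lam : kˣ} {a b c : kˣ}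

omit [NumberField L] in
theorem Hyp.rho3 (H : Hyp ρ lam a b c) (t : L) : ρ (ρ (ρ t)) = t := E6I.rho3 H.h3 H.hρ t

omit [NumberField L] in
theorem Hyp.fix (H : Hyp ρ lam a b c) {t : L} (ht : ρ t = t) : ∃ s : k, algebraMap k L s = t :=
  rho_fix H.h3 H.hρ ht

omit [NumberField L] in
theorem Hyp.aniso (H : Hyp ρ lam a b c) : Aniso (up L a) (up L b) := aniso_up H.h3 H.hdiv.aniso

omit [NumberField L] in
theorem Hyp.divL (H : Hyp ρ lam a b c) : Division (up L a) (up L b) (up L c) :=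
  oct_div_up H.h3 H.hdiv

/-- `D ⊗ Q` is a division algebra. -/
theorem isUnit_of_inD (H : Hyp ρ lam a b c) {m : MQ L a b} (hm : InD ρ lam m) (h0 : m ≠ 0) :
    IsUnit m := isUnit_of_inD' H.aniso H.h3 H.hρ H.hlam hm h0

omit [NumberField k] [NumberField L] in
theorem InD.inv (_ : Hyp ρ lam a b c) {m : (MQ L a b)ˣ} (hm : InD ρ lam (m : MQ L a b)) :
    InD ρ lam ((m⁻¹ : (MQ L a b)ˣ) : MQ L a b) := hm.inv'

theorem exists_nu (H : Hyp ρ lam a b c) {m : MQ L a b} (hm : InD ρ lam m) :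
    ∃ t : k, nu m = algebraMap k L t := by
  have hab := H.aniso
  have h1 := congrArg nu hm
  rw [nu_mul hab, nu_mul hab, nu_map, mul_comm] at h1
  have h2 : nu (toMQ (u0 L lam) : MQ L a b) ≠ 0 := nu_ne_zero hab (uU L lam)
  obtain ⟨s, hs⟩ := H.fix (mul_left_cancel₀ h2 h1).symm
  exact ⟨s, hs.symm⟩

/-- The reduced norms of `D ⊗ Q` are reduced norms of `Q`. -/
theorem exists_kapI (H : Hyp ρ lam a b c) {m : (MQ L a b)ˣ} (hm : InD ρ lam (m : MQ L a b)) :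
    ∃ κ : Qt a b, nrd (qup L κ) = nu (m : MQ L a b) := by
  obtain ⟨t, ht⟩ := exists_nu H hm
  obtain ⟨κ, hκ⟩ := exists_kap H.aniso m
  rw [ht] at hκ
  obtain ⟨q, hq⟩ := nrd_desc H.h3 H.hdiv.aniso t κ hκ
  exact ⟨q, by rw [nrd_qup, hq, ht]⟩

omit [NumberField k] in
theorem ph_act (_ : Hyp ρ lam a b c) {m : (MQ L a b)ˣ} (hm : InD ρ lam (m : MQ L a b))
    (κ : Qt a b) (x : AlbL L a b c) :
    ph ρ lam (Alb.act m (qup L κ) x) = Alb.act m (qup L κ) (ph ρ lam x) := ph_act' hm κ x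

theorem exists_actI (H : Hyp ρ lam a b c) {m : (MQ L a b)ˣ} (hm : InD ρ lam (m : MQ L a b))
    (hn : nu (m : MQ L a b) = 1) : ∃ φ ∈ GI ρ lam a b c, ∀ x, φ x = Alb.act m 1 x := by
  refine ⟨H64.actL two_ne_zero m 1, ⟨fun x => ?_, fun x => ?_⟩, fun _ => rfl⟩
  · rw [H64.actL_apply, Units.val_one, cub_act H.aniso m 1 (by rw [hn]; exact nrd_one), hn,
      one_mul]
  · rw [H64.actL_apply, H64.actL_apply, Units.val_one, ← qup_one (L := L)]
    exact (ph_act' hm 1 x).symm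

/-- Conjugation by an isomorphism. -/
def conjE {V V' : Type} [AddCommGroup V] [Module L V] [AddCommGroup V'] [Module L V']
    (Ψ : V' ≃ₗ[L] V) : (V' ≃ₗ[L] V') ≃* (V ≃ₗ[L] V) where
  toFun φ := (Ψ.symm.trans φ).trans Ψ
  invFun φ := (Ψ.trans φ).trans Ψ.symm
  left_inv φ := by
    apply LinearEquiv.ext
    intro x
    simp
  right_inv φ := by
    apply LinearEquiv.ext
    intro x
    simp
  map_mul' φ φ' := by
    apply LinearEquiv.ext
    intro x
    simp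

omit [NumberField k] [NumberField L] in
theorem conj_mem_GI {a' b' c' : kˣ} {Ψ : AlbL L a' b' c' ≃ₗ[L] AlbL L a b c} {t : L}
    (ht : t ≠ 0) (h1 : ∀ x, Alb.cub (Ψ x) = t * Alb.cub x)
    (h2 : ∀ x, ph ρ lam (Ψ x) = Ψ (ph ρ lam x)) (φ : AlbL L a' b' c' ≃ₗ[L] AlbL L a' b' c') :
    φ ∈ GI ρ lam a' b' c' ↔ conjE Ψ φ ∈ GI ρ lam a b c := by
  have h3 : ∀ x, conjE Ψ φ (Ψ x) = Ψ (φ x) := fun x =>
    congrArg (fun y => Ψ (φ y)) (Ψ.symm_apply_apply x)
  constructor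
  · rintro ⟨h4, h5⟩
    refine ⟨fun x => ?_, fun x => ?_⟩
    · obtain ⟨y, rfl⟩ := Ψ.surjective x
      rw [h3, h1, h1, h4]
    · obtain ⟨y, rfl⟩ := Ψ.surjective x
      rw [h3, h2, h3, h5, h2]
  · rintro ⟨h4, h5⟩
    refine ⟨fun x => ?_, fun x => ?_⟩
    · apply mul_left_cancel₀ ht
      rw [← h1, ← h1, ← h3, h4]
    · apply Ψ.injective
      rw [← h2, ← h3, ← h3, ← h2, h5]

theorem exists_sim (H : Hyp ρ lam a b c) {m : (MQ L a b)ˣ} (hm : InD ρ lam (m : MQ L a b)) :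
    ∃ (κ : Qt a b) (Ψ : AlbL L a b c ≃ₗ[L] AlbL L a b c),
      nrd (qup L κ) = nu (m : MQ L a b) ∧ ∀ x, Ψ x = Alb.act m (qup L κ) x := by
  obtain ⟨κ, hκ⟩ := exists_kapI H hm
  have h0 : qup L κ ≠ 0 := by
    intro h
    apply nu_ne_zero H.aniso m
    rw [← hκ, h]
    simp [nrd]
  obtain ⟨u, hu⟩ := (H64.isUnit_or_zero H.aniso (qup L κ)).resolve_right h0
  refine ⟨κ, H64.actL two_ne_zero m u, hκ, fun x => ?_⟩
  rw [H64.actL_apply, hu]

/-- The similitudes normalise the group. -/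
theorem sim_GI (H : Hyp ρ lam a b c) {m : (MQ L a b)ˣ} (hm : InD ρ lam (m : MQ L a b))
    {κ : Qt a b} (hκ : nrd (qup L κ) = nu (m : MQ L a b))
    {Ψ : AlbL L a b c ≃ₗ[L] AlbL L a b c} (hΨ : ∀ x, Ψ x = Alb.act m (qup L κ) x)
    (φ : AlbL L a b c ≃ₗ[L] AlbL L a b c) :
    φ ∈ GI ρ lam a b c ↔ Ψ * φ * Ψ⁻¹ ∈ GI ρ lam a b c :=
  conj_mem_GI (ρ := ρ) (lam := lam) (Ψ := Ψ) (nu_ne_zero H.aniso m)
    (fun x => by rw [hΨ, cub_act H.aniso m _ hκ]) (fun x => by rw [hΨ, hΨ, ph_act' hm]) φ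

omit [NumberField k] in
/-- Change of the quaternion subalgebra. -/
theorem trip_GI {a' b' c' : kˣ} {i j l : Oct a b c} (ht : Trip a' b' c' i j l)
    {Ψ : AlbL L a' b' c' ≃ₗ[L] AlbL L a b c}
    (hΨ : ∀ x, Ψ x = Alb.omapA (emb (oup L i) (oup L j) (oup L l)) x)
    (φ : AlbL L a' b' c' ≃ₗ[L] AlbL L a' b' c') :
    φ ∈ GI ρ lam a' b' c' ↔ conjE Ψ φ ∈ GI ρ lam a b c := by
  have hΨ' : Ψ = tripA L ht := by
    apply LinearEquiv.ext
    intro x
    rw [hΨ, tripA_apply]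
  exact conj_mem_GI (ρ := ρ) (lam := lam) (Ψ := Ψ) (t := 1) one_ne_zero
    (fun x => by rw [one_mul, hΨ']; exact Alb.cub_mapE (tripO_mul ht) x) (fun x => by
      rw [hΨ']
      simp only [tripA, Alb.mapE_apply, Alb.omapA, ph, tripO_omap, map_smul]) φ

end B

end Vale.Agent.P011.E6I
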