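import Vale.Agent.P011.E6I.H69.ResB

/-!
Block E6I: basic facts (rows B of `E6I/Spec.lean`) about the group `Res`.
-/

open NumberField Matrix

namespace Vale.Agent.P011.E6I

open Vale.Agent.P011.MPQ Vale.Agent.P011.D4 Vale.Agent.P011.D4.Oct Vale.Agent.P011.E6
open Vale.Agent.P011.E6.Alb

section B

variable {k L : Type} [Field k] [NumberField k] [Field L] [NumberField L] [Algebra k L]
  {ρ : L ≃ₐ[k] L} {lam : kˣ} {a b c : kˣ}

theorem InRes.conj (H : Hyp ρ lam a b c) {x m : (MQ L a b)ˣ} (hm : InD ρ lam (m : MQ L a b))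
    (hx : InRes ρ lam c x) (hxD : InD ρ lam (x : MQ L a b)) (hxn : nu (x : MQ L a b) = 1) :
    InRes ρ lam c (m * x * m⁻¹) := by
  intro φ hφ
  obtain ⟨κ, Ψ, hκ, hΨ⟩ := exists_sim H hm
  obtain ⟨ψ, -, hψ⟩ := exists_actI H hxD hxn
  have h1 := (sim_conj H hm hκ hΨ (φ := ψ)).2 (hx ψ hψ)
  have h2 : φ = Ψ * ψ * Ψ⁻¹ := by
    rw [eq_mul_inv_iff_mul_eq]
    apply LinearEquiv.ext
    intro y
    rw [LinearEquiv.mul_apply, LinearEquiv.mul_apply, hφ, hΨ, hΨ, hψ, act_act, act_act,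
      inv_mul_cancel_right, one_mul, mul_one]
  rw [h2]
  exact h1

theorem InRes.mul (H : Hyp ρ lam a b c) {x y : (MQ L a b)ˣ} (hxD : InD ρ lam (x : MQ L a b))
    (hxn : nu (x : MQ L a b) = 1) (hyD : InD ρ lam (y : MQ L a b)) (hyn : nu (y : MQ L a b) = 1)
    (hx : InRes ρ lam c x) (hy : InRes ρ lam c y) : InRes ρ lam c (x * y) := by
  intro φ hφ
  obtain ⟨ψ, -, hψ⟩ := exists_actI H hxD hxn
  obtain ⟨χ, -, hχ⟩ := exists_actI H hyD hyn
  have h2 : φ = ψ * χ := by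
    apply LinearEquiv.ext
    intro z
    rw [LinearEquiv.mul_apply, hφ, hψ, hχ, act_act, one_mul]
  rw [h2]
  exact mul_mem (hx ψ hψ) (hy χ hχ)

theorem InRes.inv (H : Hyp ρ lam a b c) {x : (MQ L a b)ˣ} (hxD : InD ρ lam (x : MQ L a b))
    (hxn : nu (x : MQ L a b) = 1) (hx : InRes ρ lam c x) : InRes ρ lam c x⁻¹ := by
  intro φ hφ
  obtain ⟨ψ, -, hψ⟩ := exists_actI H hxD hxn
  have h2 : φ = ψ⁻¹ := by
    rw [← mul_eq_one_iff_eq_inv]
    apply LinearEquiv.ext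
    intro z
    rw [LinearEquiv.mul_apply, hφ, hψ, act_act, inv_mul_cancel, one_mul, act_one_one]
    rfl
  rw [h2]
  exact inv_mem (hx ψ hψ)

end B

end Vale.Agent.P011.E6I
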