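import Vale.Agent.P011.E6.Defs

/-!
The inner groups of type `E₆` attached to a cyclic algebra of degree three and an octonion algebra.
-/

open NumberField Topology

namespace Vale.Agent.P011.E6I

open Vale.Agent.P011.MPQ Vale.Agent.P011.D4 Vale.Agent.P011.D4.Oct Vale.Agent.P011.E6

variable {k L : Type} [Field k] [Field L] [Algebra k L]

/-- The semilinear map `X ↦ λ u ρ(X) uᵗ`, where `u` is the matrix with `u e₁ = e₂`, `u e₂ = e₃`,
`u e₃ = λ⁻¹ e₁`. Its cube is the multiplication by `λ`. -/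
def ph (ρ : L ≃ₐ[k] L) (lam : kˣ) {a b c : kˣ} (x : AlbL L a b c) : AlbL L a b c :=
  ⟨((up L lam)⁻¹ : Lˣ) * ρ x.d3, (up L lam : L) * ρ x.d1, (up L lam : L) * ρ x.d2,
    (up L lam : L) • omap ρ x.x3, omap ρ x.x1, omap ρ x.x2⟩

/-- The group of the `L`-linear maps which preserve the cubic norm and commute with the semilinear
map `ph`: the rational points of a simply connected inner group of type `E₆` whose Tits algebra is
the cyclic algebra `(L/k, ρ, λ)`. -/
def GI (ρ : L ≃ₐ[k] L) (lam : kˣ) (a b c : kˣ) : Subgroup (AlbL L a b c ≃ₗ[L] AlbL L a b c) where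
  carrier := {φ | (∀ x, Alb.cub (φ x) = Alb.cub x) ∧ ∀ x, φ (ph ρ lam x) = ph ρ lam (φ x)}
  mul_mem' := by
    rintro φ ψ ⟨h1, h2⟩ ⟨h3, h4⟩
    refine ⟨fun x => ?_, fun x => ?_⟩
    · rw [LinearEquiv.mul_apply, h1, h3]
    · rw [LinearEquiv.mul_apply, LinearEquiv.mul_apply, h4, h2]
  one_mem' := ⟨fun _ => rfl, fun _ => rfl⟩
  inv_mem' := by
    rintro φ ⟨h1, h2⟩
    have h : ∀ z, φ (φ⁻¹ z) = z := fun z => by
      rw [← LinearEquiv.mul_apply, mul_inv_cancel]; rfl
    refine ⟨fun x => ?_, fun x => ?_⟩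
    · rw [← h1, h]
    · apply φ.injective
      rw [h, h2, h]

/-- Matrices of degree three over the quaternion algebra over `L`. -/
abbrev MQ (L : Type) [Field L] [Algebra k L] (a b : kˣ) : Type :=
  Matrix (Fin 3) (Fin 3) (Qt (up L a) (up L b))

/-- The matrix `u`, over `L`. -/
def u0 (L : Type) [Field L] [Algebra k L] (lam : kˣ) : Matrix (Fin 3) (Fin 3) L :=
  !![0, 0, ((up L lam)⁻¹ : Lˣ); 1, 0, 0; 0, 1, 0]

/-- A matrix over `L`, as a matrix over the quaternions. -/
def toMQ {a b : kˣ} (z : Matrix (Fin 3) (Fin 3) L) : MQ L a b := z.map (algebraMap L _)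

/-- The matrix belongs to the algebra `D ⊗ Q`. -/
def InD (ρ : L ≃ₐ[k] L) (lam : kˣ) {a b : kˣ} (m : MQ L a b) : Prop :=
  m * toMQ (u0 L lam) = toMQ (u0 L lam) * m.map (qmap ρ)

/-- The matrix over `L` belongs to the algebra `D`. -/
def InD0 (ρ : L ≃ₐ[k] L) (lam : kˣ) (z : Matrix (Fin 3) (Fin 3) L) : Prop :=
  z * u0 L lam = u0 L lam * z.map ρ

/-- The scalar matrix of a quaternion over `k`. -/
def sc (L : Type) [Field L] [Algebra k L] {a b : kˣ} (q : Qt a b) : MQ L a b :=
  Matrix.diagonal fun _ => qup L q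

/-- The normal closure, in `GI`, of the automorphism group of the octonion algebra. -/
def res0 (ρ : L ≃ₐ[k] L) (lam : kˣ) (a b c : kˣ) : Subgroup (GI ρ lam a b c) :=
  Subgroup.normalClosure
    {g | ∃ f : AutC a b c, ∀ x : Alb a b c, g.1 (aup L x) = aup L (Alb.omapA f.1 x)}

/-- The normal closure of the automorphism group of the octonion algebra, as a group of linear
maps. -/
def Res (ρ : L ≃ₐ[k] L) (lam : kˣ) (a b c : kˣ) :
    Subgroup (AlbL L a b c ≃ₗ[L] AlbL L a b c) :=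
  (res0 ρ lam a b c).map (GI ρ lam a b c).subtype

/-- The map `act m 1` belongs to the normal closure of the automorphism group. -/
def InRes (ρ : L ≃ₐ[k] L) (lam : kˣ) {a b : kˣ} (c : kˣ) (m : (MQ L a b)ˣ) : Prop :=
  ∀ φ : AlbL L a b c ≃ₗ[L] AlbL L a b c, (∀ x, φ x = Alb.act m 1 x) → φ ∈ Res ρ lam a b c

/-- The hypotheses of the theorem. -/
structure Hyp (ρ : L ≃ₐ[k] L) (lam : kˣ) (a b c : kˣ) : Prop where
  /-- the extension is cubic -/
  h3 : Module.finrank k L = 3
  /-- the automorphism is not trivial -/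
  hρ : ρ ≠ 1
  /-- the cyclic algebra is not split -/
  hlam : ∀ x : L, Algebra.norm k x ≠ lam
  /-- the octonion algebra is not split -/
  hdiv : Division a b c

/-- The quaternion algebra is good: definite only if the octonion algebra is definite. -/
def GoodQt (a b c : kˣ) : Prop := ∀ φ : k →+* ℝ, φ a < 0 → φ b < 0 → Dfn φ a b c

/-- The subspace of the hermitian matrices over the quaternion algebra. -/
def Vsub (L : Type) [Field L] [Algebra k L] (a b c : kˣ) : Submodule L (AlbL L a b c) where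
  carrier := {x | x.x1.snd = 0 ∧ x.x2.snd = 0 ∧ x.x3.snd = 0}
  zero_mem' := ⟨rfl, rfl, rfl⟩
  add_mem' := by
    rintro x y ⟨h1, h2, h3⟩ ⟨h4, h5, h6⟩
    refine ⟨?_, ?_, ?_⟩
    · rw [Alb.x1_add, snd_add, h1, h4, add_zero]
    · rw [Alb.x2_add, snd_add, h2, h5, add_zero]
    · rw [Alb.x3_add, snd_add, h3, h6, add_zero]
  smul_mem' := by
    rintro t x ⟨h1, h2, h3⟩
    refine ⟨?_, ?_, ?_⟩
    · rw [Alb.x1_smul, snd_smul, h1, smul_zero]
    · rw [Alb.x2_smul, snd_smul, h2, smul_zero]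
    · rw [Alb.x3_smul, snd_smul, h3, smul_zero]

/-- The generic polynomial `N(X v - x)`. -/
noncomputable def gpol {a b c : kˣ} (v x : AlbL L a b c) : Polynomial L :=
  Polynomial.C (Alb.cub v) * Polynomial.X ^ 3 -
    Polynomial.C (Alb.tf (Alb.adj v) x) * Polynomial.X ^ 2 +
    Polynomial.C (Alb.tf v (Alb.adj x)) * Polynomial.X - Polynomial.C (Alb.cub x)

/-- Positivity at a real place (leading minors). -/
def PosAt (w : L →+* ℝ) {a b c : kˣ} (x : AlbL L a b c) : Prop :=
  0 < w x.d1 ∧ 0 < w (x.d1 * x.d2 - norm x.x3) ∧ 0 < w (Alb.cub x)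

/-- The element `h` is generic: the intersection of `V` and `h V` has dimension three and contains
two elements `v`, `x` in general position, such that `v` and its preimage are positive at one real
place over every real place at which the octonion algebra is definite. -/
def Gen {a b c : kˣ} (h : AlbL L a b c ≃ₗ[L] AlbL L a b c) : Prop :=
  Module.finrank L (Vsub L a b c ⊓ (Vsub L a b c).map (h : AlbL L a b c →ₗ[L] AlbL L a b c) :
    Submodule L (AlbL L a b c)) = 3 ∧
  ∃ v x : AlbL L a b c, v ∈ Vsub L a b c ∧ x ∈ Vsub L a b c ∧ h⁻¹ v ∈ Vsub L a b c ∧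
    h⁻¹ x ∈ Vsub L a b c ∧ Alb.cub v ≠ 0 ∧ (gpol v x).Separable ∧
    ∀ τ : k →+* ℝ, Dfn τ a b c → ∃ w : L →+* ℝ, w.comp (algebraMap k L) = τ ∧ PosAt w v ∧
      PosAt w (h⁻¹ v)

end Vale.Agent.P011.E6I
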