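import Vale.Agent.P011.E6.Ids
import Vale.Agent.P011.E6I.Defs

/-!
The action of the matrices over the ground field on the hermitian matrices over octonions.
-/

open Matrix

namespace Vale.Agent.P011.E6I

open Vale.Agent.P011.MPQ Vale.Agent.P011.D4 Vale.Agent.P011.D4.Oct Vale.Agent.P011.E6
open Vale.Agent.P011.E6.Alb

section alb

variable {F : Type} [Field F] {a b c : Fˣ}

/-- The diagonal entry of `u X uᵀ`. -/
def dia (u : Fin 3 → F) (x : Alb a b c) : F :=
  u 0 ^ 2 * x.d1 + u 1 ^ 2 * x.d2 + u 2 ^ 2 * x.d3 + u 1 * u 2 * bil x.x1 1 +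
    u 2 * u 0 * bil x.x2 1 + u 0 * u 1 * bil x.x3 1

/-- The entry `u X vᵀ`. -/
def ent (u v : Fin 3 → F) (x : Alb a b c) : Oct a b c :=
  (u 0 * v 0 * x.d1 + u 1 * v 1 * x.d2 + u 2 * v 2 * x.d3) • 1 + (u 1 * v 2) • x.x1 +
    (u 2 * v 1) • star x.x1 + (u 2 * v 0) • x.x2 + (u 0 * v 2) • star x.x2 +
    (u 0 * v 1) • x.x3 + (u 1 * v 0) • star x.x3

/-- The action `X ↦ H X Hᵀ` of the matrices over the ground field. -/
def cj (H : Matrix (Fin 3) (Fin 3) F) (x : Alb a b c) : Alb a b c :=
  ⟨dia (H 0) x, dia (H 1) x, dia (H 2) x, ent (H 1) (H 2) x, ent (H 2) (H 0) x,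
    ent (H 0) (H 1) x⟩

theorem bil_one_one : bil (1 : Oct a b c) 1 = 2 := by
  rw [bil_self, Oct.norm_one, mul_one]

theorem bil_star_one (x : Oct a b c) : bil (star x) 1 = bil x 1 := by
  rw [bil_star_left]
  congr 1
  apply ext8 <;> simp

theorem bil_ent (u v : Fin 3 → F) (x : Alb a b c) : bil (ent u v x) 1 =
    2 * (u 0 * v 0 * x.d1 + u 1 * v 1 * x.d2 + u 2 * v 2 * x.d3) +
      (u 1 * v 2 + u 2 * v 1) * bil x.x1 1 + (u 2 * v 0 + u 0 * v 2) * bil x.x2 1 +
      (u 0 * v 1 + u 1 * v 0) * bil x.x3 1 := by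
  simp only [ent, bil_add_left, bil_smul_left, bil_one_one, bil_star_one]
  ring

theorem star_ent (u v : Fin 3 → F) (x : Alb a b c) : star (ent u v x) = ent v u x := by
  simp only [ent, star_add, star_smul_oct, star_star, star_one]
  module

theorem dia_add (u : Fin 3 → F) (x y : Alb a b c) : dia u (x + y) = dia u x + dia u y := by
  simp only [dia, d1_add, d2_add, d3_add, x1_add, x2_add, x3_add, bil_add_left]
  ring

theorem dia_smul (u : Fin 3 → F) (t : F) (x : Alb a b c) : dia u (t • x) = t * dia u x := by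
  simp only [dia, d1_smul, d2_smul, d3_smul, x1_smul, x2_smul, x3_smul, bil_smul_left]
  ring

theorem ent_add (u v : Fin 3 → F) (x y : Alb a b c) :
    ent u v (x + y) = ent u v x + ent u v y := by
  simp only [ent, d1_add, d2_add, d3_add, x1_add, x2_add, x3_add, star_add]
  module

theorem ent_smul (u v : Fin 3 → F) (t : F) (x : Alb a b c) :
    ent u v (t • x) = t • ent u v x := by
  simp only [ent, d1_smul, d2_smul, d3_smul, x1_smul, x2_smul, x3_smul, star_smul_oct]
  module

theorem cj_add (H : Matrix (Fin 3) (Fin 3) F) (x y : Alb a b c) :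
    cj H (x + y) = cj H x + cj H y :=
  Alb.ext (dia_add _ _ _) (dia_add _ _ _) (dia_add _ _ _) (ent_add _ _ _ _) (ent_add _ _ _ _)
    (ent_add _ _ _ _)

theorem cj_smul (H : Matrix (Fin 3) (Fin 3) F) (t : F) (x : Alb a b c) :
    cj H (t • x) = t • cj H x :=
  Alb.ext (dia_smul _ _ _) (dia_smul _ _ _) (dia_smul _ _ _) (ent_smul _ _ _ _)
    (ent_smul _ _ _ _) (ent_smul _ _ _ _)

theorem cj_zero (H : Matrix (Fin 3) (Fin 3) F) : cj H (0 : Alb a b c) = 0 := by
  have h := cj_smul H 0 (0 : Alb a b c)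
  rwa [zero_smul, zero_smul] at h

theorem cj_neg (H : Matrix (Fin 3) (Fin 3) F) (x : Alb a b c) : cj H (-x) = -cj H x := by
  rw [← neg_one_smul F x, cj_smul, neg_one_smul]

theorem cj_sub (H : Matrix (Fin 3) (Fin 3) F) (x y : Alb a b c) :
    cj H (x - y) = cj H x - cj H y := by
  rw [sub_eq_add_neg, cj_add, cj_neg, ← sub_eq_add_neg]

theorem dia_cj (u : Fin 3 → F) (H : Matrix (Fin 3) (Fin 3) F) (x : Alb a b c) :
    dia u (cj H x) = dia (u ᵥ* H) x := by
  simp only [cj, dia, bil_ent, Matrix.vecMul, dotProduct, Fin.sum_univ_three]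
  ring

theorem ent_cj (u v : Fin 3 → F) (H : Matrix (Fin 3) (Fin 3) F) (x : Alb a b c) :
    ent u v (cj H x) = ent (u ᵥ* H) (v ᵥ* H) x := by
  have e : ∀ w : Fin 3 → F, ent w w x = dia w x • 1 := by
    intro w
    simp only [ent, dia, star_eq]
    module
  have e1 : ent u v (cj H x) = (u 0 * v 0) • ent (H 0) (H 0) x + (u 1 * v 1) • ent (H 1) (H 1) x +
      (u 2 * v 2) • ent (H 2) (H 2) x + (u 1 * v 2) • ent (H 1) (H 2) x +
      (u 2 * v 1) • ent (H 2) (H 1) x + (u 2 * v 0) • ent (H 2) (H 0) x +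
      (u 0 * v 2) • ent (H 0) (H 2) x + (u 0 * v 1) • ent (H 0) (H 1) x +
      (u 1 * v 0) • ent (H 1) (H 0) x := by
    rw [e, e, e, ent]
    simp only [cj, star_ent]
    module
  rw [e1]
  simp only [ent, Matrix.vecMul, dotProduct, Fin.sum_univ_three]
  module

theorem cj_mul (H H' : Matrix (Fin 3) (Fin 3) F) (x : Alb a b c) :
    cj (H * H') x = cj H (cj H' x) := by
  have e : ∀ r, (H * H') r = (H r) ᵥ* H' := fun r => by
    ext s
    rw [Matrix.mul_apply]
    rfl
  apply Alb.ext
  · exact (congrArg (fun u => dia u x) (e 0)).trans (dia_cj _ _ _).symm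
  · exact (congrArg (fun u => dia u x) (e 1)).trans (dia_cj _ _ _).symm
  · exact (congrArg (fun u => dia u x) (e 2)).trans (dia_cj _ _ _).symm
  · exact (congrArg₂ (fun u v => ent u v x) (e 1) (e 2)).trans (ent_cj _ _ _ _).symm
  · exact (congrArg₂ (fun u v => ent u v x) (e 2) (e 0)).trans (ent_cj _ _ _ _).symm
  · exact (congrArg₂ (fun u v => ent u v x) (e 0) (e 1)).trans (ent_cj _ _ _ _).symm

theorem cj_one (x : Alb a b c) : cj 1 x = x := by
  apply Alb.ext <;> simp [cj, dia, ent]

theorem cj_inv {H : Matrix (Fin 3) (Fin 3) F} (hH : H.det ≠ 0) (x : Alb a b c) :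
    cj H⁻¹ (cj H x) = x := by
  rw [← cj_mul, Matrix.nonsing_inv_mul _ (isUnit_iff_ne_zero.mpr hH), cj_one]

theorem cj_inv' {H : Matrix (Fin 3) (Fin 3) F} (hH : H.det ≠ 0) (x : Alb a b c) :
    cj H (cj H⁻¹ x) = x := by
  rw [← cj_mul, Matrix.mul_nonsing_inv _ (isUnit_iff_ne_zero.mpr hH), cj_one]

/-! The cubic norm. -/

theorem cub_cj_diagonal (D : Fin 3 → F) (x : Alb a b c) :
    cub (cj (Matrix.diagonal D) x) = (D 0 * D 1 * D 2) ^ 2 * cub x := by
  have e : cj (Matrix.diagonal D) x = ⟨D 0 ^ 2 * x.d1, D 1 ^ 2 * x.d2, D 2 ^ 2 * x.d3,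
      (D 1 * D 2) • x.x1, (D 2 * D 0) • x.x2, (D 0 * D 1) • x.x3⟩ := by
    apply Alb.ext <;> simp [cj, dia, ent]
  rw [e]
  simp only [cub, Oct.norm_smul, smul_mul_oct, mul_smul_oct, bil_smul_left]
  ring

theorem tr_s1 (x y : Oct a b c) : bil (x * star x * y) 1 = Oct.norm x * bil y 1 := by
  rw [mul_star_self, smul_mul_oct, one_mul, bil_smul_left]

theorem tr_s1' (x y : Oct a b c) : bil (star x * x * y) 1 = Oct.norm x * bil y 1 := by
  rw [star_mul_self, smul_mul_oct, one_mul, bil_smul_left]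

theorem tr_s2 (x y : Oct a b c) : bil (x * y * star y) 1 = Oct.norm y * bil x 1 := by
  rw [mul_mul_star, bil_smul_left]

theorem tr_s3 (x y : Oct a b c) : bil (x * y * star x) 1 = Oct.norm x * bil y 1 := by
  rw [bil_mul_left' (x * y), star_star, one_mul]
  have h := bil_mul_mul_left x y 1
  rwa [mul_one] at h

theorem tr_s2' (x y : Oct a b c) : bil (x * star y * y) 1 = Oct.norm y * bil x 1 := by
  rw [mul_star_mul', bil_smul_left]

theorem tr_s3' (x y : Oct a b c) : bil (star x * y * x) 1 = Oct.norm x * bil y 1 := by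
  have h := tr_s3 (star x) y
  rwa [star_star, Oct.norm_star] at h

theorem tr_1 (x y : Oct a b c) : bil (x * y) 1 = bil x (star y) := by
  rw [bil_mul_left', one_mul]

theorem bil_star_swap (x y : Oct a b c) : bil x (star y) = bil y (star x) := by
  rw [bil_comm, bil_star_left]

theorem cub_cj_transvection (i j : Fin 3) (hij : i ≠ j) (t : F) (x : Alb a b c) :
    cub (cj (Matrix.transvection i j t) x) = cub x := by
  obtain ⟨d1, d2, d3, p, q, r⟩ := x
  have h12 : bil (p * q) 1 = bil p (star q) := tr_1 p q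
  have h13 : bil (p * r) 1 = bil p (star r) := tr_1 p r
  have h23 : bil (q * r) 1 = bil q (star r) := tr_1 q r
  have k12 : bil q (star p) = bil p (star q) := bil_star_swap q p
  have k13 : bil r (star p) = bil p (star r) := bil_star_swap r p
  have k23 : bil r (star q) = bil q (star r) := bil_star_swap r q
  have key : ∀ {y : Alb a b c}, cj (Matrix.transvection i j t) ⟨d1, d2, d3, p, q, r⟩ = y →
      cub y = cub (⟨d1, d2, d3, p, q, r⟩ : Alb a b c) →
      cub (cj (Matrix.transvection i j t) ⟨d1, d2, d3, p, q, r⟩) =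
        cub (⟨d1, d2, d3, p, q, r⟩ : Alb a b c) := fun h1 h2 => by
    rw [h1, h2]
  fin_cases i <;> fin_cases j
  · exact absurd rfl hij
  · refine key (y := ⟨d1 + t * bil r 1 + t ^ 2 * d2, d2, d3, p, q + t • star p,
      r + (t * d2) • 1⟩) ?_ ?_
    · apply Alb.ext <;> simp [cj, dia, ent, Matrix.transvection] <;> first | ring1 | module
    · simp only [cub, norm_add, Oct.norm_smul, Oct.norm_star, Oct.norm_one, bil_smul_right,
        mul_add, add_mul, mul_smul_oct, smul_mul_oct, mul_one, one_mul, bil_add_left,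
        bil_smul_left, tr_s1, tr_s2, tr_s3, h12, h13, h23, k12, k13, k23,
        bil_self, mul_star_self, star_mul_self, tr_s1', tr_s2', tr_s3']
      ring
  · refine key (y := ⟨d1 + t * bil q 1 + t ^ 2 * d3, d2, d3, p, q + (t * d3) • 1,
      r + t • star p⟩) ?_ ?_
    · apply Alb.ext <;> simp [cj, dia, ent, Matrix.transvection] <;> first | ring1 | module
    · simp only [cub, norm_add, Oct.norm_smul, Oct.norm_star, Oct.norm_one, bil_smul_right,
        mul_add, add_mul, mul_smul_oct, smul_mul_oct, mul_one, one_mul, bil_add_left,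
        bil_smul_left, tr_s1, tr_s2, tr_s3, h12, h13, h23, k12, k13, k23,
        bil_self, mul_star_self, star_mul_self, tr_s1', tr_s2', tr_s3']
      ring
  · refine key (y := ⟨d1, d2 + t * bil r 1 + t ^ 2 * d1, d3, p + t • star q, q,
      r + (t * d1) • 1⟩) ?_ ?_
    · apply Alb.ext <;> simp [cj, dia, ent, Matrix.transvection] <;> first | ring1 | module
    · simp only [cub, norm_add, Oct.norm_smul, Oct.norm_star, Oct.norm_one, bil_smul_right,
        mul_add, add_mul, mul_smul_oct, smul_mul_oct, mul_one, one_mul, bil_add_left,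
        bil_smul_left, tr_s1, tr_s2, tr_s3, h12, h13, h23, k12, k13, k23,
        bil_self, mul_star_self, star_mul_self, tr_s1', tr_s2', tr_s3']
      ring
  · exact absurd rfl hij
  · refine key (y := ⟨d1, d2 + t * bil p 1 + t ^ 2 * d3, d3, p + (t * d3) • 1, q,
      r + t • star q⟩) ?_ ?_
    · apply Alb.ext <;> simp [cj, dia, ent, Matrix.transvection] <;> first | ring1 | module
    · simp only [cub, norm_add, Oct.norm_smul, Oct.norm_star, Oct.norm_one, bil_smul_right,
        mul_add, add_mul, mul_smul_oct, smul_mul_oct, mul_one, one_mul, bil_add_left,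
        bil_smul_left, tr_s1, tr_s2, tr_s3, h12, h13, h23, k12, k13, k23,
        bil_self, mul_star_self, star_mul_self, tr_s1', tr_s2', tr_s3']
      ring
  · refine key (y := ⟨d1, d2, d3 + t * bil q 1 + t ^ 2 * d1, p + t • star r, q + (t * d1) • 1,
      r⟩) ?_ ?_
    · apply Alb.ext <;> simp [cj, dia, ent, Matrix.transvection] <;> first | ring1 | module
    · simp only [cub, norm_add, Oct.norm_smul, Oct.norm_star, Oct.norm_one, bil_smul_right,
        mul_add, add_mul, mul_smul_oct, smul_mul_oct, mul_one, one_mul, bil_add_left,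
        bil_smul_left, tr_s1, tr_s2, tr_s3, h12, h13, h23, k12, k13, k23,
        bil_self, mul_star_self, star_mul_self, tr_s1', tr_s2', tr_s3']
      ring
  · refine key (y := ⟨d1, d2, d3 + t * bil p 1 + t ^ 2 * d2, p + (t * d2) • 1, q + t • star r,
      r⟩) ?_ ?_
    · apply Alb.ext <;> simp [cj, dia, ent, Matrix.transvection] <;> first | ring1 | module
    · simp only [cub, norm_add, Oct.norm_smul, Oct.norm_star, Oct.norm_one, bil_smul_right,
        mul_add, add_mul, mul_smul_oct, smul_mul_oct, mul_one, one_mul, bil_add_left,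
        bil_smul_left, tr_s1, tr_s2, tr_s3, h12, h13, h23, k12, k13, k23,
        bil_self, mul_star_self, star_mul_self, tr_s1', tr_s2', tr_s3']
      ring
  · exact absurd rfl hij

/-- The cubic norm of `H X Hᵀ`. -/
theorem cub_cj (H : Matrix (Fin 3) (Fin 3) F) (x : Alb a b c) :
    cub (cj H x) = H.det ^ 2 * cub x := by
  revert x
  refine Matrix.diagonal_transvection_induction (fun H => ∀ x : Alb a b c,
    cub (cj H x) = H.det ^ 2 * cub x) H (fun D _ x => ?_) (fun t x => ?_) (fun A B hA hB x => ?_)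
  · rw [cub_cj_diagonal, Matrix.det_diagonal, Fin.prod_univ_three]
  · obtain ⟨i, j, hij, t⟩ := t
    rw [Matrix.TransvectionStruct.det, one_pow, one_mul]
    exact cub_cj_transvection i j hij t x
  · rw [cj_mul, hA, hB, Matrix.det_mul]
    ring

/-- The symmetric matrices over the ground field. -/
theorem cj_ofF (H S : Matrix (Fin 3) (Fin 3) F) (hS : Sᵀ = S) :
    cj H (ofF S : Alb a b c) = ofF (H * S * Hᵀ) := by
  have h01 : S 1 0 = S 0 1 := congrFun (congrFun hS 0) 1
  have h02 : S 2 0 = S 0 2 := congrFun (congrFun hS 0) 2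
  have h12 : S 2 1 = S 1 2 := congrFun (congrFun hS 1) 2
  apply Alb.ext <;>
    simp only [cj, dia, ent, ofF, bil_smul_left, bil_one_one, star_smul_oct, star_one,
      Matrix.mul_apply, Matrix.transpose_apply, Fin.sum_univ_three, h01, h02, h12] <;>
    first | ring1 | module

/-- The linear automorphism `X ↦ H X Hᵀ`. -/
noncomputable def cjE (H : Matrix (Fin 3) (Fin 3) F) (hH : H.det ≠ 0) : Alb a b c ≃ₗ[F] Alb a b c where
  toFun := cj H
  invFun := cj H⁻¹
  left_inv := cj_inv hH
  right_inv := cj_inv' hH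
  map_add' := cj_add H
  map_smul' t x := cj_smul H t x

theorem cjE_apply (H : Matrix (Fin 3) (Fin 3) F) (hH : H.det ≠ 0) (x : Alb a b c) :
    cjE H hH x = cj H x := rfl

end alb

section map

variable {F : Type} [Field F] {a b c a' b' c' : Fˣ}

/-- Compatibility with the homomorphisms of octonion algebras. -/
theorem omapA_cj (f : Oct a' b' c' →ₗ[F] Oct a b c) (h1 : f 1 = 1)
    (hs : ∀ x, f (star x) = star (f x)) (hb : ∀ x y, bil (f x) (f y) = bil x y)
    (H : Matrix (Fin 3) (Fin 3) F) (x : Alb a' b' c') :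
    omapA f (cj H x) = cj H (omapA f x) := by
  have hb1 : ∀ x, bil (f x) 1 = bil x 1 := fun x => by rw [← h1, hb]
  have hd : ∀ u, dia u (omapA f x) = dia u x := fun u => by
    simp only [dia, omapA, hb1]
  have he : ∀ u v, ent u v (omapA f x) = f (ent u v x) := fun u v => by
    simp only [ent, omapA, map_add, map_smul, h1, hs]
  apply Alb.ext
  · exact (hd _).symm
  · exact (hd _).symm
  · exact (hd _).symm
  · exact (he _ _).symm
  · exact (he _ _).symm
  · exact (he _ _).symm

end map

section ext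

variable {k K : Type} [Field k] [Field K] [Algebra k K] {a b c : kˣ}

theorem norm_omap' (σ : K ≃ₐ[k] K) (x : OctL K a b c) :
    Oct.norm (omap σ x) = σ (Oct.norm x) := by
  change nrd (qmap σ x.fst) - (up K c : K) * nrd (qmap σ x.snd) =
    σ (nrd x.fst - (up K c : K) * nrd x.snd)
  rw [nrd_qmap, nrd_qmap, map_sub, map_mul]
  congr 2
  exact (σ.commutes _).symm

theorem bil_omap' (σ : K ≃ₐ[k] K) (x y : OctL K a b c) :
    bil (omap σ x) (omap σ y) = σ (bil x y) := by
  rw [bil, bil, ← omap_add, norm_omap', norm_omap', norm_omap', map_sub, map_sub]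

/-- Compatibility with the automorphisms of the field. -/
theorem amap_cj (σ : K ≃ₐ[k] K) (H : Matrix (Fin 3) (Fin 3) K) (x : AlbL K a b c) :
    amap σ (cj H x) = cj (H.map σ) (amap σ x) := by
  have hb1 : ∀ x : OctL K a b c, bil (omap σ x) 1 = σ (bil x 1) := fun x => by
    rw [← omap_one σ, bil_omap', omap_one]
  have hd : ∀ u, dia (fun i => σ (u i)) (amap σ x) = σ (dia u x) := fun u => by
    simp only [dia, amap, hb1, map_add, map_mul, map_pow]
  have he : ∀ u v, ent (fun i => σ (u i)) (fun i => σ (v i)) (amap σ x) = omap σ (ent u v x) :=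
    fun u v => by
      simp only [ent, amap, omap_add, omap_smul, omap_one, omap_star, map_add, map_mul]
  apply Alb.ext
  · exact (hd _).symm
  · exact (hd _).symm
  · exact (hd _).symm
  · exact (he _ _).symm
  · exact (he _ _).symm
  · exact (he _ _).symm

theorem norm_oup' (x : Oct a b c) : Oct.norm (oup K x) = algebraMap k K (Oct.norm x) := by
  change nrd (qup K x.fst) - algebraMap k K c * nrd (qup K x.snd) =
    algebraMap k K (nrd x.fst - c * nrd x.snd)
  rw [nrd_qup, nrd_qup, map_sub, map_mul]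

theorem bil_oup' (x y : Oct a b c) : bil (oup K x) (oup K y) = algebraMap k K (bil x y) := by
  rw [bil, bil, ← oup_add, norm_oup', norm_oup', norm_oup', map_sub, map_sub]

/-- Compatibility with the extension of the field. -/
theorem aup_cj (H : Matrix (Fin 3) (Fin 3) k) (x : Alb a b c) :
    aup K (cj H x) = cj (H.map (algebraMap k K)) (aup K x) := by
  have hb1 : ∀ x : Oct a b c, bil (oup K x) 1 = algebraMap k K (bil x 1) := fun x => by
    rw [← oup_one (L := K), bil_oup']
  have hd : ∀ u : Fin 3 → k, dia (fun i => algebraMap k K (u i)) (aup K x) =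
      algebraMap k K (dia u x) := fun u => by
    simp only [dia, aup, hb1, map_add, map_mul, map_pow]
  have he : ∀ u v : Fin 3 → k, ent (fun i => algebraMap k K (u i))
      (fun i => algebraMap k K (v i)) (aup K x) = oup K (ent u v x) :=
    fun u v => by
      simp only [ent, aup, oup_add, oup_smul, oup_one, oup_star, map_add, map_mul]
  apply Alb.ext
  · exact (hd _).symm
  · exact (hd _).symm
  · exact (hd _).symm
  · exact (he _ _).symm
  · exact (he _ _).symm
  · exact (he _ _).symm

/-- The semilinear map `ph` in terms of `cj`. -/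
theorem ph_eq_cj (ρ : K ≃ₐ[k] K) (lam : kˣ) (x : AlbL K a b c) :
    ph ρ lam x = (up K lam : K) • cj (u0 K lam) (amap ρ x) := by
  have h0 : (up K lam : K) ≠ 0 := (up K lam).ne_zero
  apply Alb.ext
  · simp only [ph, cj, dia, u0, amap, d1_smul, Matrix.of_apply, Matrix.cons_val_zero,
      Matrix.cons_val_one, Matrix.cons_val, Units.val_inv_eq_inv_val]
    field_simp
    ring
  · simp [ph, cj, dia, u0, amap]
  · simp [ph, cj, dia, u0, amap]
  · simp [ph, cj, ent, u0, amap]
  · simp [ph, cj, ent, u0, amap, smul_smul, h0]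
  · simp [ph, cj, ent, u0, amap, smul_smul, h0]

end ext

end Vale.Agent.P011.E6I
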