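import Vale.Agent.P011.E6.GoodQ

/-!
Density of the cyclic algebra of degree three at the real places.
-/

open NumberField Matrix Topology

namespace Vale.Agent.P011.E6I

open Vale.Agent.P011.MPQ Vale.Agent.P011.D4 Vale.Agent.P011.E6

section approx

variable {k L : Type} [Field k] [Field L] [NumberField L] [Algebra k L]

/-- Weak approximation at the real places, with real targets. -/
theorem real_approx_real (r : (L →+* ℝ) → ℝ) {ε : ℝ} (hε : 0 < ε) :
    ∃ f : L, ∀ φ : L →+* ℝ, |φ f - r φ| < ε := by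
  choose q hq using fun φ : L →+* ℝ =>
    exists_rat_btwn (show r φ < r φ + ε / 2 by linarith)
  obtain ⟨f, hf⟩ := real_approx (fun φ => (q φ : L)) (fun _ => ε / 2) (fun _ => half_pos hε)
  refine ⟨f, fun φ => ?_⟩
  have h1 := hf φ
  rw [map_ratCast, abs_lt] at h1
  have h2 := hq φ
  rw [abs_lt]
  constructor <;> linarith [h1.1, h1.2, h2.1, h2.2]

/-- The three conjugates of an element of the cyclic extension can be prescribed at finitely many
real places of the ground field. -/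
theorem approx3 {T : Type} {ρ : L ≃ₐ[k] L} (hρ3 : ∀ x, ρ (ρ (ρ x)) = x)
    (hρ : ρ ≠ 1) {w : T → L →+* ℝ} (hw : Function.Injective fun t => (w t).comp (algebraMap k L))
    (r : Fin 3 → T → ℝ) {ε : ℝ} (hε : 0 < ε) : ∃ x : L, ∀ t, |w t x - r 0 t| < ε ∧
      |w t (ρ x) - r 1 t| < ε ∧ |w t (ρ (ρ x)) - r 2 t| < ε := by
  let e : Fin 3 × T → L →+* ℝ := fun p =>
    (w p.2).comp (![RingHom.id L, (ρ : L →+* L), ((ρ : L →+* L).comp (ρ : L →+* L))] p.1)
  have hne : ¬ ∀ x, ρ x = x := fun h => hρ (AlgEquiv.ext h)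
  have he : Function.Injective e := by
    rintro ⟨i, t⟩ ⟨j, t'⟩ h
    have hk : ∀ (i : Fin 3) (s : k), (![RingHom.id L, (ρ : L →+* L),
        ((ρ : L →+* L).comp (ρ : L →+* L))] i) (algebraMap k L s) = algebraMap k L s := by
      intro i s
      fin_cases i
      · rfl
      · exact ρ.commutes s
      · change ρ (ρ (algebraMap k L s)) = _
        rw [ρ.commutes, ρ.commutes]
    have ht : t = t' := by
      apply hw
      ext s
      have := DFunLike.congr_fun h (algebraMap k L s)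
      simpa only [e, RingHom.comp_apply, hk] using this
    subst ht
    have h1 : ∀ x, (![RingHom.id L, (ρ : L →+* L), ((ρ : L →+* L).comp (ρ : L →+* L))] i) x =
        (![RingHom.id L, (ρ : L →+* L), ((ρ : L →+* L).comp (ρ : L →+* L))] j) x := fun x =>
      (w t).injective (DFunLike.congr_fun h x)
    have h2 : i = j := by
      by_contra hij
      apply hne
      intro x
      fin_cases i <;> fin_cases j <;> first | exact absurd rfl hij | skip
      · exact (h1 x).symm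
      · have h3 : ρ (ρ x) = x := (h1 x).symm
        calc ρ x = ρ (ρ (ρ x)) := by rw [h3]
          _ = x := hρ3 x
      · exact h1 x
      · have h3 : ρ x = ρ (ρ x) := h1 x
        exact (ρ.injective h3).symm
      · have h3 : ρ (ρ x) = x := h1 x
        calc ρ x = ρ (ρ (ρ x)) := by rw [h3]
          _ = x := hρ3 x
      · have h3 : ρ (ρ x) = ρ x := h1 x
        exact ρ.injective h3
    rw [h2]
  obtain ⟨x, hx⟩ := real_approx_real (Function.extend e (fun p => r p.1 p.2) 0) hε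
  have hx' : ∀ p : Fin 3 × T, |e p x - r p.1 p.2| < ε := fun p => by
    have := hx (e p)
    rwa [he.extend_apply] at this
  exact ⟨x, fun t => ⟨hx' (0, t), hx' (1, t), hx' (2, t)⟩⟩

/-- The elements of the cyclic algebra. -/
def mkD (ρ : L ≃ₐ[k] L) (μ : L) (x y z : L) : Matrix (Fin 3) (Fin 3) L :=
  !![x, μ * ρ z, μ * ρ (ρ y); y, ρ x, μ * ρ (ρ z); z, ρ y, ρ (ρ x)]

omit [NumberField L] in
theorem mkD_mem {ρ : L ≃ₐ[k] L} (hρ3 : ∀ x, ρ (ρ (ρ x)) = x) {μ : L} (hμ : ρ μ = μ) (x y z : L) :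
    mkD ρ μ x y z * !![0, 0, μ; 1, 0, 0; 0, 1, 0] =
      !![0, 0, μ; 1, 0, 0; 0, 1, 0] * (mkD ρ μ x y z).map ρ := by
  ext i j
  fin_cases i <;> fin_cases j <;>
    simp [mkD, Matrix.mul_apply, Fin.sum_univ_three, hρ3, hμ, mul_comm]

/-- The cyclic algebra is dense in the matrix algebras at finitely many real places. -/
theorem exists_D {T : Type} [Finite T] {ρ : L ≃ₐ[k] L} (hρ3 : ∀ x, ρ (ρ (ρ x)) = x)
    (hρ : ρ ≠ 1) {w : T → L →+* ℝ} (hw : Function.Injective fun t => (w t).comp (algebraMap k L))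
    {μ : L} (hμ : ρ μ = μ) (hμ0 : μ ≠ 0) (A : T → Matrix (Fin 3) (Fin 3) ℝ) {ε : ℝ} (hε : 0 < ε) :
    ∃ d : Matrix (Fin 3) (Fin 3) L, d * !![0, 0, μ; 1, 0, 0; 0, 1, 0] =
      !![0, 0, μ; 1, 0, 0; 0, 1, 0] * d.map ρ ∧ ∀ t i j, |w t (d i j) - A t i j| < ε := by
  have hwμ : ∀ t, 0 < |w t μ| := fun t => abs_pos.2 ((map_ne_zero _).2 hμ0)
  obtain ⟨M, hM0, hM⟩ : ∃ M : ℝ, 0 < M ∧ ∀ t, |w t μ| ≤ M := by
    rcases isEmpty_or_nonempty T with hT | hT
    · exact ⟨1, one_pos, fun t => (hT.false t).elim⟩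
    · obtain ⟨t0, ht0⟩ := Finite.exists_max fun t => |w t μ|
      exact ⟨|w t0 μ|, hwμ t0, ht0⟩
  obtain ⟨δ, hδ, hδ1, hδ2⟩ : ∃ δ : ℝ, 0 < δ ∧ δ ≤ ε ∧ M * δ ≤ ε :=
    ⟨min ε (ε / M), lt_min hε (div_pos hε hM0), min_le_left _ _, by
      calc M * min ε (ε / M) ≤ M * (ε / M) := mul_le_mul_of_nonneg_left (min_le_right _ _) hM0.le
        _ = ε := mul_div_cancel₀ _ hM0.ne'⟩
  obtain ⟨x, hx⟩ := approx3 hρ3 hρ hw ![fun t => A t 0 0, fun t => A t 1 1, fun t => A t 2 2] hδ
  obtain ⟨y, hy⟩ := approx3 hρ3 hρ hw ![fun t => A t 1 0, fun t => A t 2 1,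
    fun t => A t 0 2 / w t μ] hδ
  obtain ⟨z, hz⟩ := approx3 hρ3 hρ hw ![fun t => A t 2 0, fun t => A t 0 1 / w t μ,
    fun t => A t 1 2 / w t μ] hδ
  refine ⟨mkD ρ μ x y z, mkD_mem hρ3 hμ x y z, fun t => ?_⟩
  have key : ∀ s B : ℝ, |s - B / w t μ| < δ → |w t μ * s - B| < ε := by
    intro s B h
    have hne : w t μ ≠ 0 := (map_ne_zero _).2 hμ0
    have e1 : w t μ * s - B = w t μ * (s - B / w t μ) := by
      field_simp
    rw [e1, abs_mul]
    calc |w t μ| * |s - B / w t μ| < |w t μ| * δ := mul_lt_mul_of_pos_left h (hwμ t)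
      _ ≤ M * δ := mul_le_mul_of_nonneg_right (hM t) hδ.le
      _ ≤ ε := hδ2
  obtain ⟨x0, x1, x2⟩ := hx t
  obtain ⟨y0, y1, y2⟩ := hy t
  obtain ⟨z0, z1, z2⟩ := hz t
  intro i j
  fin_cases i <;> fin_cases j
  · exact lt_of_lt_of_le x0 hδ1
  · have := key _ _ z1
    rw [← map_mul] at this
    exact this
  · have := key _ _ y2
    rw [← map_mul] at this
    exact this
  · exact lt_of_lt_of_le y0 hδ1
  · exact lt_of_lt_of_le x1 hδ1
  · have := key _ _ z2
    rw [← map_mul] at this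
    exact this
  · exact lt_of_lt_of_le z0 hδ1
  · exact lt_of_lt_of_le y1 hδ1
  · exact lt_of_lt_of_le x2 hδ1

/-! The norm-one group. -/

/-- The submonoid of the elements of determinant one in the cyclic algebra. -/
def SD (ρ : L ≃ₐ[k] L) (μ : L) : Submonoid (Matrix (Fin 3) (Fin 3) L) where
  carrier := {g | g * !![0, 0, μ; 1, 0, 0; 0, 1, 0] = !![0, 0, μ; 1, 0, 0; 0, 1, 0] * g.map ρ ∧
    g.det = 1}
  mul_mem' := by
    rintro g h ⟨hg, hg1⟩ ⟨hh, hh1⟩
    refine ⟨?_, by rw [det_mul, hg1, hh1, mul_one]⟩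
    rw [mul_assoc, hh, ← mul_assoc, hg, mul_assoc, Matrix.map_mul]
  one_mem' := ⟨by
    rw [one_mul, Matrix.map_one _ (map_zero ρ) (map_one ρ), mul_one], det_one⟩

/-- The values at the real places. -/
def vals {T : Type} (w : T → L →+* ℝ) :
    Matrix (Fin 3) (Fin 3) L →* (T → Matrix (Fin 3) (Fin 3) ℝ) where
  toFun g t := (w t).mapMatrix g
  map_one' := by
    funext t
    exact map_one _
  map_mul' g h := by
    funext t
    exact map_mul _ _ _

omit [NumberField L] in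
theorem vals_apply {T : Type} (w : T → L →+* ℝ) (g : Matrix (Fin 3) (Fin 3) L) (t : T)
    (i j : Fin 3) : vals w g t i j = w t (g i j) := rfl

end approx

section real

variable {T : Type} [Finite T]

theorem mem_nhds_pi_matrix {A : T → Matrix (Fin 3) (Fin 3) ℝ}
    {U : Set (T → Matrix (Fin 3) (Fin 3) ℝ)} (hU : U ∈ 𝓝 A) :
    ∃ ε : ℝ, 0 < ε ∧ ∀ B : T → Matrix (Fin 3) (Fin 3) ℝ, (∀ t i j, |B t i j - A t i j| < ε) →
      B ∈ U := by
  have := Fintype.ofFinite T
  let e : (T → Matrix (Fin 3) (Fin 3) ℝ) ≃ₜ (T → Fin 3 → Fin 3 → ℝ) := Homeomorph.refl _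
  have h1 : (e.symm ⁻¹' U) ∈ 𝓝 (e A) := e.symm.continuous.continuousAt (by exact hU)
  obtain ⟨ε, hε, h2⟩ := Metric.mem_nhds_iff.1 h1
  refine ⟨ε, hε, fun B hB => ?_⟩
  have h3 : e B ∈ Metric.ball (e A) ε := by
    rw [Metric.mem_ball, dist_pi_lt_iff hε]
    intro t
    rw [dist_pi_lt_iff hε]
    intro i
    rw [dist_pi_lt_iff hε]
    intro j
    exact hB t i j
  exact h2 h3

theorem exists_of_mem_closure {S : Set (T → Matrix (Fin 3) (Fin 3) ℝ)}
    {A : T → Matrix (Fin 3) (Fin 3) ℝ} (hA : A ∈ closure S) {ε : ℝ} (hε : 0 < ε) :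
    ∃ B ∈ S, ∀ t i j, |B t i j - A t i j| < ε := by
  have := Fintype.ofFinite T
  have h1 : {B : T → Matrix (Fin 3) (Fin 3) ℝ | ∀ t i j, |B t i j - A t i j| < ε} ∈ 𝓝 A := by
    have h2 : ∀ t i j, {B : T → Matrix (Fin 3) (Fin 3) ℝ | |B t i j - A t i j| < ε} ∈ 𝓝 A := by
      intro t i j
      have hc : Continuous fun B : T → Matrix (Fin 3) (Fin 3) ℝ => |B t i j - A t i j| := by
        have : Continuous fun B : T → Matrix (Fin 3) (Fin 3) ℝ => B t i j := by fun_prop
        fun_prop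
      exact (isOpen_Iio.preimage hc).mem_nhds (by simpa using hε)
    have h3 : {B : T → Matrix (Fin 3) (Fin 3) ℝ | ∀ t i j, |B t i j - A t i j| < ε} =
        ⋂ t, ⋂ i, ⋂ j, {B : T → Matrix (Fin 3) (Fin 3) ℝ | |B t i j - A t i j| < ε} := by
      ext B
      simp
    rw [h3]
    exact Filter.iInter_mem.2 fun t => Filter.iInter_mem.2 fun i => Filter.iInter_mem.2
      fun j => h2 t i j
  obtain ⟨B, hB1, hB2⟩ := mem_closure_iff_nhds.1 hA _ h1
  exact ⟨B, hB2, hB1⟩

theorem comm_transvection {i j : Fin 3} (hij : i ≠ j) (c : ℝ) :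
    (diagonal (Function.update 1 i 2) : Matrix (Fin 3) (Fin 3) ℝ) * transvection i j c *
      (diagonal (Function.update 1 i 2))⁻¹ * (transvection i j c)⁻¹ = transvection i j c := by
  have h1 : (transvection i j c : Matrix (Fin 3) (Fin 3) ℝ)⁻¹ = transvection i j (-c) := by
    apply Matrix.inv_eq_right_inv
    rw [transvection_mul_transvection_same _ _ hij, add_neg_cancel, transvection_zero]
  have h2 : (diagonal (Function.update 1 i 2) : Matrix (Fin 3) (Fin 3) ℝ)⁻¹ =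
      diagonal (Function.update 1 i 2⁻¹) := by
    apply Matrix.inv_eq_right_inv
    rw [diagonal_mul_diagonal, ← diagonal_one]
    congr 1
    funext m
    by_cases h : m = i
    · subst h
      simp
    · simp [h]
  have h3 : (diagonal (Function.update 1 i 2) : Matrix (Fin 3) (Fin 3) ℝ) * transvection i j c *
      diagonal (Function.update 1 i 2⁻¹) = transvection i j (c + c) := by
    rw [transvection, transvection, mul_add, add_mul, mul_one, diagonal_mul_diagonal]
    congr 1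
    · rw [← diagonal_one]
      congr 1
      funext m
      by_cases h : m = i
      · subst h
        simp
      · simp [h]
    · ext m n
      rw [mul_diagonal, diagonal_mul, single_apply, single_apply]
      by_cases h : i = m ∧ j = n
      · obtain ⟨rfl, rfl⟩ := h
        have h4 : j ≠ i := fun h => hij h.symm
        simp [h4, two_mul]
      · simp [h]
  rw [h2, h3, h1, transvection_mul_transvection_same _ _ hij]
  congr 1
  ring

theorem comm_swap {a : ℝ} (ha : a ≠ 0) :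
    (diagonal ![a, 1, 1] : Matrix (Fin 3) (Fin 3) ℝ) * !![0, 1, 0; 1, 0, 0; 0, 0, 1] *
      (diagonal ![a, 1, 1])⁻¹ * (!![0, 1, 0; 1, 0, 0; 0, 0, 1])⁻¹ = diagonal ![a, a⁻¹, 1] := by
  have h1 : (!![0, 1, 0; 1, 0, 0; 0, 0, 1] : Matrix (Fin 3) (Fin 3) ℝ)⁻¹ =
      !![0, 1, 0; 1, 0, 0; 0, 0, 1] := by
    apply Matrix.inv_eq_right_inv
    ext i j
    fin_cases i <;> fin_cases j <;> simp [Matrix.mul_apply, Fin.sum_univ_three]
  have h2 : (diagonal ![a, 1, 1] : Matrix (Fin 3) (Fin 3) ℝ)⁻¹ = diagonal ![a⁻¹, 1, 1] := by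
    apply Matrix.inv_eq_right_inv
    ext i j
    fin_cases i <;> fin_cases j <;> simp [ha]
  rw [h1, h2]
  ext i j
  fin_cases i <;> fin_cases j <;> simp [Matrix.mul_apply, Fin.sum_univ_three]

theorem comm_swap' {a : ℝ} (ha : a ≠ 0) :
    (diagonal ![1, a, 1] : Matrix (Fin 3) (Fin 3) ℝ) * !![1, 0, 0; 0, 0, 1; 0, 1, 0] *
      (diagonal ![1, a, 1])⁻¹ * (!![1, 0, 0; 0, 0, 1; 0, 1, 0])⁻¹ = diagonal ![1, a, a⁻¹] := by
  have h1 : (!![1, 0, 0; 0, 0, 1; 0, 1, 0] : Matrix (Fin 3) (Fin 3) ℝ)⁻¹ =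
      !![1, 0, 0; 0, 0, 1; 0, 1, 0] := by
    apply Matrix.inv_eq_right_inv
    ext i j
    fin_cases i <;> fin_cases j <;> simp [Matrix.mul_apply, Fin.sum_univ_three]
  have h2 : (diagonal ![1, a, 1] : Matrix (Fin 3) (Fin 3) ℝ)⁻¹ = diagonal ![1, a⁻¹, 1] := by
    apply Matrix.inv_eq_right_inv
    ext i j
    fin_cases i <;> fin_cases j <;> simp [ha]
  rw [h1, h2]
  ext i j
  fin_cases i <;> fin_cases j <;> simp [Matrix.mul_apply, Fin.sum_univ_three]

/-- A submonoid of the real matrices of degree three which contains all commutators contains the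
special linear group. -/
theorem mem_of_comm_one (H : Submonoid (Matrix (Fin 3) (Fin 3) ℝ))
    (hH : ∀ B C : Matrix (Fin 3) (Fin 3) ℝ, B.det ≠ 0 → C.det ≠ 0 → B * C * B⁻¹ * C⁻¹ ∈ H)
    (A : Matrix (Fin 3) (Fin 3) ℝ) (hA : A.det = 1) : A ∈ H := by
  have ht : ∀ t : TransvectionStruct (Fin 3) ℝ, t.toMatrix ∈ H := by
    intro t
    rw [TransvectionStruct.toMatrix, ← comm_transvection t.hij]
    refine hH _ _ ?_ ?_
    · rw [det_diagonal, Finset.prod_ne_zero_iff]
      intro m _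
      by_cases h : m = t.i
      · subst h
        simp
      · simp [h]
    · rw [det_transvection_of_ne _ _ t.hij]
      exact one_ne_zero
  have hl : ∀ l : List (TransvectionStruct (Fin 3) ℝ),
      (l.map TransvectionStruct.toMatrix).prod ∈ H := fun l =>
    Submonoid.list_prod_mem _ fun x hx => by
      obtain ⟨t, -, rfl⟩ := List.mem_map.1 hx
      exact ht t
  obtain ⟨l, l', D, hD⟩ := Pivot.exists_list_transvec_mul_diagonal_mul_list_transvec A
  have hdet : D 0 * D 1 * D 2 = 1 := by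
    have h := congrArg det hD
    rw [hA, det_mul, det_mul, TransvectionStruct.det_toMatrix_prod,
      TransvectionStruct.det_toMatrix_prod, det_diagonal, Fin.prod_univ_three, one_mul,
      mul_one] at h
    exact h.symm
  have h0 : D 0 ≠ 0 := fun h => by simp [h] at hdet
  have h1 : D 1 ≠ 0 := fun h => by simp [h] at hdet
  have hd : (diagonal D : Matrix (Fin 3) (Fin 3) ℝ) ∈ H := by
    have e : (diagonal D : Matrix (Fin 3) (Fin 3) ℝ) =
        diagonal ![D 0, (D 0)⁻¹, 1] * diagonal ![1, D 0 * D 1, (D 0 * D 1)⁻¹] := by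
      rw [diagonal_mul_diagonal]
      congr 1
      funext m
      fin_cases m
      · simp
      · simp [h0]
      · change D 2 = 1 * (D 0 * D 1)⁻¹
        rw [one_mul]
        refine eq_inv_of_mul_eq_one_left ?_
        linear_combination hdet
    rw [e]
    refine mul_mem ?_ ?_
    · rw [← comm_swap h0]
      refine hH _ _ ?_ ?_
      · simp [Fin.prod_univ_three, h0]
      · simp [det_fin_three]
    · rw [← comm_swap' (mul_ne_zero h0 h1)]
      refine hH _ _ ?_ ?_
      · simp [Fin.prod_univ_three, h0, h1]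
      · simp [det_fin_three]
  rw [hD]
  exact mul_mem (mul_mem (hl l) hd) (hl l')

/-- A submonoid which contains all commutators of invertible families contains all
families of matrices of determinant one. -/
theorem mem_of_comm (H : Submonoid (T → Matrix (Fin 3) (Fin 3) ℝ))
    (hH : ∀ B C : T → Matrix (Fin 3) (Fin 3) ℝ, (∀ t, (B t).det ≠ 0) → (∀ t, (C t).det ≠ 0) →
      (fun t => B t * C t * (B t)⁻¹ * (C t)⁻¹) ∈ H) (A : T → Matrix (Fin 3) (Fin 3) ℝ)
    (hA : ∀ t, (A t).det = 1) : A ∈ H := by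
  classical
  have := Fintype.ofFinite T
  refine Submonoid.pi_mem_of_mulSingle_mem A fun t => ?_
  let S : Submonoid (Matrix (Fin 3) (Fin 3) ℝ) :=
    H.comap (MonoidHom.mulSingle (fun _ : T => Matrix (Fin 3) (Fin 3) ℝ) t)
  have h1 : A t ∈ S := by
    refine mem_of_comm_one S (fun B C hB hC => ?_) (A t) (hA t)
    have h2 := hH (Pi.mulSingle t B) (Pi.mulSingle t C) (fun t' => ?_) (fun t' => ?_)
    · change Pi.mulSingle t (B * C * B⁻¹ * C⁻¹) ∈ H
      convert h2 using 1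
      funext t'
      by_cases h : t' = t
      · subst h
        simp
      · simp [Pi.mulSingle_eq_of_ne h]
    · by_cases h : t' = t
      · subst h
        simpa using hB
      · simp [Pi.mulSingle_eq_of_ne h]
    · by_cases h : t' = t
      · subst h
        simpa using hC
      · simp [Pi.mulSingle_eq_of_ne h]
  exact h1

omit [Finite T] in
theorem continuousAt_comm {B C : T → Matrix (Fin 3) (Fin 3) ℝ} (hB : ∀ t, (B t).det ≠ 0)
    (hC : ∀ t, (C t).det ≠ 0) :
    ContinuousAt (fun p : (T → Matrix (Fin 3) (Fin 3) ℝ) × (T → Matrix (Fin 3) (Fin 3) ℝ) =>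
      fun t => p.1 t * p.2 t * (p.1 t)⁻¹ * (p.2 t)⁻¹) (B, C) := by
  have hinv : ∀ {X : Type} [TopologicalSpace X] (f : X → Matrix (Fin 3) (Fin 3) ℝ) (x : X),
      ContinuousAt f x → (f x).det ≠ 0 → ContinuousAt (fun y => (f y)⁻¹) x := by
    intro X _ f x hf hx
    have h1 : (fun y => (f y)⁻¹) = fun y => ((f y).det)⁻¹ • (f y).adjugate := by
      funext y
      rw [Matrix.inv_def, Ring.inverse_eq_inv']
    rw [h1]
    have h2 : ContinuousAt (fun y => (f y).det) x :=
      (Continuous.matrix_det continuous_id).continuousAt.comp hf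
    have h3 : ContinuousAt (fun y => (f y).adjugate) x :=
      (Continuous.matrix_adjugate continuous_id).continuousAt.comp hf
    exact (h2.inv₀ hx).smul h3
  rw [continuousAt_pi]
  intro t
  have h1 : ContinuousAt (fun p : (T → Matrix (Fin 3) (Fin 3) ℝ) ×
      (T → Matrix (Fin 3) (Fin 3) ℝ) => p.1 t) (B, C) := by fun_prop
  have h2 : ContinuousAt (fun p : (T → Matrix (Fin 3) (Fin 3) ℝ) ×
      (T → Matrix (Fin 3) (Fin 3) ℝ) => p.2 t) (B, C) := by fun_prop
  exact ((h1.mul h2).mul (hinv _ _ h1 (hB t))).mul (hinv _ _ h2 (hC t))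

end real

section final

variable {k L : Type} [Field k] [Field L] [NumberField L] [Algebra k L]

omit [NumberField L] in
theorem inv_mem_D {ρ : L ≃ₐ[k] L} {U d : Matrix (Fin 3) (Fin 3) L} (hd : d * U = U * d.map ρ)
    (h0 : d.det ≠ 0) : d⁻¹ * U = U * d⁻¹.map ρ := by
  have hu : IsUnit d.det := isUnit_iff_ne_zero.2 h0
  have h1 : d.map ρ * d⁻¹.map ρ = 1 := by
    rw [← Matrix.map_mul, Matrix.mul_nonsing_inv _ hu, Matrix.map_one _ (map_zero ρ) (map_one ρ)]
  calc d⁻¹ * U = d⁻¹ * U * (d.map ρ * d⁻¹.map ρ) := by rw [h1, mul_one]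
    _ = d⁻¹ * (U * d.map ρ) * d⁻¹.map ρ := by simp only [mul_assoc]
    _ = U * d⁻¹.map ρ := by
      rw [← hd, ← mul_assoc d⁻¹ d U, Matrix.nonsing_inv_mul _ hu, one_mul]

omit [NumberField L] in
theorem mul_mem_D {ρ : L ≃ₐ[k] L} {U d d' : Matrix (Fin 3) (Fin 3) L} (hd : d * U = U * d.map ρ)
    (hd' : d' * U = U * d'.map ρ) : d * d' * U = U * (d * d').map ρ := by
  rw [mul_assoc, hd', ← mul_assoc, hd, mul_assoc, Matrix.map_mul]

omit [NumberField L] in
theorem vals_inv {T : Type} (w : T → L →+* ℝ) {d : Matrix (Fin 3) (Fin 3) L} (h0 : d.det ≠ 0)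
    (t : T) : vals w d⁻¹ t = (vals w d t)⁻¹ := by
  symm
  apply Matrix.inv_eq_right_inv
  change (w t).mapMatrix d * (w t).mapMatrix d⁻¹ = 1
  rw [← map_mul, Matrix.mul_nonsing_inv _ (isUnit_iff_ne_zero.2 h0), map_one]

/-- The norm-one group of the cyclic algebra is dense in the special linear groups at finitely
many real places. -/
theorem exists_SD {T : Type} [Finite T] {ρ : L ≃ₐ[k] L} (hρ3 : ∀ x, ρ (ρ (ρ x)) = x)
    (hρ : ρ ≠ 1) {w : T → L →+* ℝ} (hw : Function.Injective fun t => (w t).comp (algebraMap k L))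
    {μ : L} (hμ : ρ μ = μ) (hμ0 : μ ≠ 0) (A : T → Matrix (Fin 3) (Fin 3) ℝ)
    (hA : ∀ t, (A t).det = 1) {ε : ℝ} (hε : 0 < ε) :
    ∃ g : Matrix (Fin 3) (Fin 3) L, g * !![0, 0, μ; 1, 0, 0; 0, 1, 0] =
      !![0, 0, μ; 1, 0, 0; 0, 1, 0] * g.map ρ ∧ g.det = 1 ∧
      ∀ t i j, |w t (g i j) - A t i j| < ε := by
  rcases isEmpty_or_nonempty T with hT | ⟨⟨t0⟩⟩
  · exact ⟨1, by rw [one_mul, Matrix.map_one _ (map_zero ρ) (map_one ρ), mul_one], det_one,
      fun t => (hT.false t).elim⟩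
  have h1 : A ∈ (Submonoid.map (vals w) (SD ρ μ)).topologicalClosure := by
    refine mem_of_comm _ (fun B C hB hC => ?_) A hA
    change _ ∈ closure _
    rw [mem_closure_iff_nhds]
    intro W hW
    have h2 := (continuousAt_comm hB hC) hW
    have hdet : ∀ B : T → Matrix (Fin 3) (Fin 3) ℝ, (∀ t, (B t).det ≠ 0) →
        ∀ᶠ X in 𝓝 B, (X t0).det ≠ 0 := by
      intro B hB
      have hc : Continuous fun X : T → Matrix (Fin 3) (Fin 3) ℝ => (X t0).det :=
        Continuous.matrix_det (by fun_prop)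
      exact hc.continuousAt.eventually_ne (hB t0)
    rw [Filter.mem_map, nhds_prod_eq, Filter.mem_prod_iff] at h2
    obtain ⟨WB, hWB, WC, hWC, h3⟩ := h2
    obtain ⟨εB, hεB, h4⟩ := mem_nhds_pi_matrix (Filter.inter_mem hWB (hdet B hB))
    obtain ⟨εC, hεC, h5⟩ := mem_nhds_pi_matrix (Filter.inter_mem hWC (hdet C hC))
    obtain ⟨d, hd, hd1⟩ := exists_D hρ3 hρ hw hμ hμ0 B hεB
    obtain ⟨d', hd', hd1'⟩ := exists_D hρ3 hρ hw hμ hμ0 C hεC
    obtain ⟨h6, h7⟩ := h4 (vals w d) hd1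
    obtain ⟨h8, h9⟩ := h5 (vals w d') hd1'
    have hne : ∀ d : Matrix (Fin 3) (Fin 3) L, (vals w d t0).det ≠ 0 → d.det ≠ 0 := by
      intro d h h0
      apply h
      have : vals w d t0 = (w t0).mapMatrix d := rfl
      rw [this, ← RingHom.map_det, h0, map_zero]
    have hd0 := hne d h7
    have hd0' := hne d' h9
    refine ⟨_, h3 (Set.mk_mem_prod h6 h8), d * d' * d⁻¹ * d'⁻¹, ⟨?_, ?_⟩, ?_⟩
    · exact mul_mem_D (mul_mem_D (mul_mem_D hd hd') (inv_mem_D hd hd0)) (inv_mem_D hd' hd0')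
    · rw [det_mul, det_mul, det_mul, det_nonsing_inv, det_nonsing_inv, Ring.inverse_eq_inv']
      field_simp
    · rw [map_mul, map_mul, map_mul]
      funext t
      change vals w d t * vals w d' t * vals w d⁻¹ t * vals w d'⁻¹ t = _
      rw [vals_inv w hd0, vals_inv w hd0']
  obtain ⟨B, ⟨g, hg, rfl⟩, h2⟩ := exists_of_mem_closure h1 hε
  exact ⟨g, hg.1, hg.2, h2⟩

end final

end Vale.Agent.P011.E6I
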