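import Vale.Agent.P011.E6I.Defs
import Vale.Agent.P011.E6I.Dens

/-!
Density of the algebras `D` and `D ⊗ Q` at the real places.
-/

open NumberField Matrix Topology

namespace Vale.Agent.P011.E6I

open Vale.Agent.P011.MPQ Vale.Agent.P011.D4 Vale.Agent.P011.E6

variable {k L : Type} [Field k] [Field L] [NumberField L] [Algebra k L] {ρ : L ≃ₐ[k] L}

/-- The cyclic algebra `D` is dense at finitely many real places. -/
theorem exists_inD0 {T : Type} [Finite T] (hρ3 : ∀ x, ρ (ρ (ρ x)) = x) (hρ : ρ ≠ 1) (lam : kˣ)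
    {w : T → L →+* ℝ} (hw : Function.Injective fun t => (w t).comp (algebraMap k L))
    (A : T → Matrix (Fin 3) (Fin 3) ℝ) {ε : ℝ} (hε : 0 < ε) :
    ∃ d : Matrix (Fin 3) (Fin 3) L, InD0 ρ lam d ∧ ∀ t i j, |w t (d i j) - A t i j| < ε :=
  exists_D hρ3 hρ hw (by
    change ρ ((up L lam)⁻¹ : Lˣ) = _
    rw [Units.val_inv_eq_inv_val, map_inv₀]
    change (ρ (algebraMap k L lam))⁻¹ = _
    rw [ρ.commutes]
    rfl) (Units.ne_zero _) A hε

/-- The norm-one group of `D` is dense at finitely many real places. -/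
theorem exists_inD0_det {T : Type} [Finite T] (hρ3 : ∀ x, ρ (ρ (ρ x)) = x) (hρ : ρ ≠ 1)
    (lam : kˣ) {w : T → L →+* ℝ} (hw : Function.Injective fun t => (w t).comp (algebraMap k L))
    (A : T → Matrix (Fin 3) (Fin 3) ℝ) (hA : ∀ t, (A t).det = 1) {ε : ℝ} (hε : 0 < ε) :
    ∃ g : Matrix (Fin 3) (Fin 3) L, InD0 ρ lam g ∧ g.det = 1 ∧
      ∀ t i j, |w t (g i j) - A t i j| < ε :=
  exists_SD hρ3 hρ hw (by
    change ρ ((up L lam)⁻¹ : Lˣ) = _
    rw [Units.val_inv_eq_inv_val, map_inv₀]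
    change (ρ (algebraMap k L lam))⁻¹ = _
    rw [ρ.commutes]
    rfl) (Units.ne_zero _) A hA hε

omit [NumberField L] in
/-- A quaternion matrix with coordinates in `D`. -/
theorem inD_of_coord {lam : kˣ} {a b : kˣ} {d0 d1 d2 d3 : Matrix (Fin 3) (Fin 3) L}
    (h0 : InD0 ρ lam d0) (h1 : InD0 ρ lam d1) (h2 : InD0 ρ lam d2) (h3 : InD0 ρ lam d3) :
    InD ρ lam (Matrix.of fun i j => ⟨d0 i j, d1 i j, d2 i j, d3 i j⟩ : MQ L a b) := by
  have e : ∀ i j, (toMQ (u0 L lam) : MQ L a b) i j = ⟨u0 L lam i j, 0, 0, 0⟩ := fun _ _ => rfl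
  have key : ∀ {d : Matrix (Fin 3) (Fin 3) L}, InD0 ρ lam d → ∀ i j,
      d i 0 * u0 L lam 0 j + d i 1 * u0 L lam 1 j + d i 2 * u0 L lam 2 j =
        u0 L lam i 0 * ρ (d 0 j) + u0 L lam i 1 * ρ (d 1 j) + u0 L lam i 2 * ρ (d 2 j) := by
    intro d hd i j
    have h := congrFun (congrFun hd i) j
    rwa [Matrix.mul_apply, Matrix.mul_apply, Fin.sum_univ_three, Fin.sum_univ_three] at h
  unfold InD
  ext i j
  all_goals
    rw [Matrix.mul_apply, Matrix.mul_apply, Fin.sum_univ_three, Fin.sum_univ_three]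
    simp only [e, Matrix.of_apply, Matrix.map_apply, qmap, QuaternionAlgebra.re_add,
      QuaternionAlgebra.imI_add, QuaternionAlgebra.imJ_add, QuaternionAlgebra.imK_add,
      QuaternionAlgebra.re_mul, QuaternionAlgebra.imI_mul, QuaternionAlgebra.imJ_mul,
      QuaternionAlgebra.imK_mul, mul_zero, zero_mul, add_zero, sub_zero, zero_add]
  · exact key h0 i j
  · exact key h1 i j
  · exact key h2 i j
  · exact key h3 i j

/-- The algebra `D ⊗ Q` is dense at finitely many real places. -/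
theorem exists_inD {T : Type} [Finite T] (hρ3 : ∀ x, ρ (ρ (ρ x)) = x) (hρ : ρ ≠ 1) (lam : kˣ)
    {w : T → L →+* ℝ} (hw : Function.Injective fun t => (w t).comp (algebraMap k L))
    (a b : kˣ) (A0 A1 A2 A3 : T → Matrix (Fin 3) (Fin 3) ℝ) {ε : ℝ} (hε : 0 < ε) :
    ∃ m : MQ L a b, InD ρ lam m ∧ ∀ t i j, |w t (m i j).re - A0 t i j| < ε ∧
      |w t (m i j).imI - A1 t i j| < ε ∧ |w t (m i j).imJ - A2 t i j| < ε ∧
      |w t (m i j).imK - A3 t i j| < ε := by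
  obtain ⟨d0, h0, h0'⟩ := exists_inD0 hρ3 hρ lam hw A0 hε
  obtain ⟨d1, h1, h1'⟩ := exists_inD0 hρ3 hρ lam hw A1 hε
  obtain ⟨d2, h2, h2'⟩ := exists_inD0 hρ3 hρ lam hw A2 hε
  obtain ⟨d3, h3, h3'⟩ := exists_inD0 hρ3 hρ lam hw A3 hε
  exact ⟨_, inD_of_coord h0 h1 h2 h3, fun t i j => ⟨h0' t i j, h1' t i j, h2' t i j, h3' t i j⟩⟩

end Vale.Agent.P011.E6I
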