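import Vale.Agent.P011.E6I.Gal
import Vale.Agent.P011.E6.Act

/-!
The algebra `D ⊗ Q` is a division algebra.
-/

open Matrix

namespace Vale.Agent.P011.E6I

open Vale.Agent.P011.MPQ Vale.Agent.P011.D4 Vale.Agent.P011.D4.Oct Vale.Agent.P011.E6

section rows

variable {k L : Type} [Field k] [Field L] [Algebra k L] {ρ : L ≃ₐ[k] L} {lam : kˣ} {a b : kˣ}

/-- The inverse of `u`. -/
def w0 (L : Type) [Field L] [Algebra k L] (lam : kˣ) : Matrix (Fin 3) (Fin 3) L :=
  !![0, 1, 0; 0, 0, 1; (up L lam : Lˣ), 0, 0]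

theorem u0_mul_w0 : u0 L lam * w0 L lam = 1 := by
  apply Matrix.ext
  intro i j
  fin_cases i <;> fin_cases j <;> simp [u0, w0, Matrix.mul_apply, Fin.sum_univ_three]

theorem w0_mul_u0 : w0 L lam * u0 L lam = 1 := by
  apply Matrix.ext
  intro i j
  fin_cases i <;> fin_cases j <;> simp [u0, w0, Matrix.mul_apply, Fin.sum_univ_three]

theorem toMQ_apply (z : Matrix (Fin 3) (Fin 3) L) (i j : Fin 3) :
    (toMQ z : MQ L a b) i j = ((z i j : L) : Qt (up L a) (up L b)) := rfl

theorem toMQ_mul (x y : Matrix (Fin 3) (Fin 3) L) :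
    (toMQ (x * y) : MQ L a b) = toMQ x * toMQ y :=
  Matrix.map_mul (f := algebraMap L (Qt (up L a) (up L b)))

theorem toMQ_one : (toMQ (1 : Matrix (Fin 3) (Fin 3) L) : MQ L a b) = 1 := by
  rw [toMQ, Matrix.map_one _ (map_zero _) (map_one _)]

theorem uq_mul_wq : (toMQ (u0 L lam) : MQ L a b) * toMQ (w0 L lam) = 1 := by
  rw [← toMQ_mul, u0_mul_w0, toMQ_one]

theorem wq_mul_uq : (toMQ (w0 L lam) : MQ L a b) * toMQ (u0 L lam) = 1 := by
  rw [← toMQ_mul, w0_mul_u0, toMQ_one]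

/-- The semilinear map on the rows. -/
def Trow (ρ : L ≃ₐ[k] L) (lam : kˣ) {a b : kˣ} (r : Fin 3 → Qt (up L a) (up L b)) :
    Fin 3 → Qt (up L a) (up L b) :=
  Matrix.vecMul (fun i => qmap ρ (r i)) (toMQ (w0 L lam))

theorem Trow_eq (r : Fin 3 → Qt (up L a) (up L b)) :
    Trow ρ lam r = ![algebraMap k L lam • qmap ρ (r 2), qmap ρ (r 0), qmap ρ (r 1)] := by
  funext j
  have h0 : (((0 : L) : Qt (up L a) (up L b))) = 0 := rfl
  have h1 : (((1 : L) : Qt (up L a) (up L b))) = 1 := rfl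
  rw [Trow, Matrix.vecMul, dotProduct, Fin.sum_univ_three]
  simp only [toMQ_apply]
  fin_cases j
  · change qmap ρ (r 0) * ((0 : L) : Qt (up L a) (up L b)) + qmap ρ (r 1) *
      ((0 : L) : Qt (up L a) (up L b)) + qmap ρ (r 2) * ((algebraMap k L lam : L) :
        Qt (up L a) (up L b)) = algebraMap k L lam • qmap ρ (r 2)
    rw [h0, mul_zero, mul_zero, zero_add, zero_add, ← QuaternionAlgebra.coe_commutes,
      QuaternionAlgebra.coe_mul_eq_smul]
  · change qmap ρ (r 0) * ((1 : L) : Qt (up L a) (up L b)) + qmap ρ (r 1) *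
      ((0 : L) : Qt (up L a) (up L b)) + qmap ρ (r 2) * ((0 : L) :
        Qt (up L a) (up L b)) = qmap ρ (r 0)
    rw [h0, h1, mul_zero, mul_zero, mul_one, add_zero, add_zero]
  · change qmap ρ (r 0) * ((0 : L) : Qt (up L a) (up L b)) + qmap ρ (r 1) *
      ((1 : L) : Qt (up L a) (up L b)) + qmap ρ (r 2) * ((0 : L) :
        Qt (up L a) (up L b)) = qmap ρ (r 1)
    rw [h0, h1, mul_zero, mul_zero, mul_one, add_zero, zero_add]

theorem vecMul_qmap (r : Fin 3 → Qt (up L a) (up L b)) (m : MQ L a b) :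
    (fun i => qmap ρ (Matrix.vecMul r m i)) =
      Matrix.vecMul (fun i => qmap ρ (r i)) (m.map (qmap ρ)) := by
  funext i
  exact RingHom.map_vecMul (H64.qmapH ρ a b) m r i

theorem InD.comm_wq {m : MQ L a b} (hm : InD ρ lam m) :
    m.map (qmap ρ) * toMQ (w0 L lam) = toMQ (w0 L lam) * m := by
  rw [InD] at hm
  calc m.map (qmap ρ) * toMQ (w0 L lam)
      = (toMQ (w0 L lam) * toMQ (u0 L lam)) * m.map (qmap ρ) * toMQ (w0 L lam) := by
        rw [wq_mul_uq, Matrix.one_mul]
    _ = toMQ (w0 L lam) * (toMQ (u0 L lam) * m.map (qmap ρ)) * toMQ (w0 L lam) := by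
        rw [Matrix.mul_assoc (toMQ (w0 L lam))]
    _ = toMQ (w0 L lam) * m * (toMQ (u0 L lam) * toMQ (w0 L lam)) := by
        rw [← hm]
        simp only [Matrix.mul_assoc]
    _ = _ := by rw [uq_mul_wq, Matrix.mul_one]

theorem Trow_vecMul {m : MQ L a b} (hm : InD ρ lam m) (r : Fin 3 → Qt (up L a) (up L b)) :
    Trow ρ lam (Matrix.vecMul r m) = Matrix.vecMul (Trow ρ lam r) m := by
  rw [Trow, vecMul_qmap, Matrix.vecMul_vecMul, hm.comm_wq, ← Matrix.vecMul_vecMul]
  rfl

theorem Trow_smul (q : Qt (up L a) (up L b)) (r : Fin 3 → Qt (up L a) (up L b)) :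
    Trow ρ lam (q • r) = qmap ρ q • Trow ρ lam r := by
  rw [Trow, Trow, ← Matrix.smul_vecMul]
  congr 1
  funext i
  exact qmap_mul ρ q (r i)

theorem Trow_zero : Trow ρ lam (0 : Fin 3 → Qt (up L a) (up L b)) = 0 := by
  have h := Trow_smul (ρ := ρ) (lam := lam) (0 : Qt (up L a) (up L b)) 0
  rw [zero_smul, qmap_zero, zero_smul] at h
  exact h

theorem Trow_cube (hρ3 : ∀ t : L, ρ (ρ (ρ t)) = t) (r : Fin 3 → Qt (up L a) (up L b)) :
    Trow ρ lam (Trow ρ lam (Trow ρ lam r)) = algebraMap k L lam • r := by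
  have h : ∀ q : Qt (up L a) (up L b), qmap ρ (qmap ρ (qmap ρ q)) = q := fun q =>
    QuaternionAlgebra.ext (hρ3 _) (hρ3 _) (hρ3 _) (hρ3 _)
  have h' : ρ (algebraMap k L lam) = algebraMap k L lam := ρ.commutes _
  rw [Trow_eq, Trow_eq, Trow_eq]
  funext j
  fin_cases j
  · change algebraMap k L lam • qmap ρ (qmap ρ (qmap ρ (r 0))) = algebraMap k L lam • r 0
    rw [h]
  · change qmap ρ (algebraMap k L lam • qmap ρ (qmap ρ (r 1))) = algebraMap k L lam • r 1
    rw [qmap_smul, h', h]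
  · change qmap ρ (qmap ρ (algebraMap k L lam • qmap ρ (r 2))) = algebraMap k L lam • r 2
    rw [qmap_smul, qmap_smul, h', h', h]

/-- There is no stable line. -/
theorem no_line [CharZero k] (hab : Aniso (up L a) (up L b)) (h3 : Module.finrank k L = 3) (hρ : ρ ≠ 1)
    (hlam : ∀ x : L, Algebra.norm k x ≠ lam)
    {r : Fin 3 → Qt (up L a) (up L b)} (hr : r ≠ 0) {q : Qt (up L a) (up L b)}
    (hq : Trow ρ lam r = q • r) : False := by
  have h1 := Trow_cube (lam := lam) (rho3 h3 hρ) r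
  rw [hq, Trow_smul, hq, smul_smul, Trow_smul, hq, smul_smul] at h1
  obtain ⟨i, hi⟩ : ∃ i, r i ≠ 0 := by
    by_contra hc
    push Not at hc
    exact hr (funext hc)
  have h4 : qmap ρ (qmap ρ q * q) * q = ((algebraMap k L lam : L) : Qt (up L a) (up L b)) := by
    have h5 := congrFun h1 i
    rw [Pi.smul_apply, Pi.smul_apply, smul_eq_mul, ← QuaternionAlgebra.coe_mul_eq_smul] at h5
    rcases H64.isUnit_or_zero hab (r i) with hu | hu
    · exact hu.mul_right_cancel h5
    · exact absurd hu hi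
  have h5 := congrArg nrd h4
  rw [nrd_mul, nrd_qmap, nrd_mul, nrd_qmap, map_mul] at h5
  set n := nrd q
  have h6 : nrd ((algebraMap k L lam : L) : Qt (up L a) (up L b)) = algebraMap k L lam ^ 2 := by
    simp [nrd]
  rw [h6] at h5
  have hl0 : algebraMap k L lam ≠ 0 := (up L lam).ne_zero
  have hn : n * ρ n * ρ (ρ n) = algebraMap k L lam ^ 2 := by
    rw [← h5]; ring
  have hn0 : n ≠ 0 := by
    intro h0
    rw [h0, zero_mul, zero_mul] at hn
    exact pow_ne_zero 2 hl0 hn.symm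
  apply hlam (algebraMap k L lam / n)
  apply (algebraMap k L).injective
  rw [norm_rho h3 hρ]
  rw [map_div₀, map_div₀, ρ.commutes, ρ.commutes]
  have hn1 : ρ n ≠ 0 := (map_ne_zero ρ).mpr hn0
  have hn2 : ρ (ρ n) ≠ 0 := (map_ne_zero ρ).mpr hn1
  field_simp
  exact hn.symm

/-- `D ⊗ Q` is a division algebra. -/
theorem isUnit_of_inD' [CharZero k] (hab : Aniso (up L a) (up L b)) (h3 : Module.finrank k L = 3)
    (hρ : ρ ≠ 1) (hlam : ∀ x : L, Algebra.norm k x ≠ lam) {m : MQ L a b} (hm : InD ρ lam m)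
    (h0 : m ≠ 0) : IsUnit m := by
  let _ : DivisionRing (Qt (up L a) (up L b)) :=
    DivisionRing.ofIsUnitOrEqZero (H64.isUnit_or_zero hab)
  set f := Matrix.vecMulLinear m with hf
  have hfm : ∀ r, f r = Matrix.vecMul r m := fun r => rfl
  -- a stable submodule of dimension one is impossible
  have key : ∀ W : Submodule (Qt (up L a) (up L b)) (Fin 3 → Qt (up L a) (up L b)),
      (∀ r ∈ W, Trow ρ lam r ∈ W) → Module.finrank (Qt (up L a) (up L b)) W ≠ 1 := by
    intro W hW h1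
    obtain ⟨v, hv, hspan⟩ := finrank_eq_one_iff'.mp h1
    obtain ⟨q, hq⟩ := hspan ⟨Trow ρ lam v.1, hW _ v.2⟩
    have hv0 : (v : Fin 3 → Qt (up L a) (up L b)) ≠ 0 := fun h => hv (Subtype.ext h)
    exact no_line hab h3 hρ hlam hv0 (q := q) (congrArg Subtype.val hq).symm
  have hker : ∀ r ∈ LinearMap.ker f, Trow ρ lam r ∈ LinearMap.ker f := by
    intro r hr
    rw [LinearMap.mem_ker, hfm] at hr ⊢
    rw [← Trow_vecMul hm, hr, Trow_zero]
  have hran : ∀ r ∈ LinearMap.range f, Trow ρ lam r ∈ LinearMap.range f := by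
    rintro r ⟨s, rfl⟩
    exact ⟨Trow ρ lam s, by rw [hfm, hfm, Trow_vecMul hm]⟩
  have h1 := key _ hker
  have h2 := key _ hran
  have h4 := LinearMap.finrank_range_add_finrank_ker f
  rw [Module.finrank_fin_fun] at h4
  have h5 : Module.finrank (Qt (up L a) (up L b)) (LinearMap.range f) ≠ 0 := by
    intro h
    apply h0
    have h6 : LinearMap.range f = ⊥ := Submodule.finrank_eq_zero.mp h
    have h7 : f = 0 := LinearMap.range_eq_bot.mp h6
    apply Matrix.ext
    intro i j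
    have h8 := congrFun (LinearMap.congr_fun h7 (Pi.single i 1)) j
    rw [hfm, Matrix.single_one_vecMul] at h8
    exact h8
  have h6 : LinearMap.ker f = ⊥ := Submodule.finrank_eq_zero.mp (by omega)
  have h7 : LinearMap.range f = ⊤ := Submodule.eq_top_of_finrank_eq (by
    rw [Module.finrank_fin_fun]; omega)
  have hinj : Function.Injective f := LinearMap.ker_eq_bot.mp h6
  have hsur : Function.Surjective f := LinearMap.range_eq_top.mp h7
  choose n hn using fun i : Fin 3 => hsur (Pi.single i 1)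
  have hn1 : Matrix.of n * m = 1 := by
    apply Matrix.ext
    intro i j
    have h8 := congrFun (hn i) j
    rw [Matrix.one_apply]
    rw [Pi.single_apply] at h8
    simp only [eq_comm (a := i) (b := j)]
    exact h8
  have hn2 : m * Matrix.of n = 1 := by
    apply Matrix.ext
    intro i j
    have h9 : f ((m * Matrix.of n) i) = f ((1 : MQ L a b) i) := by
      have h10 : ∀ A : MQ L a b, f (A i) = (A * m) i := fun A => rfl
      rw [h10, h10, Matrix.mul_assoc, hn1, Matrix.mul_one, Matrix.one_mul]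
    exact congrFun (hinj h9) j
  exact ⟨⟨m, Matrix.of n, hn2, hn1⟩, rfl⟩

end rows

end Vale.Agent.P011.E6I
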