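import Vale.Agent.P011.E6I.Defs

/-!
Frames in the intersection of `V` and `h V`.
-/

namespace Vale.Agent.P011.E6I

open Vale.Agent.P011.MPQ Vale.Agent.P011.D4 Vale.Agent.P011.D4.Oct Vale.Agent.P011.E6

variable {k L : Type} [Field k] [Field L] [Algebra k L]

/-- The space `V ∩ hV` contains a frame: the space `L[z] v`, for an element `z` of `D ⊗ Q` which is
cubic over the ground field. -/
def Frm (ρ : L ≃ₐ[k] L) (lam : kˣ) {a b c : kˣ} (h : AlbL L a b c ≃ₗ[L] AlbL L a b c) : Prop :=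
  ∃ (z : MQ L a b) (p2 p1 p0 : k) (v x y : AlbL L a b c),
    InD ρ lam z ∧
    z ^ 3 = algebraMap k L p2 • z ^ 2 + algebraMap k L p1 • z + algebraMap k L p0 • 1 ∧
    (∀ q1 q0 : k, z ^ 2 ≠ algebraMap k L q1 • z + algebraMap k L q0 • 1) ∧
    v ∈ Vsub L a b c ∧ x ∈ Vsub L a b c ∧ y ∈ Vsub L a b c ∧
    Alb.mat x = z * Alb.mat v ∧ Alb.mat y = z * Alb.mat x ∧ Alb.cub v ≠ 0 ∧
    h⁻¹ v ∈ Vsub L a b c ∧ h⁻¹ x ∈ Vsub L a b c ∧ h⁻¹ y ∈ Vsub L a b c ∧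
    ∀ s ∈ Submodule.span L {v, x, y}, ph ρ lam s ∈ Submodule.span L {v, x, y}

end Vale.Agent.P011.E6I
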