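import Vale.Agent.P011.E6I.FxPsi
import Vale.Agent.P011.E6I.H68.FkS
import Vale.Agent.P011.E6I.H69.ResB

/-!
The pointwise stabilizer of a cubic subfield of the cyclic algebra.
-/

open Matrix Polynomial

namespace Vale.Agent.P011.E6I

open Vale.Agent.P011.MPQ Vale.Agent.P011.D4 Vale.Agent.P011.D4.Oct Vale.Agent.P011.E6
open Vale.Agent.P011.E6.Alb

namespace Fx

theorem mat_ofF {F : Type} [Field F] {a b c : Fˣ} {T : Matrix (Fin 3) (Fin 3) F} (hT : Tᵀ = T) :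
    Alb.mat (Alb.ofF T : Alb a b c) = T.map (algebraMap F (Qt a b)) := by
  have h1 : T 1 0 = T 0 1 := congrFun (congrFun hT 0) 1
  have h2 : T 2 0 = T 0 2 := congrFun (congrFun hT 0) 2
  have h3 : T 2 1 = T 1 2 := congrFun (congrFun hT 1) 2
  ext i j : 1
  rw [Matrix.map_apply]
  fin_cases i <;> fin_cases j <;> ext <;> simp [Alb.mat, Alb.ofF, h1, h2, h3]

theorem herN_ofF {F : Type} [Field F] {a b : Fˣ} {T : Matrix (Fin 3) (Fin 3) F} (hT : Tᵀ = T) :
    H64.herN (T.map (algebraMap F (Qt a b))) = T.det := by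
  have h1 : T 1 0 = T 0 1 := congrFun (congrFun hT 0) 1
  have h2 : T 2 0 = T 0 2 := congrFun (congrFun hT 0) 2
  have h3 : T 2 1 = T 1 2 := congrFun (congrFun hT 1) 2
  rw [H64.herN, Matrix.det_fin_three]
  simp only [Matrix.map_apply]
  simp [nrd, h1, h2, h3]
  ring

end Fx

variable {k L : Type} [Field k] [NumberField k] [Field L] [NumberField L] [Algebra k L]
  {ρ : L ≃ₐ[k] L} {lam : kˣ} {a b c : kˣ}

/-- A normal subgroup that contains a nontrivial element of the pointwise stabilizer of a cubic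
field contains the whole stabilizer. -/
theorem fix_simple (H : Hyp ρ lam a b c) (N : Subgroup (GI ρ lam a b c)) (hN : N.Normal)
    {z : Matrix (Fin 3) (Fin 3) L} (hz : InD0 ρ lam z)
    (hzk : ∀ t : L, z ≠ t • (1 : Matrix (Fin 3) (Fin 3) L)) {φ ψ : GI ρ lam a b c} (hφN : φ ∈ N)
    (hφ1 : φ ≠ 1)
    (hφ : ∀ S : Matrix (Fin 3) (Fin 3) L, Sᵀ = S → z * S = S * zᵀ →
      φ.1 (Alb.ofF S) = Alb.ofF S)
    (hψ : ∀ S : Matrix (Fin 3) (Fin 3) L, Sᵀ = S → z * S = S * zᵀ →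
      ψ.1 (Alb.ofF S) = Alb.ofF S) : ψ ∈ N := by
  obtain ⟨p0, p1, p2, P, hirr, hP, hzP⟩ := Fx.exists_P H hz hzk
  obtain ⟨g, hg⟩ := Fx.exists_Psi (fun t => H.fix) hP hz hzP φ.2 hφ
  obtain ⟨g', hg'⟩ := Fx.exists_Psi (fun t => H.fix) hP hz hzP ψ.2 hψ
  have hg1 : Fx.Psi hP hz hzP g = φ := Subtype.ext hg
  have hg1' : Fx.Psi hP hz hzP g' = ψ := Subtype.ext hg'
  rcases fixK_simple H.hdiv hirr (N.comap (Fx.Psi hP hz hzP)) (hN.comap _) with h | h
  · exfalso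
    have h1 : g ∈ N.comap (Fx.Psi hP hz hzP) := by
      rw [Subgroup.mem_comap, hg1]
      exact hφN
    rw [h, Subgroup.mem_bot] at h1
    apply hφ1
    rw [← hg1, h1, map_one]
  · have h1 : g' ∈ N.comap (Fx.Psi hP hz hzP) := by
      rw [h]
      exact Subgroup.mem_top _
    rw [Subgroup.mem_comap, hg1'] at h1
    exact h1

/-- The automorphisms of the octonion algebra fix the frames. -/
theorem autI_fix (H : Hyp ρ lam a b c) (f : AutC a b c)
    {z : Matrix (Fin 3) (Fin 3) L} (hz : InD0 ρ lam z)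
    (hzk : ∀ t : L, z ≠ t • (1 : Matrix (Fin 3) (Fin 3) L))
    {S : Matrix (Fin 3) (Fin 3) L} (hS : Sᵀ = S) (hzS : z * S = S * zᵀ) :
    (autI ρ lam a b c f).1 (Alb.ofF S) = Alb.ofF S := by
  obtain ⟨p0, p1, p2, P, hirr, hP, hzP⟩ := Fx.exists_P H hz hzk
  obtain ⟨g, hg⟩ := fixK_aut hirr f
  rw [← Fx.Psi_of_aut hP hz hzP g f hg (autI_aup f)]
  exact Fx.Psi_fix hP hz hzP g hS hzS

/-- The pointwise stabilizer of a cubic subfield. -/
theorem fix (H : Hyp ρ lam a b c) {z : Matrix (Fin 3) (Fin 3) L} (hz : InD0 ρ lam z)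
    (hzk : ∀ t : L, z ≠ t • (1 : Matrix (Fin 3) (Fin 3) L))
    {φ : AlbL L a b c ≃ₗ[L] AlbL L a b c} (hφ : φ ∈ GI ρ lam a b c)
    (hfix : ∀ S : Matrix (Fin 3) (Fin 3) L, Sᵀ = S → z * S = S * zᵀ →
      φ (Alb.ofF S) = Alb.ofF S) : φ ∈ Res ρ lam a b c := by
  rw [mem_Res hφ]
  intro N hN hA
  refine fix_simple H N hN hz hzk (φ := autI ρ lam a b c (long a b c (negS a b)))
    (ψ := ⟨φ, hφ⟩) (hA _) (fun h => long_negS_ne (a := a) (b := b) (c := c) ?_)
    (fun S hS hzS => autI_fix H _ hz hzk hS hzS) hfix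
  exact autI_injective (ρ := ρ) (lam := lam) (by rw [h, map_one])

/-- The special linear groups of the quaternion algebras over the cubic subfields. -/
theorem cubic_Res (H : Hyp ρ lam a b c) {z : Matrix (Fin 3) (Fin 3) L} (hz : InD0 ρ lam z)
    (hzk : ∀ t : L, z ≠ t • (1 : Matrix (Fin 3) (Fin 3) L)) {q : (MQ L a b)ˣ}
    (hq : InD ρ lam (q : MQ L a b)) (_ : (q : MQ L a b) * toMQ z = toMQ z * (q : MQ L a b))
    (hfix : ∀ S : Matrix (Fin 3) (Fin 3) L, Sᵀ = S → z * S = S * zᵀ →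
      (q : MQ L a b) * toMQ S * (q : MQ L a b)ᴴ = toMQ S) : InRes ρ lam c q := by
  intro φ hφ
  have hmat : ∀ T : Matrix (Fin 3) (Fin 3) L, Tᵀ = T →
      Alb.mat (Alb.ofF T : AlbL L a b c) = toMQ T := fun T hT => Fx.mat_ofF hT
  have hvec : ∀ T : Matrix (Fin 3) (Fin 3) L, Alb.vec (Alb.ofF T : AlbL L a b c) = 0 := by
    intro T
    ext i
    all_goals fin_cases i <;> simp [Alb.vec, Alb.ofF]
  have hherm : ∀ T : Matrix (Fin 3) (Fin 3) L, Tᵀ = T →
      (toMQ T : MQ L a b).IsHermitian := by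
    intro T hT
    rw [← hmat T hT]
    exact H64.mat_isHermitian _
  have hN : ∀ T : Matrix (Fin 3) (Fin 3) L, Tᵀ = T → H64.herN (toMQ T : MQ L a b) = T.det :=
    fun T hT => Fx.herN_ofF hT
  have h1 : ∀ S : Matrix (Fin 3) (Fin 3) L, Sᵀ = S → z * S = S * zᵀ →
      φ (Alb.ofF S) = Alb.ofF S := by
    intro S hS hzS
    rw [hφ]
    conv_rhs => rw [← H64.ofMV_mat_vec (Alb.ofF S : AlbL L a b c), hmat _ hS, hvec]
    rw [Alb.act, hmat _ hS, hvec, hfix S hS hzS, Matrix.zero_vecMul]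
    congr 1
    ext i
    all_goals simp
  have hn : nu (q : MQ L a b) = 1 := by
    obtain ⟨p0, p1, p2, P, hirr, hP, hzP⟩ := Fx.exists_P H hz hzk
    have hS0 : (P * S0 (algebraMap k L p1) (algebraMap k L p2) * Pᵀ)ᵀ =
        P * S0 (algebraMap k L p1) (algebraMap k L p2) * Pᵀ := by
      rw [Matrix.transpose_mul, Matrix.transpose_mul, Matrix.transpose_transpose, S0_transpose,
        Matrix.mul_assoc]
    have hzS : z * (P * S0 (algebraMap k L p1) (algebraMap k L p2) * Pᵀ) =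
        (P * S0 (algebraMap k L p1) (algebraMap k L p2) * Pᵀ) * zᵀ :=
      (Fx.frame_iff hP hzP).2 (Fx.sym_M (S0_transpose _ _) (by rw [Mp_mul_S0, S1_transpose]))
    have h2 := H64.herN_mul two_ne_zero H.aniso (q : MQ L a b) _ (hherm _ hS0)
    rw [hfix _ hS0 hzS, hN _ hS0] at h2
    have h3 : (P * S0 (algebraMap k L p1) (algebraMap k L p2) * Pᵀ).det ≠ 0 := by
      rw [Matrix.det_mul, Matrix.det_mul, Matrix.det_transpose, Fx.det_S0]
      exact mul_ne_zero (mul_ne_zero hP (neg_ne_zero.mpr one_ne_zero)) hP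
    apply mul_right_cancel₀ h3
    rw [one_mul, ← h2]
  refine fix H hz hzk ⟨fun x => ?_, fun x => ?_⟩ h1
  · rw [hφ, cub_act H.aniso q 1 (by rw [hn]; exact nrd_one), hn, one_mul]
  · rw [hφ, hφ, ← qup_one (L := L), ph_act H hq]

end Vale.Agent.P011.E6I
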