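import Vale.Agent.P011.E6I.Basic
import Vale.Agent.P011.E6I.H68.FkDef

/-!
The elements of the cyclic algebra of degree three over the ground field are conjugate, over the
cyclic extension, to companion matrices over the ground field.
-/

open Matrix Polynomial

namespace Vale.Agent.P011.E6I

open Vale.Agent.P011.MPQ Vale.Agent.P011.D4 Vale.Agent.P011.D4.Oct Vale.Agent.P011.E6

namespace Fx

section field

variable {F : Type} [Field F]

theorem Mp_sq (p0 p1 p2 : F) : Mp p0 p1 p2 * Mp p0 p1 p2 =
    !![0, -p0, p2 * p0; 0, -p1, -p0 + p2 * p1; 1, -p2, -p1 + p2 ^ 2] := by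
  ext i j
  fin_cases i <;> fin_cases j <;> simp [Mp, Matrix.mul_apply, Fin.sum_univ_three] <;> ring

/-- A matrix that commutes with the companion matrix is a polynomial in it. -/
theorem eq_of_comm {p0 p1 p2 : F} {v : Matrix (Fin 3) (Fin 3) F}
    (h : v * Mp p0 p1 p2 = Mp p0 p1 p2 * v) :
    v = v 0 0 • 1 + v 1 0 • Mp p0 p1 p2 + v 2 0 • (Mp p0 p1 p2 * Mp p0 p1 p2) := by
  have h1 : ∀ i j, (v * Mp p0 p1 p2) i j = (Mp p0 p1 p2 * v) i j := fun i j => by rw [h]
  have h00 := h1 0 0
  have h10 := h1 1 0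
  have h20 := h1 2 0
  have h01 := h1 0 1
  have h11 := h1 1 1
  have h21 := h1 2 1
  simp [Mp, Matrix.mul_apply, Fin.sum_univ_three] at h00 h10 h20 h01 h11 h21
  rw [Mp_sq]
  ext i j
  fin_cases i <;> fin_cases j <;> simp [Mp, Matrix.smul_apply, Matrix.add_apply]
  · linear_combination h00
  · linear_combination h01 - p0 * h20
  · linear_combination h10
  · linear_combination h11 - p1 * h20 + h00
  · linear_combination h20
  · linear_combination h21 - p2 * h20 + h10

theorem mul_S0 {p0 p1 p2 : F} {v : Matrix (Fin 3) (Fin 3) F}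
    (h : v * Mp p0 p1 p2 = Mp p0 p1 p2 * v) :
    v * S0 p1 p2 = v 0 0 • S0 p1 p2 + v 1 0 • S1 p0 p2 + v 2 0 • S2 p0 p1 := by
  conv_lhs => rw [eq_of_comm h]
  rw [Matrix.add_mul, Matrix.add_mul, Matrix.smul_mul, Matrix.smul_mul, Matrix.smul_mul,
    Matrix.one_mul, Matrix.mul_assoc, Mp_mul_S0, Mp_mul_S1]

theorem det_S0 (p1 p2 : F) : (S0 p1 p2).det = -1 := by
  rw [Matrix.det_fin_three]
  simp [S0]

end field

section ext

variable {k L : Type} [Field k] [NumberField k] [Field L] [NumberField L] [Algebra k L]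
  {ρ : L ≃ₐ[k] L} {lam : kˣ} {a b c : kˣ}

omit [NumberField k] [NumberField L] in
theorem toMQ_mul_fx (x y : Matrix (Fin 3) (Fin 3) L) :
    (toMQ (x * y) : MQ L a b) = toMQ x * toMQ y :=
  Matrix.map_mul (f := algebraMap L (Qt (up L a) (up L b)))

omit [NumberField k] [NumberField L] in
theorem inD_toMQ {z : Matrix (Fin 3) (Fin 3) L} (hz : InD0 ρ lam z) :
    InD ρ lam (toMQ z : MQ L a b) := by
  have h : (toMQ z : MQ L a b).map (qmap ρ) = toMQ (z.map ρ) := by
    ext1 i j
    rw [Matrix.map_apply, toMQ_apply, toMQ_apply, Matrix.map_apply]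
    apply QuaternionAlgebra.ext <;> simp [qmap]
  rw [InD, h, ← toMQ_mul_fx, ← toMQ_mul_fx, hz]

/-- The cyclic algebra is a division algebra. -/
theorem det_ne_zero (H : Hyp ρ lam a b c) {z : Matrix (Fin 3) (Fin 3) L} (hz : InD0 ρ lam z)
    (h0 : z ≠ 0) : z.det ≠ 0 := by
  intro hd
  obtain ⟨v, hv, hzv⟩ := Matrix.exists_mulVec_eq_zero_iff.mpr hd
  have h1 : (toMQ z : MQ L a b) ≠ 0 := by
    intro h
    apply h0
    ext i j
    have h2 := congrFun (congrFun h i) j
    rw [toMQ_apply] at h2
    exact congrArg QuaternionAlgebra.re h2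
  obtain ⟨m, hm⟩ := isUnit_of_inD H (inD_toMQ hz) h1
  let w : Fin 3 → Qt (up L a) (up L b) := fun i => algebraMap L _ (v i)
  have h2 : (m : MQ L a b) *ᵥ w = 0 := by
    funext i
    have h3 : algebraMap L (Qt (up L a) (up L b)) ((z *ᵥ v) i) = 0 := by
      rw [hzv]
      exact map_zero _
    rw [RingHom.map_mulVec] at h3
    rw [hm]
    exact h3
  have h3 : w = 0 := by
    have h4 : ((m⁻¹ : (MQ L a b)ˣ) : MQ L a b) *ᵥ ((m : MQ L a b) *ᵥ w) = w := by
      rw [Matrix.mulVec_mulVec, Units.inv_mul, Matrix.one_mulVec]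
    rw [← h4, h2, Matrix.mulVec_zero]
  apply hv
  funext i
  exact congrArg QuaternionAlgebra.re (congrFun h3 i)

omit [NumberField k] [NumberField L] in
theorem charpoly_map_eq {z : Matrix (Fin 3) (Fin 3) L} (hz : InD0 ρ lam z) :
    z.charpoly.map (ρ : L →+* L) = z.charpoly := by
  have h1 : z = u0 L lam * z.map ρ * w0 L lam := by
    rw [← hz, Matrix.mul_assoc, u0_mul_w0, Matrix.mul_one]
  have h2 : z.charpoly = (z.map ρ).charpoly := by
    conv_lhs => rw [h1]
    rw [Matrix.charpoly_mul_comm, ← Matrix.mul_assoc, w0_mul_u0, Matrix.one_mul]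
  rw [← Matrix.charpoly_map]
  exact h2.symm

omit [NumberField k] [NumberField L] in
theorem charpoly_eq (z : Matrix (Fin 3) (Fin 3) L) : z.charpoly = X ^ 3 +
    C (z.charpoly.coeff 2) * X ^ 2 + C (z.charpoly.coeff 1) * X + C (z.charpoly.coeff 0) := by
  have h1 : z.charpoly.natDegree = 3 := by
    rw [Matrix.charpoly_natDegree_eq_dim]
    rfl
  have h2 := z.charpoly_monic.as_sum
  rw [h1, Finset.sum_range_succ, Finset.sum_range_succ, Finset.sum_range_one] at h2
  conv_lhs => rw [h2]
  ring

omit [NumberField k] [NumberField L] in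
/-- The elements of the cyclic algebra with given first column. -/
def colD (ρ : L ≃ₐ[k] L) (lam : kˣ) (e : Fin 3 → L) : Matrix (Fin 3) (Fin 3) L :=
  !![e 0, ((up L lam)⁻¹ : Lˣ) * ρ (e 2), ((up L lam)⁻¹ : Lˣ) * ρ (ρ (e 1));
     e 1, ρ (e 0), ((up L lam)⁻¹ : Lˣ) * ρ (ρ (e 2));
     e 2, ρ (e 1), ρ (ρ (e 0))]

omit [NumberField k] [NumberField L] in
theorem rho_inv : ρ (((up L lam)⁻¹ : Lˣ) : L) = (((up L lam)⁻¹ : Lˣ) : L) := by
  rw [Units.val_inv_eq_inv_val, map_inv₀]
  congr 1
  exact ρ.commutes _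

omit [NumberField k] [NumberField L] in
theorem colD_mem (hρ3 : ∀ x, ρ (ρ (ρ x)) = x) (e : Fin 3 → L) : InD0 ρ lam (colD ρ lam e) := by
  have h1 := rho_inv (ρ := ρ) (lam := lam)
  rw [InD0]
  ext i j
  fin_cases i <;> fin_cases j <;>
    simp [colD, u0, Matrix.mul_apply, Fin.sum_univ_three, hρ3, mul_comm]

omit [NumberField k] [NumberField L] in
theorem eq_colD {m : Matrix (Fin 3) (Fin 3) L} (hm : InD0 ρ lam m) :
    m = colD ρ lam fun i => m i 0 := by
  have h1 : ∀ i j, (m * u0 L lam) i j = (u0 L lam * m.map ρ) i j := fun i j => by rw [hm]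
  have h2 := rho_inv (ρ := ρ) (lam := lam)
  have h00 := h1 0 0
  have h10 := h1 1 0
  have h20 := h1 2 0
  have h01 := h1 0 1
  have h11 := h1 1 1
  have h21 := h1 2 1
  simp only [u0, Matrix.mul_apply, Fin.sum_univ_three, Matrix.of_apply, Matrix.cons_val',
    Matrix.cons_val_zero, Matrix.cons_val_one, Matrix.cons_val, Matrix.map_apply, mul_zero,
    zero_mul, mul_one, one_mul, add_zero, zero_add] at h00 h10 h20 h01 h11 h21
  rw [h20] at h01
  rw [h00, map_mul, h2] at h11
  rw [h10] at h21
  ext i j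
  fin_cases i <;> fin_cases j
  · rfl
  · exact h00
  · exact h01
  · rfl
  · exact h10
  · exact h11
  · rfl
  · exact h20
  · exact h21

omit [NumberField L] in
/-- The diagonal matrices of the cyclic algebra act on the columns. -/
theorem mul_colD (H : Hyp ρ lam a b c) {z : Matrix (Fin 3) (Fin 3) L} (hz : InD0 ρ lam z)
    {e : Fin 3 → L} {t : L} (he : z *ᵥ e = t • e) :
    z * colD ρ lam e = colD ρ lam e * Matrix.diagonal ![t, ρ t, ρ (ρ t)] := by
  have h1 : InD0 ρ lam (z * colD ρ lam e) := by
    have h2 := colD_mem (lam := lam) H.rho3 e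
    rw [InD0] at h2 hz ⊢
    rw [Matrix.mul_assoc, h2, ← Matrix.mul_assoc, hz, Matrix.mul_assoc]
    congr 1
    exact (Matrix.map_mul (f := (ρ : L →+* L))).symm
  rw [eq_colD h1]
  have h3 : (fun i => (z * colD ρ lam e) i 0) = t • e := by
    rw [← he]
    funext i
    rw [Matrix.mul_apply, Matrix.mulVec, dotProduct]
    refine Finset.sum_congr rfl fun j _ => ?_
    fin_cases j <;> rfl
  rw [h3]
  ext i j
  fin_cases i <;> fin_cases j <;>
    simp [colD, Matrix.mul_apply, Fin.sum_univ_three, mul_comm, mul_left_comm]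

omit [NumberField k] [NumberField L] in
theorem vand_mul {p0 p1 p2 : L} (v : Fin 3 → L)
    (h : ∀ i, v i ^ 3 + p2 * v i ^ 2 + p1 * v i + p0 = 0) :
    Matrix.vandermonde v * Mp p0 p1 p2 = Matrix.diagonal v * Matrix.vandermonde v := by
  ext i j
  rw [Matrix.diagonal_mul]
  fin_cases j
  · simp [Matrix.vandermonde, Mp, Matrix.mul_apply, Fin.sum_univ_three]
  · simp [Matrix.vandermonde, Mp, Matrix.mul_apply, Fin.sum_univ_three, pow_succ]
  · simp [Matrix.vandermonde, Mp, Matrix.mul_apply, Fin.sum_univ_three]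
    linear_combination -h i

theorem exists_P (H : Hyp ρ lam a b c) {z : Matrix (Fin 3) (Fin 3) L} (hz : InD0 ρ lam z)
    (hzk : ∀ t : L, z ≠ t • (1 : Matrix (Fin 3) (Fin 3) L)) :
    ∃ (p0 p1 p2 : k) (P : Matrix (Fin 3) (Fin 3) L),
      Irreducible (X ^ 3 + C p2 * X ^ 2 + C p1 * X + C p0 : k[X]) ∧ P.det ≠ 0 ∧
      z * P = P * Mp (algebraMap k L p0) (algebraMap k L p1) (algebraMap k L p2) := by
  have hp : ∀ i, ∃ s : k, algebraMap k L s = z.charpoly.coeff i := fun i => by
    apply H.fix
    conv_rhs => rw [← charpoly_map_eq hz]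
    rw [Polynomial.coeff_map]
    rfl
  obtain ⟨p0, hp0⟩ := hp 0
  obtain ⟨p1, hp1⟩ := hp 1
  obtain ⟨p2, hp2⟩ := hp 2
  have hχ : z.charpoly = X ^ 3 + C (algebraMap k L p2) * X ^ 2 + C (algebraMap k L p1) * X +
      C (algebraMap k L p0) := by
    rw [hp0, hp1, hp2]
    exact charpoly_eq z
  -- the polynomial over the ground field
  have hdeg : ∀ {E : Type} [Field E] (q0 q1 q2 : E),
      (X ^ 3 + C q2 * X ^ 2 + C q1 * X + C q0 : E[X]).natDegree = 3 := by
    intro E _ q0 q1 q2
    compute_degree!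
  have hmon : ∀ {E : Type} [Field E] (q0 q1 q2 : E),
      (X ^ 3 + C q2 * X ^ 2 + C q1 * X + C q0 : E[X]).Monic := by
    intro E _ q0 q1 q2
    monicity!
  have hroot : ∀ s : k, s ^ 3 + p2 * s ^ 2 + p1 * s + p0 ≠ 0 := by
    intro s hs
    have h1 : z.charpoly.eval (algebraMap k L s) = 0 := by
      rw [hχ]
      simp only [eval_add, eval_mul, eval_pow, eval_X, eval_C]
      rw [← map_pow, ← map_pow, ← map_mul, ← map_mul, ← map_add, ← map_add, ← map_add, hs,
        map_zero]
    rw [Matrix.eval_charpoly] at h1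
    have h2 : InD0 ρ lam (Matrix.scalar (Fin 3) (algebraMap k L s) - z) := by
      rw [InD0] at hz ⊢
      rw [Matrix.sub_mul, hz, Matrix.map_sub _ (map_sub ρ), Matrix.mul_sub]
      congr 1
      rw [(Matrix.scalar_commute (algebraMap k L s) (fun r => mul_comm _ _) (u0 L lam)).eq]
      congr 1
      ext i j
      rw [Matrix.map_apply, Matrix.scalar_apply, Matrix.diagonal_apply]
      split_ifs
      · exact (ρ.commutes _).symm
      · exact (map_zero ρ).symm
    refine det_ne_zero H h2 (fun h => hzk (algebraMap k L s) ?_) h1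
    rw [← sub_eq_zero.mp h, Matrix.scalar_apply, Matrix.smul_one_eq_diagonal]
  have hirr : Irreducible (X ^ 3 + C p2 * X ^ 2 + C p1 * X + C p0 : k[X]) := by
    rw [(hmon p0 p1 p2).irreducible_iff_roots_eq_zero_of_degree_le_three
      (by rw [hdeg]; norm_num) (by rw [hdeg])]
    apply Multiset.eq_zero_of_forall_notMem
    intro s hs
    rw [mem_roots (hmon p0 p1 p2).ne_zero, IsRoot.def] at hs
    simp only [eval_add, eval_mul, eval_pow, eval_X, eval_C] at hs
    exact hroot s hs
  by_cases hr : ∃ t : L, z.charpoly.eval t = 0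
  · obtain ⟨t, ht⟩ := hr
    have ht1 : t ^ 3 + algebraMap k L p2 * t ^ 2 + algebraMap k L p1 * t +
        algebraMap k L p0 = 0 := by
      rw [hχ] at ht
      simpa only [eval_add, eval_mul, eval_pow, eval_X, eval_C] using ht
    have ht2 : ∀ {t : L}, t ^ 3 + algebraMap k L p2 * t ^ 2 + algebraMap k L p1 * t +
        algebraMap k L p0 = 0 → (ρ t) ^ 3 + algebraMap k L p2 * (ρ t) ^ 2 +
          algebraMap k L p1 * ρ t + algebraMap k L p0 = 0 := by
      intro t h
      have h1 := congrArg ρ h
      rwa [map_add, map_add, map_add, map_mul, map_mul, map_pow, map_pow, ρ.commutes,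
        ρ.commutes, ρ.commutes, map_zero] at h1
    have hne : ρ t ≠ t := by
      intro h
      obtain ⟨s, rfl⟩ := H.fix h
      apply hroot s
      apply (algebraMap k L).injective
      rw [map_add, map_add, map_add, map_mul, map_mul, map_pow, map_pow, map_zero]
      exact ht1
    rw [Matrix.eval_charpoly] at ht
    obtain ⟨e, he0, he⟩ := Matrix.exists_mulVec_eq_zero_iff.mpr ht
    rw [Matrix.sub_mulVec, sub_eq_zero, Matrix.scalar_apply, ← Matrix.smul_one_eq_diagonal,
      Matrix.smul_mulVec, Matrix.one_mulVec] at he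
    have hE : (colD ρ lam e).det ≠ 0 := by
      apply det_ne_zero H (colD_mem H.rho3 e)
      intro h
      apply he0
      funext i
      have h1 := congrFun (congrFun h i) 0
      fin_cases i <;> exact h1
    have hV : (Matrix.vandermonde ![t, ρ t, ρ (ρ t)]).det ≠ 0 := by
      rw [Matrix.det_vandermonde_ne_zero_iff]
      have h1 : ρ (ρ t) ≠ t := fun h => hne (by
        have h2 := congrArg ρ h
        rw [H.rho3] at h2
        exact h2.symm)
      have h2 : ρ (ρ t) ≠ ρ t := fun h => hne (ρ.injective h)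
      intro i j hij
      fin_cases i <;> fin_cases j
      · rfl
      · exact absurd hij.symm hne
      · exact absurd hij.symm h1
      · exact absurd hij hne
      · rfl
      · exact absurd hij.symm h2
      · exact absurd hij h1
      · exact absurd hij h2
      · rfl
    refine ⟨p0, p1, p2, colD ρ lam e * Matrix.vandermonde ![t, ρ t, ρ (ρ t)], hirr, ?_, ?_⟩
    · rw [Matrix.det_mul]
      exact mul_ne_zero hE hV
    · rw [← Matrix.mul_assoc, mul_colD H hz he.symm, Matrix.mul_assoc, Matrix.mul_assoc,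
        vand_mul]
      intro i
      fin_cases i
      · exact ht1
      · exact ht2 ht1
      · exact ht2 (ht2 ht1)
  · push Not at hr
    have hirrL : Irreducible z.charpoly := by
      rw [z.charpoly_monic.irreducible_iff_roots_eq_zero_of_degree_le_three
        (by rw [hχ, hdeg]; norm_num) (by rw [hχ, hdeg])]
      apply Multiset.eq_zero_of_forall_notMem
      intro s hs
      rw [mem_roots z.charpoly_monic.ne_zero, IsRoot.def] at hs
      exact hr s hs
    have hch : z ^ 3 + algebraMap k L p2 • z ^ 2 + algebraMap k L p1 • z +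
        algebraMap k L p0 • 1 = 0 := by
      have h1 := z.aeval_self_charpoly
      rw [hχ] at h1
      simpa only [map_add, map_mul, map_pow, aeval_X, aeval_C,
        Algebra.algebraMap_eq_smul_one, smul_mul_assoc, one_mul] using h1
    refine ⟨p0, p1, p2, Matrix.of fun i j => (z ^ (j : ℕ)) i 0, hirr, ?_, ?_⟩
    · intro hd
      obtain ⟨v, hv, hPv⟩ := Matrix.exists_mulVec_eq_zero_iff.mpr hd
      let r : L[X] := C (v 0) + C (v 1) * X + C (v 2) * X ^ 2
      have hr0 : ∀ i, (aeval z r) i 0 = 0 := by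
        intro i
        have h1 := congrFun hPv i
        rw [Matrix.mulVec, dotProduct, Fin.sum_univ_three] at h1
        simp only [r, map_add, map_mul, map_pow, aeval_X, aeval_C,
          Algebra.algebraMap_eq_smul_one, smul_mul_assoc, one_mul, Matrix.add_apply,
          Matrix.smul_apply, smul_eq_mul]
        simp only [Matrix.of_apply, Fin.val_zero, Fin.val_one, Fin.val_two, pow_zero,
          pow_one, Pi.zero_apply] at h1
        linear_combination h1
      have hrdeg : r.natDegree < 3 := by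
        have : r.natDegree ≤ 2 := by
          simp only [r]
          compute_degree
        omega
      have hr1 : r ≠ 0 := by
        intro h
        apply hv
        funext i
        have h1 : ∀ n, r.coeff n = 0 := fun n => by rw [h, coeff_zero]
        have e0 := h1 0
        have e1 := h1 1
        have e2 := h1 2
        simp [r, coeff_X, coeff_C] at e0 e1 e2
        fin_cases i
        · exact e0
        · exact e1
        · exact e2
      have hcop : IsCoprime z.charpoly r := by
        rw [hirrL.coprime_iff_not_dvd]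
        intro h
        have h1 := natDegree_le_of_dvd h hr1
        rw [hχ, hdeg] at h1
        omega
      obtain ⟨A, B, hAB⟩ := hcop
      have h1 := congrArg (aeval z) hAB
      rw [map_add, map_mul, map_mul, z.aeval_self_charpoly, mul_zero, zero_add, map_one] at h1
      have h2 := congrFun (congrFun h1 0) 0
      rw [Matrix.mul_apply] at h2
      simp [hr0] at h2
    · ext i j
      have h1 : ∀ m : ℕ, (z * Matrix.of fun i (j : Fin 3) => (z ^ (j : ℕ)) i 0 :
          Matrix (Fin 3) (Fin 3) L) i j = (z ^ ((j : ℕ) + 1)) i 0 := by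
        intro _
        rw [pow_succ', Matrix.mul_apply, Matrix.mul_apply]
        rfl
      rw [h1 0]
      have h2 := congrFun (congrFun hch i) 0
      simp only [Matrix.add_apply, Matrix.smul_apply, smul_eq_mul, Matrix.zero_apply] at h2
      fin_cases j
      · simp [Mp, Matrix.mul_apply, Fin.sum_univ_three]
      · simp [Mp, Matrix.mul_apply, Fin.sum_univ_three]
      · simp [Mp, Matrix.mul_apply, Fin.sum_univ_three]
        linear_combination h2

end ext

end Fx

end Vale.Agent.P011.E6I
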