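import Vale.Agent.P011.E6I.Cj
import Vale.Agent.P011.E6.HitF2
import Vale.Agent.P011.E6.ExM2

/-!
Linear maps that preserve the cubic norm and fix symmetric matrices: commutation with the action
of matrices over the ground field.
-/

open Matrix

namespace Vale.Agent.P011.E6I

open Vale.Agent.P011.MPQ Vale.Agent.P011.D4 Vale.Agent.P011.D4.Oct Vale.Agent.P011.E6
open Vale.Agent.P011.E6.Alb

section alb

variable {F : Type} [Field F] {a b c : Fˣ}

/-- The `U`-operator of a symmetric matrix. -/
theorem cj_eq_U {S : Matrix (Fin 3) (Fin 3) F} (hS : Sᵀ = S) (y : Alb a b c) :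
    cj S y = tf (ofF S) y • ofF S - cross (ofF S.adjugate) y := by
  have h10 : S 1 0 = S 0 1 := congrFun (congrFun hS 0) 1
  have h21 : S 2 1 = S 1 2 := congrFun (congrFun hS 1) 2
  have h02 : S 0 2 = S 2 0 := congrFun (congrFun hS 2) 0
  have h1 : ∀ x : Oct a b c, bil 1 x = bil x 1 := fun x => bil_comm 1 x
  rw [Matrix.adjugate_fin_three]
  ext1
  · simp only [cj, dia, ent, tf, cross, ofF, d1_smul, d1_sub, bil_smul_left, h1, h10, h21, h02,
      Matrix.of_apply, Matrix.cons_val', Matrix.cons_val_zero, Matrix.cons_val_one,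
      Matrix.cons_val]
    ring
  · simp only [cj, dia, ent, tf, cross, ofF, d2_smul, d2_sub, bil_smul_left, h1, h10, h21, h02,
      Matrix.of_apply, Matrix.cons_val', Matrix.cons_val_zero, Matrix.cons_val_one,
      Matrix.cons_val]
    ring
  · simp only [cj, dia, ent, tf, cross, ofF, d3_smul, d3_sub, bil_smul_left, h1, h10, h21, h02,
      Matrix.of_apply, Matrix.cons_val', Matrix.cons_val_zero, Matrix.cons_val_one,
      Matrix.cons_val]
    ring
  · simp only [cj, dia, ent, tf, cross, ofF, x1_smul, x1_sub, bil_smul_left, h1, h10, h21, h02,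
      Matrix.of_apply, Matrix.cons_val', Matrix.cons_val_zero, Matrix.cons_val_one,
      Matrix.cons_val, smul_mul_oct, mul_smul_oct, one_mul, mul_one, star_add, star_smul_oct]
    simp only [star_eq]
    module
  · simp only [cj, dia, ent, tf, cross, ofF, x2_smul, x2_sub, bil_smul_left, h1, h10, h21, h02,
      Matrix.of_apply, Matrix.cons_val', Matrix.cons_val_zero, Matrix.cons_val_one,
      Matrix.cons_val, smul_mul_oct, mul_smul_oct, one_mul, mul_one, star_add, star_smul_oct]
    simp only [star_eq]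
    module
  · simp only [cj, dia, ent, tf, cross, ofF, x3_smul, x3_sub, bil_smul_left, h1, h10, h21, h02,
      Matrix.of_apply, Matrix.cons_val', Matrix.cons_val_zero, Matrix.cons_val_one,
      Matrix.cons_val, smul_mul_oct, mul_smul_oct, one_mul, mul_one, star_add, star_smul_oct]
    simp only [star_eq]
    module

theorem ofF_smul (t : F) (S : Matrix (Fin 3) (Fin 3) F) :
    (ofF (t • S) : Alb a b c) = t • ofF S := by
  apply Alb.ext <;> simp [ofF, smul_smul]

theorem ofF_add (S T : Matrix (Fin 3) (Fin 3) F) :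
    (ofF (S + T) : Alb a b c) = ofF S + ofF T := by
  apply Alb.ext <;> simp [ofF, add_smul]

variable [NeZero (2 : F)] {φ : Alb a b c ≃ₗ[F] Alb a b c}

/-- The map preserves the form `tf (adj S · x) y` if it fixes the symmetric matrix `S`. -/
theorem tf_cj_adj (h : ∀ x, cub (φ x) = cub x) {S : Matrix (Fin 3) (Fin 3) F} (hS : Sᵀ = S)
    (hf : φ (ofF S) = ofF S) (x y : Alb a b c) :
    tf (cj S.adjugate (φ x)) (φ y) = tf (cj S.adjugate x) y := by
  have hA : S.adjugateᵀ = S.adjugate := by rw [Matrix.adjugate_transpose, hS]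
  have h1 : ∀ z, tf (ofF S.adjugate) (φ z) = tf (ofF S.adjugate) z := fun z => by
    have h2 := tf_adj_of_cub (φ := φ.toLinearMap) (μ := 1)
      (fun x => by rw [one_mul]; exact h x) (ofF S) z
    rw [one_mul] at h2
    change tf (adj (φ (ofF S))) (φ z) = _ at h2
    rwa [hf, adj_ofF hS] at h2
  have h3 : (ofF S.adjugate.adjugate : Alb a b c) = S.det • ofF S := by
    rw [Matrix.adjugate_adjugate _ (by simp)]
    simp only [Fintype.card_fin, Nat.reduceSub, pow_one]
    exact ofF_smul _ _
  rw [cj_eq_U hA, cj_eq_U hA, tf_sub_left, tf_sub_left, tf_smul_left, tf_smul_left, h1, h1, h3,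
    cross_smul_left, cross_smul_left, tf_smul_left, tf_smul_left]
  have h4 := tf_cross_map h (ofF S) x y
  rw [hf] at h4
  rw [h4]

/-- The map commutes with the action of `v` if it fixes the symmetric matrices `S` and `v S`. -/
theorem comm_cj (h : ∀ x, cub (φ x) = cub x) {S v : Matrix (Fin 3) (Fin 3) F} (hS : Sᵀ = S)
    (h0 : S.det ≠ 0) (hv : v.det ≠ 0) (hvS : (v * S)ᵀ = v * S) (hf : φ (ofF S) = ofF S)
    (hf' : φ (ofF (v * S)) = ofF (v * S)) (x : Alb a b c) : φ (cj v x) = cj v (φ x) := by
  have hA : S.adjugate.det ≠ 0 := by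
    rw [Matrix.det_adjugate]
    exact pow_ne_zero _ h0
  have hB : v.adjugate.det ≠ 0 := by
    rw [Matrix.det_adjugate]
    exact pow_ne_zero _ hv
  have h1 : ∀ x : Alb a b c, φ (cj v.adjugate x) = cj v.adjugate (φ x) := by
    intro x
    have h2 : ∀ y, tf (cj S.adjugate (φ (cj v.adjugate x))) (φ y) =
        tf (cj S.adjugate (cj v.adjugate (φ x))) (φ y) := by
      intro y
      rw [tf_cj_adj h hS hf, ← cj_mul, ← cj_mul, ← Matrix.adjugate_mul_distrib,
        tf_cj_adj h hvS hf']
    have h3 : cj S.adjugate (φ (cj v.adjugate x)) = cj S.adjugate (cj v.adjugate (φ x)) := by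
      apply eq_of_tf
      intro z
      obtain ⟨y, rfl⟩ := φ.surjective z
      exact h2 y
    have h4 := congrArg (cj S.adjugate⁻¹) h3
    rwa [cj_inv hA, cj_inv hA] at h4
  have h5 : ∀ y : Alb a b c, cj v.adjugate (cj v y) = (v.det ^ 2) • y := by
    intro y
    rw [← cj_mul, Matrix.adjugate_mul]
    apply Alb.ext <;> simp [cj, dia, ent] <;> ring_nf
  have h6 : cj v.adjugate (φ (cj v x)) = cj v.adjugate (cj v (φ x)) := by
    rw [← h1, h5, h5, map_smul]
  have h7 := congrArg (cj v.adjugate⁻¹) h6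
  rwa [cj_inv hB, cj_inv hB] at h7

end alb

end Vale.Agent.P011.E6I
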