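import Vale.Agent.P011.E6I.FxP
import Vale.Agent.P011.E6I.FxU
import Vale.Agent.P011.E6I.H68.Ext
import Vale.Agent.P011.E6.FixA
import Vale.Agent.P011.E6.Reach
import Vale.Agent.P011.D4.Maps

/-!
The pointwise stabilizer of a cubic field in the inner group of type `E₆`, as the image of the
group over the ground field attached to the companion matrix.
-/

open Matrix Polynomial

namespace Vale.Agent.P011.E6I

open Vale.Agent.P011.MPQ Vale.Agent.P011.D4 Vale.Agent.P011.D4.Oct Vale.Agent.P011.E6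
open Vale.Agent.P011.E6.Alb

namespace Fx

/-! Extension of scalars as a homomorphism. -/

section ext

variable {k L : Type} [Field k] [Field L] [Algebra k L] {a b c : kˣ}

/-- The extension of scalars. -/
noncomputable def extA (L : Type) [Field L] [Algebra k L] (g : Alb a b c ≃ₗ[k] Alb a b c) :
    AlbL L a b c ≃ₗ[L] AlbL L a b c :=
  Classical.choose (H68.exists_extE (K := L) g)

theorem extA_aup (g : Alb a b c ≃ₗ[k] Alb a b c) (x : Alb a b c) :
    extA L g (aup L x) = aup L (g x) :=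
  Classical.choose_spec (H68.exists_extE (K := L) g) x

theorem extA_eq {g : Alb a b c ≃ₗ[k] Alb a b c} {G : AlbL L a b c ≃ₗ[L] AlbL L a b c}
    (h : ∀ x, G (aup L x) = aup L (g x)) : extA L g = G :=
  Rl.alb_unique' fun x => by rw [extA_aup, h]

theorem extA_mul (g h : Alb a b c ≃ₗ[k] Alb a b c) : extA L (g * h) = extA L g * extA L h :=
  extA_eq fun x => by rw [LinearEquiv.mul_apply, extA_aup, extA_aup, LinearEquiv.mul_apply]

theorem extA_amap (ρ : L ≃ₐ[k] L) (g : Alb a b c ≃ₗ[k] Alb a b c) (x : AlbL L a b c) :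
    extA L g (amap ρ x) = amap ρ (extA L g x) := by
  let T : AlbL L a b c →ₗ[L] AlbL L a b c :=
    { toFun := fun x => amap ρ.symm (extA L g (amap ρ x))
      map_add' := fun x y => by rw [amap_add, map_add, amap_add]
      map_smul' := fun t x => by
        rw [amap_smul, map_smul, amap_smul, AlgEquiv.symm_apply_apply, RingHom.id_apply] }
  have h : T = (extA L g : AlbL L a b c →ₗ[L] AlbL L a b c) := by
    apply Rl.alb_unique
    intro x
    change amap ρ.symm (extA L g (amap ρ (aup L x))) = extA L g (aup L x)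
    rw [amap_aup, extA_aup, amap_aup]
  have h1 : amap ρ.symm (extA L g (amap ρ x)) = extA L g x :=
    congrArg (fun f : AlbL L a b c →ₗ[L] AlbL L a b c => f x) h
  rw [← h1, amap_symm]

theorem extA_cub [CharZero k] {g : Alb a b c ≃ₗ[k] Alb a b c} (hg : ∀ x, cub (g x) = cub x)
    (x : AlbL L a b c) : cub (extA L g x) = cub x :=
  H68.cub_ext hg (extA_aup g) x

end ext

section psi

variable {k L : Type} [Field k] [NumberField k] [Field L] [NumberField L] [Algebra k L]
  {ρ : L ≃ₐ[k] L} {lam : kˣ} {a b c : kˣ} {p0 p1 p2 : k} {P z : Matrix (Fin 3) (Fin 3) L}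

/-- The matrix of the semilinear map in the new basis. -/
noncomputable def vP (ρ : L ≃ₐ[k] L) (lam : kˣ) (P : Matrix (Fin 3) (Fin 3) L) :
    Matrix (Fin 3) (Fin 3) L := P⁻¹ * u0 L lam * P.map ρ

/-- The companion matrix over the extension. -/
abbrev MpL (L : Type) [Field L] [Algebra k L] (p0 p1 p2 : k) : Matrix (Fin 3) (Fin 3) L :=
  Mp (algebraMap k L p0) (algebraMap k L p1) (algebraMap k L p2)

/-- The group over the extension. -/
abbrev FixL (L : Type) [Field L] [Algebra k L] (p0 p1 p2 : k) (a b c : kˣ) :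
    Subgroup (AlbL L a b c ≃ₗ[L] AlbL L a b c) :=
  FixK (algebraMap k L p0) (algebraMap k L p1) (algebraMap k L p2) (up L a) (up L b) (up L c)

omit [NumberField k] [NumberField L] in
theorem det_map (P : Matrix (Fin 3) (Fin 3) L) : (P.map ρ).det = ρ P.det :=
  (RingHom.map_det (ρ : L →+* L) P).symm

omit [NumberField k] [NumberField L] in
theorem det_u0 : (u0 L lam).det ≠ 0 := by
  have h := congrArg Matrix.det (u0_mul_w0 (L := L) (lam := lam))
  rw [Matrix.det_mul, Matrix.det_one] at h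
  exact left_ne_zero_of_mul (h ▸ one_ne_zero)

omit [NumberField k] [NumberField L] in
theorem det_vP (hP : P.det ≠ 0) : (vP ρ lam P).det ≠ 0 := by
  rw [vP, Matrix.det_mul, Matrix.det_mul, Matrix.det_nonsing_inv, det_map]
  exact mul_ne_zero (mul_ne_zero (by rw [Ring.inverse_eq_inv']; exact inv_ne_zero hP) det_u0)
    ((map_ne_zero ρ).mpr hP)

omit [NumberField k] [NumberField L] in
theorem P_mul_vP (hP : P.det ≠ 0) : P * vP ρ lam P = u0 L lam * P.map ρ := by
  rw [vP, ← Matrix.mul_assoc, ← Matrix.mul_assoc,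
    Matrix.mul_nonsing_inv _ (isUnit_iff_ne_zero.mpr hP), Matrix.one_mul]

omit [NumberField k] [NumberField L] in
theorem vP_comm (hP : P.det ≠ 0) (hz : InD0 ρ lam z) (hzP : z * P = P * MpL L p0 p1 p2) :
    vP ρ lam P * MpL L p0 p1 p2 = MpL L p0 p1 p2 * vP ρ lam P := by
  have h1 : (MpL L p0 p1 p2).map ρ = MpL L p0 p1 p2 := by
    ext i j
    fin_cases i <;> fin_cases j <;> simp [Mp]
  have h2 : z.map ρ * P.map ρ = P.map ρ * MpL L p0 p1 p2 := by
    have h3 := congrArg (fun m : Matrix (Fin 3) (Fin 3) L => m.map ρ) hzP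
    have h4 : ∀ x y : Matrix (Fin 3) (Fin 3) L, (x * y).map ρ = x.map ρ * y.map ρ := fun x y =>
      Matrix.map_mul (f := (ρ : L →+* L))
    simp only [h4, h1] at h3
    exact h3
  have h3 : P⁻¹ * z = MpL L p0 p1 p2 * P⁻¹ := by
    have h4 : P⁻¹ * (z * P) * P⁻¹ = P⁻¹ * (P * MpL L p0 p1 p2) * P⁻¹ := by rw [hzP]
    rwa [Matrix.mul_assoc, Matrix.mul_assoc z, Matrix.mul_nonsing_inv _
      (isUnit_iff_ne_zero.mpr hP), Matrix.mul_one, ← Matrix.mul_assoc P⁻¹,
      Matrix.nonsing_inv_mul _ (isUnit_iff_ne_zero.mpr hP), Matrix.one_mul] at h4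
  rw [vP, Matrix.mul_assoc (P⁻¹ * u0 L lam), ← h2, ← Matrix.mul_assoc (P⁻¹ * u0 L lam),
    Matrix.mul_assoc P⁻¹, ← hz, ← Matrix.mul_assoc P⁻¹, h3]
  simp only [Matrix.mul_assoc]

omit [NumberField k] [NumberField L] in
/-- The semilinear map in the new basis. -/
theorem ph_cj (hP : P.det ≠ 0) (x : AlbL L a b c) :
    ph ρ lam (cj P x) = (up L lam : L) • cj P (cj (vP ρ lam P) (amap ρ x)) := by
  rw [ph_eq_cj, amap_cj, ← cj_mul, ← cj_mul, P_mul_vP hP]

omit [NumberField k] [NumberField L] in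
theorem ofF_add3 {F : Type} [Field F] {a b c : Fˣ} (r s t : F)
    (A B C : Matrix (Fin 3) (Fin 3) F) : (ofF (r • A + s • B + t • C) : Alb a b c) =
      r • ofF A + s • ofF B + t • ofF C := by
  rw [ofF_add, ofF_add, ofF_smul, ofF_smul, ofF_smul]

omit [NumberField k] in
theorem comm_vP {G : AlbL L a b c ≃ₗ[L] AlbL L a b c} (hG : G ∈ FixL L p0 p1 p2 a b c)
    {v : Matrix (Fin 3) (Fin 3) L} (hv : v.det ≠ 0)
    (hvM : v * MpL L p0 p1 p2 = MpL L p0 p1 p2 * v) (x : AlbL L a b c) :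
    G (cj v x) = cj v (G x) := by
  obtain ⟨h1, h2, h3, h4⟩ := hG
  have h5 := mul_S0 hvM
  refine comm_cj h1 (S0_transpose _ _) ?_ hv ?_ h2 ?_ x
  · rw [det_S0]
    exact neg_ne_zero.mpr one_ne_zero
  · rw [h5, Matrix.transpose_add, Matrix.transpose_add, Matrix.transpose_smul,
      Matrix.transpose_smul, Matrix.transpose_smul, S0_transpose, S1_transpose, S2_transpose]
  · rw [h5, ofF_add3, map_add, map_add, map_smul, map_smul, map_smul, h2, h3, h4]

/-- The conjugate of a linear map by the action of `P`. -/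
noncomputable def conjP (P : Matrix (Fin 3) (Fin 3) L) (hP : P.det ≠ 0) :
    (AlbL L a b c ≃ₗ[L] AlbL L a b c) ≃* (AlbL L a b c ≃ₗ[L] AlbL L a b c) :=
  MulAut.conj (cjE P hP)

omit [NumberField k] [NumberField L] in
theorem conjP_apply (hP : P.det ≠ 0) (G : AlbL L a b c ≃ₗ[L] AlbL L a b c)
    (x : AlbL L a b c) : conjP P hP G x = cj P (G (cj P⁻¹ x)) := rfl

omit [NumberField k] [NumberField L] in
theorem conjP_cj (hP : P.det ≠ 0) (G : AlbL L a b c ≃ₗ[L] AlbL L a b c)
    (x : AlbL L a b c) : conjP P hP G (cj P x) = cj P (G x) := by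
  rw [conjP_apply, cj_inv hP]

omit [NumberField k] in
/-- The conjugates of the maps that commute with the Galois group belong to the group `GI`. -/
theorem conjP_mem (hP : P.det ≠ 0) (hz : InD0 ρ lam z) (hzP : z * P = P * MpL L p0 p1 p2)
    {G : AlbL L a b c ≃ₗ[L] AlbL L a b c} (hG : G ∈ FixL L p0 p1 p2 a b c) :
    conjP P hP G ∈ GI ρ lam a b c ↔ ∀ x, G (amap ρ x) = amap ρ (G x) := by
  have h1 : ∀ x, conjP P hP G (ph ρ lam (cj P x)) = (up L lam : L) • cj P (cj (vP ρ lam P)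
      (G (amap ρ x))) := by
    intro x
    rw [ph_cj hP, map_smul, conjP_cj, comm_vP hG (det_vP hP) (vP_comm hP hz hzP)]
  have h2 : ∀ x, ph ρ lam (conjP P hP G (cj P x)) = (up L lam : L) • cj P (cj (vP ρ lam P)
      (amap ρ (G x))) := by
    intro x
    rw [conjP_cj, ph_cj hP]
  constructor
  · rintro ⟨_, h4⟩ x
    have h5 := h4 (cj P x)
    rw [h1, h2] at h5
    have h6 := smul_right_injective _ (up L lam).ne_zero h5
    have h7 := (cjE P hP).injective h6
    exact (cjE (vP ρ lam P) (det_vP hP)).injective h7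
  · intro h
    refine ⟨fun x => ?_, fun x => ?_⟩
    · rw [conjP_apply, cub_cj, hG.1, ← cub_cj, cj_inv' hP]
    · obtain ⟨y, rfl⟩ := (cjE P hP).surjective x
      rw [cjE_apply, h1, h2, h]

/-! The homomorphism. -/

omit [NumberField L] in
/-- The extension of an element of the group over the ground field. -/
theorem extA_mem {g : Alb a b c ≃ₗ[k] Alb a b c} (hg : g ∈ FixK p0 p1 p2 a b c) :
    extA L g ∈ FixL L p0 p1 p2 a b c := by
  obtain ⟨h1, h2, h3, h4⟩ := hg
  have e0 : (ofF (S0 (algebraMap k L p1) (algebraMap k L p2)) : AlbL L a b c) =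
      aup L (ofF (S0 p1 p2)) := by
    rw [aup_ofF]
    congr 1
    ext i j
    fin_cases i <;> fin_cases j <;> simp [S0]
  have e1 : (ofF (S1 (algebraMap k L p0) (algebraMap k L p2)) : AlbL L a b c) =
      aup L (ofF (S1 p0 p2)) := by
    rw [aup_ofF]
    congr 1
    ext i j
    fin_cases i <;> fin_cases j <;> simp [S1]
  have e2 : (ofF (S2 (algebraMap k L p0) (algebraMap k L p1)) : AlbL L a b c) =
      aup L (ofF (S2 p0 p1)) := by
    rw [aup_ofF]
    congr 1
    ext i j
    fin_cases i <;> fin_cases j <;> simp [S2]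
  refine ⟨extA_cub h1, ?_, ?_, ?_⟩
  · rw [e0, extA_aup, h2]
  · rw [e1, extA_aup, h3]
  · rw [e2, extA_aup, h4]

/-- The homomorphism from the group over the ground field to the group `GI`. -/
noncomputable def Psi (hP : P.det ≠ 0) (hz : InD0 ρ lam z) (hzP : z * P = P * MpL L p0 p1 p2) :
    FixK p0 p1 p2 a b c →* GI ρ lam a b c where
  toFun g := ⟨conjP P hP (extA L g.1),
    (conjP_mem hP hz hzP (extA_mem g.2)).2 (extA_amap ρ g.1)⟩
  map_one' := by
    apply Subtype.ext
    change conjP P hP (extA L 1) = 1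
    rw [extA_eq (g := (1 : Alb a b c ≃ₗ[k] Alb a b c)) (G := 1) (fun _ => rfl), map_one]
  map_mul' g h := by
    apply Subtype.ext
    change conjP P hP (extA L (g.1 * h.1)) = conjP P hP (extA L g.1) * conjP P hP (extA L h.1)
    rw [extA_mul, map_mul]

theorem Psi_apply (hP : P.det ≠ 0) (hz : InD0 ρ lam z) (hzP : z * P = P * MpL L p0 p1 p2)
    (g : FixK p0 p1 p2 a b c) :
    (Psi hP hz hzP g : AlbL L a b c ≃ₗ[L] AlbL L a b c) = conjP P hP (extA L g.1) := rfl

omit [NumberField k] [NumberField L] in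
/-- The frame in the new basis. -/
theorem frame_iff (hP : P.det ≠ 0) (hzP : z * P = P * MpL L p0 p1 p2)
    {S : Matrix (Fin 3) (Fin 3) L} :
    z * (P * S * Pᵀ) = (P * S * Pᵀ) * zᵀ ↔ MpL L p0 p1 p2 * S = S * (MpL L p0 p1 p2)ᵀ := by
  have hu := isUnit_iff_ne_zero.mpr hP
  have hut : IsUnit Pᵀ.det := by rwa [Matrix.det_transpose]
  have h1 : z * (P * S * Pᵀ) = P * (MpL L p0 p1 p2 * S) * Pᵀ := by
    rw [← Matrix.mul_assoc, ← Matrix.mul_assoc, hzP]
    simp only [Matrix.mul_assoc]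
  have h2 : (P * S * Pᵀ) * zᵀ = P * (S * (MpL L p0 p1 p2)ᵀ) * Pᵀ := by
    rw [Matrix.mul_assoc, ← Matrix.transpose_mul, hzP, Matrix.transpose_mul]
    simp only [Matrix.mul_assoc]
  rw [h1, h2]
  constructor
  · intro h
    have h3 := congrArg (fun m => P⁻¹ * m * (Pᵀ)⁻¹) h
    rw [Matrix.mul_assoc P⁻¹, Matrix.mul_assoc P⁻¹, Matrix.mul_nonsing_inv_cancel_right _ _ hut,
      Matrix.mul_nonsing_inv_cancel_right _ _ hut, Matrix.nonsing_inv_mul_cancel_left _ _ hu,
      Matrix.nonsing_inv_mul_cancel_left _ _ hu] at h3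
    exact h3
  · intro h
    rw [h]

omit [NumberField k] [NumberField L] in
theorem Mp_mul_S2 {F : Type} [Field F] (p0 p1 p2 : F) : Mp p0 p1 p2 * S2 p0 p1 =
    (-p0) • S0 p1 p2 + (-p1) • S1 p0 p2 + (-p2) • S2 p0 p1 := by
  ext i j
  fin_cases i <;> fin_cases j <;>
    simp [Mp, S0, S1, S2, Matrix.mul_apply, Fin.sum_univ_three] <;> ring

omit [NumberField k] [NumberField L] in
theorem sym_M {F : Type} [Field F] {M S : Matrix (Fin 3) (Fin 3) F} (hS : Sᵀ = S)
    (h : (M * S)ᵀ = M * S) : M * S = S * Mᵀ := by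
  rw [Matrix.transpose_mul, hS] at h
  exact h.symm

/-- The elements of `GI` which fix the frame are in the image. -/
theorem exists_Psi (hρfix : ∀ t : L, ρ t = t → ∃ s : k, algebraMap k L s = t)
    (hP : P.det ≠ 0) (hz : InD0 ρ lam z) (hzP : z * P = P * MpL L p0 p1 p2)
    {φ : AlbL L a b c ≃ₗ[L] AlbL L a b c} (hφ : φ ∈ GI ρ lam a b c)
    (hfix : ∀ S : Matrix (Fin 3) (Fin 3) L, Sᵀ = S → z * S = S * zᵀ →
      φ (ofF S) = ofF S) :
    ∃ g : FixK p0 p1 p2 a b c, (Psi hP hz hzP g : AlbL L a b c ≃ₗ[L] AlbL L a b c) = φ := by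
  let G : AlbL L a b c ≃ₗ[L] AlbL L a b c := (conjP P hP).symm φ
  have hφG : conjP P hP G = φ := (conjP P hP).apply_symm_apply φ
  have hGc : ∀ x, cj P (G x) = φ (cj P x) := fun x => by rw [← conjP_cj hP, hφG]
  have hinj : Function.Injective (cj P : AlbL L a b c → AlbL L a b c) := (cjE P hP).injective
  have hsym : ∀ {S : Matrix (Fin 3) (Fin 3) L}, Sᵀ = S →
      MpL L p0 p1 p2 * S = S * (MpL L p0 p1 p2)ᵀ → G (ofF S) = ofF S := by
    intro S hS hM
    apply hinj
    rw [hGc, cj_ofF _ _ hS]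
    apply hfix
    · rw [Matrix.transpose_mul, Matrix.transpose_mul, Matrix.transpose_transpose, hS,
        Matrix.mul_assoc]
    · exact (frame_iff hP hzP).2 hM
  have hG : G ∈ FixL L p0 p1 p2 a b c := by
    refine ⟨fun x => ?_, ?_, ?_, ?_⟩
    · have h1 := cub_cj P (G x)
      rw [hGc, hφ.1, cub_cj] at h1
      exact (mul_left_cancel₀ (pow_ne_zero 2 hP) h1).symm
    · exact hsym (S0_transpose _ _) (sym_M (S0_transpose _ _)
        (by rw [Mp_mul_S0, S1_transpose]))
    · exact hsym (S1_transpose _ _) (sym_M (S1_transpose _ _)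
        (by rw [Mp_mul_S1, S2_transpose]))
    · exact hsym (S2_transpose _ _) (sym_M (S2_transpose _ _)
        (by rw [Mp_mul_S2, Matrix.transpose_add, Matrix.transpose_add, Matrix.transpose_smul,
          Matrix.transpose_smul, Matrix.transpose_smul, S0_transpose, S1_transpose,
          S2_transpose]))
  have hGr : ∀ x, G (amap ρ x) = amap ρ (G x) :=
    (conjP_mem hP hz hzP hG).1 (by rw [hφG]; exact hφ)
  obtain ⟨φk, hk⟩ := descend hρfix hGr
  have hkext : extA L φk = G := extA_eq fun x => (hk x).symm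
  have hSk : ∀ S : Matrix (Fin 3) (Fin 3) k, G (ofF (S.map (algebraMap k L))) =
      ofF (S.map (algebraMap k L)) → φk (ofF S) = ofF S := by
    intro S h
    apply aup_injective (K := L)
    rw [hk, aup_ofF, h]
  refine ⟨⟨φk, cub_descend hG.1 hk, hSk _ ?_, hSk _ ?_, hSk _ ?_⟩, ?_⟩
  · have e : (S0 p1 p2).map (algebraMap k L) = S0 (algebraMap k L p1) (algebraMap k L p2) := by
      ext i j
      fin_cases i <;> fin_cases j <;> simp [S0]
    rw [e]
    exact hG.2.1
  · have e : (S1 p0 p2).map (algebraMap k L) = S1 (algebraMap k L p0) (algebraMap k L p2) := by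
      ext i j
      fin_cases i <;> fin_cases j <;> simp [S1]
    rw [e]
    exact hG.2.2.1
  · have e : (S2 p0 p1).map (algebraMap k L) = S2 (algebraMap k L p0) (algebraMap k L p1) := by
      ext i j
      fin_cases i <;> fin_cases j <;> simp [S2]
    rw [e]
    exact hG.2.2.2
  · rw [Psi_apply, hkext, hφG]

/-- The image of the homomorphism fixes the frame. -/
theorem Psi_fix (hP : P.det ≠ 0) (hz : InD0 ρ lam z) (hzP : z * P = P * MpL L p0 p1 p2)
    (g : FixK p0 p1 p2 a b c) {S : Matrix (Fin 3) (Fin 3) L} (hS : Sᵀ = S)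
    (hzS : z * S = S * zᵀ) :
    (Psi hP hz hzP g : AlbL L a b c ≃ₗ[L] AlbL L a b c) (ofF S) = ofF S := by
  have hu := isUnit_iff_ne_zero.mpr hP
  have hut : IsUnit Pᵀ.det := by rwa [Matrix.det_transpose]
  obtain ⟨T, hT⟩ : ∃ T : Matrix (Fin 3) (Fin 3) L, S = P * T * Pᵀ :=
    ⟨P⁻¹ * S * (Pᵀ)⁻¹, by
      rw [← Matrix.mul_assoc, ← Matrix.mul_assoc, Matrix.mul_nonsing_inv _ hu, Matrix.one_mul,
        Matrix.mul_assoc, Matrix.nonsing_inv_mul _ hut, Matrix.mul_one]⟩
  have hTt : Tᵀ = T := by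
    rw [hT, Matrix.transpose_mul, Matrix.transpose_mul, Matrix.transpose_transpose] at hS
    have h1 := congrArg (fun m => P⁻¹ * m * (Pᵀ)⁻¹) hS
    simp only [Matrix.mul_assoc, Matrix.mul_nonsing_inv _ hut, Matrix.mul_one] at h1
    rwa [← Matrix.mul_assoc, ← Matrix.mul_assoc, Matrix.nonsing_inv_mul _ hu, Matrix.one_mul,
      Matrix.one_mul] at h1
  have hTM : MpL L p0 p1 p2 * T = T * (MpL L p0 p1 p2)ᵀ := by
    rw [← frame_iff hP hzP, ← hT]
    exact hzS
  have hu0 : IsUnit (S0 (algebraMap k L p1) (algebraMap k L p2)).det := by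
    rw [det_S0]
    exact isUnit_one.neg
  have h0M : MpL L p0 p1 p2 * S0 (algebraMap k L p1) (algebraMap k L p2) =
      S0 (algebraMap k L p1) (algebraMap k L p2) * (MpL L p0 p1 p2)ᵀ :=
    sym_M (S0_transpose _ _) (by rw [Mp_mul_S0, S1_transpose])
  have hcomm : T * (S0 (algebraMap k L p1) (algebraMap k L p2))⁻¹ * MpL L p0 p1 p2 =
      MpL L p0 p1 p2 * (T * (S0 (algebraMap k L p1) (algebraMap k L p2))⁻¹) := by
    have h2 : (S0 (algebraMap k L p1) (algebraMap k L p2))⁻¹ * MpL L p0 p1 p2 =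
        (MpL L p0 p1 p2)ᵀ * (S0 (algebraMap k L p1) (algebraMap k L p2))⁻¹ := by
      have h3 := congrArg (fun m => (S0 (algebraMap k L p1) (algebraMap k L p2))⁻¹ * m *
        (S0 (algebraMap k L p1) (algebraMap k L p2))⁻¹) h0M
      simp only [Matrix.mul_assoc] at h3
      rwa [Matrix.mul_nonsing_inv _ hu0, Matrix.mul_one, Matrix.nonsing_inv_mul_cancel_left _ _
        hu0] at h3
    rw [Matrix.mul_assoc, h2, ← Matrix.mul_assoc, ← hTM, Matrix.mul_assoc]
  have h5 := mul_S0 hcomm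
  rw [Matrix.mul_assoc, Matrix.nonsing_inv_mul _ hu0, Matrix.mul_one] at h5
  obtain ⟨_, h6, h7, h8⟩ := extA_mem (L := L) g.2
  have h9 : extA L g.1 (ofF T) = ofF T := by
    rw [h5, ofF_add3, map_add, map_add, map_smul, map_smul, map_smul, h6, h7, h8]
  have h10 : (ofF S : AlbL L a b c) = cj P (ofF T) := by rw [cj_ofF _ _ hTt, hT]
  rw [h10, Psi_apply, conjP_cj, h9]

theorem Psi_injective (hP : P.det ≠ 0) (hz : InD0 ρ lam z)
    (hzP : z * P = P * MpL L p0 p1 p2) :
    Function.Injective (Psi hP hz hzP : FixK p0 p1 p2 a b c →* GI ρ lam a b c) := by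
  intro g h hgh
  have h1 : conjP P hP (extA L g.1) = conjP P hP (extA L h.1) := congrArg Subtype.val hgh
  have h2 := (conjP P hP).injective h1
  apply Subtype.ext
  apply LinearEquiv.ext
  intro x
  apply aup_injective (K := L)
  rw [← extA_aup, ← extA_aup, h2]

/-- The automorphisms of the octonion algebra. -/
theorem Psi_aut (hP : P.det ≠ 0) (hz : InD0 ρ lam z) (hzP : z * P = P * MpL L p0 p1 p2)
    (g : FixK p0 p1 p2 a b c) (f : AutC a b c) (h : ∀ x, g.1 x = omapA f.1 x)
    (x : Alb a b c) :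
    (Psi hP hz hzP g : AlbL L a b c ≃ₗ[L] AlbL L a b c) (aup L x) = aup L (omapA f.1 x) := by
  let f' : OctL L a b c ≃ₗ[L] OctL L a b c := H24.extE L f.1
  have hm : ∀ x y, f' (x * y) = f' x * f' y := H24.extL_mul (f := (f.1 : Oct a b c →ₗ[k]
    Oct a b c)) f.2
  let fA : AutC (up L a) (up L b) (up L c) := ⟨f', hm⟩
  have hcj : ∀ (H : Matrix (Fin 3) (Fin 3) L) (y : AlbL L a b c),
      omapA f' (cj H y) = cj H (omapA f' y) := fun H y =>
    omapA_cj (f' : OctL L a b c →ₗ[L] OctL L a b c) (aut_one fA) (aut_star fA) (aut_bil fA) H y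
  have haup : ∀ y : Alb a b c, omapA f' (aup L y) = aup L (omapA f.1 y) := by
    intro y
    apply Alb.ext
    · rfl
    · rfl
    · rfl
    · exact H24.extE_oup _ _
    · exact H24.extE_oup _ _
    · exact H24.extE_oup _ _
  let T : AlbL L a b c →ₗ[L] AlbL L a b c :=
    { toFun := fun y => omapA f' y
      map_add' := fun y y' => by
        apply Alb.ext <;> simp [omapA]
      map_smul' := fun t y => by
        apply Alb.ext <;> simp [omapA] }
  have hT : (extA L g.1 : AlbL L a b c →ₗ[L] AlbL L a b c) = T := by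
    apply Rl.alb_unique
    intro y
    change extA L g.1 (aup L y) = omapA f' (aup L y)
    rw [extA_aup, haup, h]
  have hext : ∀ y, extA L g.1 y = omapA f' y := fun y =>
    congrArg (fun m : AlbL L a b c →ₗ[L] AlbL L a b c => m y) hT
  rw [Psi_apply, conjP_apply, hext, hcj, cj_inv' hP, haup]

/-- An element of `GI` that acts as an automorphism of the octonion algebra is in the image. -/
theorem Psi_of_aut (hP : P.det ≠ 0) (hz : InD0 ρ lam z) (hzP : z * P = P * MpL L p0 p1 p2)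
    (g : FixK p0 p1 p2 a b c) (f : AutC a b c) (h : ∀ x, g.1 x = omapA f.1 x)
    {ψ : GI ρ lam a b c} (hψ : ∀ x : Alb a b c, ψ.1 (aup L x) = aup L (omapA f.1 x)) :
    Psi hP hz hzP g = ψ := by
  apply Subtype.ext
  apply Rl.alb_unique'
  intro x
  rw [Psi_aut hP hz hzP g f h, hψ]

end psi

end Fx

end Vale.Agent.P011.E6I
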