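import Vale.Agent.P011.E6.Ids

/-!
Hermitian matrices of degree three over a quaternion algebra: subspaces on which the cubic norm is
anisotropic.
-/

namespace Vale.Agent.P011.E6I

open Vale.Agent.P011.MPQ Vale.Agent.P011.D4 Vale.Agent.P011.D4.Oct Vale.Agent.P011.E6 Alb

variable {F : Type} [Field F] {a b c : Fˣ}

/-- The element has entries in the quaternion subalgebra. -/
def InVs (x : Alb a b c) : Prop := x.x1.snd = 0 ∧ x.x2.snd = 0 ∧ x.x3.snd = 0

/-- The cubic norm of a hermitian matrix over the quaternions. -/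
theorem cub_of_inV {x : Alb a b c} (h : InVs x) : cub x =
    x.d1 * x.d2 * x.d3 - x.d1 * nrd x.x1.fst - x.d2 * nrd x.x2.fst - x.d3 * nrd x.x3.fst +
      2 * (x.x1.fst * x.x2.fst * x.x3.fst).re := by
  obtain ⟨h1, h2, h3⟩ := h
  have hn : ∀ y : Oct a b c, y.snd = 0 → norm y = nrd y.fst := by
    intro y hy
    rw [Oct.norm, hy]
    simp [nrd]
  have hb : ∀ y : Oct a b c, bil y 1 = 2 * y.fst.re := fun y => by simp [bil_eq]
  rw [cub, hn _ h1, hn _ h2, hn _ h3, hb, fst_mul, fst_mul, snd_mul, h1, h2, h3]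
  simp

/-- The first generator. -/
def qi (a b : Fˣ) : Qt a b := ⟨0, 1, 0, 0⟩

theorem iso_key {S0 S1 : Alb a b c} (h0 : InVs S0) (h1 : InVs S1) (e0 : S0.d1 = 0) (e1 : S1.d1 = 0)
    (e2 : S0.x2.fst = S1.x2.fst * qi a b) (e3 : S0.x3.fst = -(qi a b * S1.x3.fst)) (t : F) :
    cub (S0 + t • S1) = (t ^ 2 - a) *
      ((-S0.d2 * nrd S1.x2.fst - S0.d3 * nrd S1.x3.fst +
          2 * (S0.x1.fst * S1.x2.fst * S1.x3.fst).re) +
        t * (-S1.d2 * nrd S1.x2.fst - S1.d3 * nrd S1.x3.fst +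
          2 * (S1.x1.fst * S1.x2.fst * S1.x3.fst).re)) := by
  have hS : InVs (S0 + t • S1) := by
    obtain ⟨a1, a2, a3⟩ := h0
    obtain ⟨b1, b2, b3⟩ := h1
    refine ⟨?_, ?_, ?_⟩
    · simp [a1, b1]
    · simp [a2, b2]
    · simp [a3, b3]
  rw [cub_of_inV hS]
  simp only [d1_add, d2_add, d3_add, x1_add, x2_add, x3_add, d1_smul, d2_smul, d3_smul, x1_smul,
    x2_smul, x3_smul, fst_add, fst_smul, e0, e1, e2, e3, qi]
  simp [nrd]
  ring

end Vale.Agent.P011.E6I
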