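import Vale.Agent.P011.E6I.Gen1
import Vale.Agent.P011.E6.Act
import Vale.Agent.P011.E6.Herm

/-!
Hermitian matrices of degree three over a quaternion algebra: the adjoint and the product of
matrices.
-/

namespace Vale.Agent.P011.E6I

open Vale.Agent.P011.MPQ Vale.Agent.P011.D4 Vale.Agent.P011.D4.Oct Vale.Agent.P011.E6 Alb
open Matrix

namespace Gn

variable {F : Type} [Field F] {a b c : Fˣ}

theorem inV_ext {x y : Alb a b c} (hx : InVs x) (hy : InVs y) (h : mat x = mat y) : x = y := by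
  refine H64.ext_mat_vec h ?_
  obtain ⟨h1, h2, h3⟩ := hx
  obtain ⟨h4, h5, h6⟩ := hy
  congr 1
  funext i
  fin_cases i
  · exact h1.trans h4.symm
  · exact h2.trans h5.symm
  · exact h3.trans h6.symm

theorem inV_add {x y : Alb a b c} (hx : InVs x) (hy : InVs y) : InVs (x + y) := by
  obtain ⟨h1, h2, h3⟩ := hx
  obtain ⟨h4, h5, h6⟩ := hy
  exact ⟨by simp [h1, h4], by simp [h2, h5], by simp [h3, h6]⟩

theorem inV_smul {x : Alb a b c} (t : F) (hx : InVs x) : InVs (t • x) := by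
  obtain ⟨h1, h2, h3⟩ := hx
  exact ⟨by simp [h1], by simp [h2], by simp [h3]⟩

theorem inV_adj {x : Alb a b c} (hx : InVs x) : InVs (adj x) := by
  obtain ⟨h1, h2, h3⟩ := hx
  refine ⟨?_, ?_, ?_⟩ <;> simp [adj, h1, h2, h3]

theorem inV_cross {x y : Alb a b c} (hx : InVs x) (hy : InVs y) : InVs (cross x y) := by
  obtain ⟨h1, h2, h3⟩ := hx
  obtain ⟨h4, h5, h6⟩ := hy
  refine ⟨?_, ?_, ?_⟩ <;> simp [cross, h1, h2, h3, h4, h5, h6]

theorem ms (x : Qt a b) : x * star x = nrd x • (1 : Qt a b) := by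
  rw [H64.mul_star_qt, ← QuaternionAlgebra.coe_mul_eq_smul, mul_one]

theorem sm (x : Qt a b) : star x * x = nrd x • (1 : Qt a b) := by
  rw [H64.star_mul_qt, ← QuaternionAlgebra.coe_mul_eq_smul, mul_one]

theorem re_cyc (p q r : Qt a b) : r * (p * q) + star (r * (p * q)) =
    (2 * (p * q * r).re) • (1 : Qt a b) := by
  ext <;> simp <;> ring

theorem ent1 (d1 d2 d3 : F) (p q r : Qt a b) :
    d1 • ((d2 * d3 - nrd p) • (1 : Qt a b)) + r * star (star (p * q) - d3 • r) +
      star q * (star (r * p) - d2 • q) =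
    (d1 * d2 * d3 - d1 * nrd p - d2 * nrd q - d3 * nrd r + 2 * (p * q * r).re) •
      (1 : Qt a b) := by
  have h := re_cyc p q r
  rw [star_sub, star_star, mul_sub, mul_sub, QuaternionAlgebra.star_smul, mul_smul_comm,
    mul_smul_comm, ms, sm, add_smul, ← h]
  simp only [star_mul, mul_assoc]
  module

theorem ent2 (d1 d3 : F) (p q r : Qt a b) :
    d1 • (star (p * q) - d3 • r) + r * ((d3 * d1 - nrd q) • (1 : Qt a b)) +
      star q * star (star (q * r) - d1 • p) = 0 := by
  rw [star_sub, star_star, mul_sub, QuaternionAlgebra.star_smul, mul_smul_comm,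
    mul_smul_comm, mul_one, star_mul, ← mul_assoc, sm, smul_mul_assoc, one_mul]
  module

theorem ent3 (d1 d2 : F) (p q r : Qt a b) :
    d1 • star (star (r * p) - d2 • q) + r * (star (q * r) - d1 • p) +
      star q * ((d1 * d2 - nrd r) • (1 : Qt a b)) = 0 := by
  rw [star_sub, star_star, mul_sub, QuaternionAlgebra.star_smul, mul_smul_comm,
    mul_smul_comm, mul_one, star_mul, ← mul_assoc, ms, smul_mul_assoc, one_mul]
  module

theorem adj_mk (d1 d2 d3 : F) (p q r : Qt a b) :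
    adj (⟨d1, d2, d3, ⟨p, 0⟩, ⟨q, 0⟩, ⟨r, 0⟩⟩ : Alb a b c) =
      ⟨d2 * d3 - nrd p, d3 * d1 - nrd q, d1 * d2 - nrd r, ⟨star (q * r) - d1 • p, 0⟩,
        ⟨star (r * p) - d2 • q, 0⟩, ⟨star (p * q) - d3 • r, 0⟩⟩ := by
  have hn : ∀ y : Qt a b, norm (⟨y, 0⟩ : Oct a b c) = nrd y := by
    intro y
    rw [Oct.norm]
    simp [nrd]
  have hm : ∀ y z : Qt a b, (⟨y, 0⟩ : Oct a b c) * ⟨z, 0⟩ = ⟨y * z, 0⟩ := by
    intro y z
    apply Oct.ext
    · rw [fst_mul]
      simp
    · rw [snd_mul]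
      simp
  have hs : ∀ y : Qt a b, star (⟨y, 0⟩ : Oct a b c) = ⟨star y, 0⟩ := by
    intro y
    apply Oct.ext
    · rfl
    · rw [snd_star]
      simp
  have hd : ∀ (y z : Qt a b) (t : F), (⟨y, 0⟩ : Oct a b c) - t • ⟨z, 0⟩ = ⟨y - t • z, 0⟩ := by
    intro y z t
    apply Oct.ext
    · rfl
    · rw [snd_sub, snd_smul]
      simp
  simp only [adj, hn, hm, hs, hd]

/-- The product of a matrix and of its adjoint. -/
theorem mat_mul_adj {x : Alb a b c} (hx : InVs x) :
    mat x * mat (adj x) = cub x • (1 : Matrix (Fin 3) (Fin 3) (Qt a b)) := by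
  have hc := cub_of_inV hx
  obtain ⟨h1, h2, h3⟩ := hx
  rw [hc]
  obtain ⟨d1, d2, d3, ⟨p, p'⟩, ⟨q, q'⟩, ⟨r, r'⟩⟩ := x
  simp only at h1 h2 h3
  subst h1 h2 h3
  rw [adj_mk]
  have ha : ∀ t : F, (algebraMap F (Qt a b)) t = t • (1 : Qt a b) := fun t =>
    Algebra.algebraMap_eq_smul_one t
  have e1 := ent1 d1 d2 d3 p q r
  have e2 := ent1 d2 d3 d1 q r p
  have e3 := ent1 d3 d1 d2 r p q
  have e4 := ent2 d1 d3 p q r
  have e5 := ent2 d2 d1 q r p
  have e6 := ent2 d3 d2 r p q
  have e7 := ent3 d1 d2 p q r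
  have e8 := ent3 d2 d3 q r p
  have e9 := ent3 d3 d1 r p q
  have r1 : (q * r * p).re = (p * q * r).re := by simp; ring
  have r2 : (r * p * q).re = (p * q * r).re := by simp; ring
  rw [r1] at e2
  rw [r2] at e3
  apply Matrix.ext
  intro i j
  rw [Matrix.mul_apply, Fin.sum_univ_three, Matrix.smul_apply, Matrix.one_apply]
  fin_cases i <;> fin_cases j
  · simp only [mat, ha, Fin.zero_eta, Fin.mk_one, Fin.reduceFinMk, Fin.isValue, Matrix.of_apply,
      Matrix.cons_val_zero, Matrix.cons_val_one, Matrix.cons_val, smul_mul_assoc, one_mul,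
      if_true, if_false, smul_zero, reduceIte, Fin.reduceEq]
    rw [← e1]
  · simp only [mat, ha, Fin.zero_eta, Fin.mk_one, Fin.reduceFinMk, Fin.isValue, Matrix.of_apply,
      Matrix.cons_val_zero, Matrix.cons_val_one, Matrix.cons_val, smul_mul_assoc, one_mul,
      if_true, if_false, smul_zero, reduceIte, Fin.reduceEq]
    rw [← e4]
  · simp only [mat, ha, Fin.zero_eta, Fin.mk_one, Fin.reduceFinMk, Fin.isValue, Matrix.of_apply,
      Matrix.cons_val_zero, Matrix.cons_val_one, Matrix.cons_val, smul_mul_assoc, one_mul,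
      if_true, if_false, smul_zero, reduceIte, Fin.reduceEq]
    rw [← e7]
  · simp only [mat, ha, Fin.zero_eta, Fin.mk_one, Fin.reduceFinMk, Fin.isValue, Matrix.of_apply,
      Matrix.cons_val_zero, Matrix.cons_val_one, Matrix.cons_val, smul_mul_assoc, one_mul,
      if_true, if_false, smul_zero, reduceIte, Fin.reduceEq]
    rw [← e8]
    abel
  · simp only [mat, ha, Fin.zero_eta, Fin.mk_one, Fin.reduceFinMk, Fin.isValue, Matrix.of_apply,
      Matrix.cons_val_zero, Matrix.cons_val_one, Matrix.cons_val, smul_mul_assoc, one_mul,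
      if_true, if_false, smul_zero, reduceIte, Fin.reduceEq]
    rw [show d1 * d2 * d3 - d1 * nrd p - d2 * nrd q - d3 * nrd r + 2 * (p * q * r).re =
      d2 * d3 * d1 - d2 * nrd q - d3 * nrd r - d1 * nrd p + 2 * (p * q * r).re from by ring, ← e2]
    abel
  · simp only [mat, ha, Fin.zero_eta, Fin.mk_one, Fin.reduceFinMk, Fin.isValue, Matrix.of_apply,
      Matrix.cons_val_zero, Matrix.cons_val_one, Matrix.cons_val, smul_mul_assoc, one_mul,
      if_true, if_false, smul_zero, reduceIte, Fin.reduceEq]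
    rw [← e5]
    abel
  · simp only [mat, ha, Fin.zero_eta, Fin.mk_one, Fin.reduceFinMk, Fin.isValue, Matrix.of_apply,
      Matrix.cons_val_zero, Matrix.cons_val_one, Matrix.cons_val, smul_mul_assoc, one_mul,
      if_true, if_false, smul_zero, reduceIte, Fin.reduceEq]
    rw [← e6]
    abel
  · simp only [mat, ha, Fin.zero_eta, Fin.mk_one, Fin.reduceFinMk, Fin.isValue, Matrix.of_apply,
      Matrix.cons_val_zero, Matrix.cons_val_one, Matrix.cons_val, smul_mul_assoc, one_mul,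
      if_true, if_false, smul_zero, reduceIte, Fin.reduceEq]
    rw [← e9]
    abel
  · simp only [mat, ha, Fin.zero_eta, Fin.mk_one, Fin.reduceFinMk, Fin.isValue, Matrix.of_apply,
      Matrix.cons_val_zero, Matrix.cons_val_one, Matrix.cons_val, smul_mul_assoc, one_mul,
      if_true, if_false, smul_zero, reduceIte, Fin.reduceEq]
    rw [show d1 * d2 * d3 - d1 * nrd p - d2 * nrd q - d3 * nrd r + 2 * (p * q * r).re =
      d3 * d1 * d2 - d3 * nrd r - d1 * nrd p - d2 * nrd q + 2 * (p * q * r).re from by ring, ← e3]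
    abel

/-- The product of the adjoint of a matrix and of the matrix. -/
theorem mat_adj_mul {x : Alb a b c} (hx : InVs x) :
    mat (adj x) * mat x = cub x • (1 : Matrix (Fin 3) (Fin 3) (Qt a b)) := by
  have h := congrArg conjTranspose (mat_mul_adj hx)
  rw [conjTranspose_mul, (H64.mat_isHermitian _).eq, (H64.mat_isHermitian _).eq] at h
  rw [h]
  apply Matrix.ext
  intro i j
  rw [Matrix.conjTranspose_apply, Matrix.smul_apply, Matrix.smul_apply, Matrix.one_apply,
    Matrix.one_apply]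
  by_cases hij : i = j
  · subst hij
    simp
  · rw [if_neg hij, if_neg (fun h => hij h.symm)]
    simp

/-- Polarised form. -/
theorem mat_mul_cross [NeZero (2 : F)] {x y : Alb a b c} (hx : InVs x) (hy : InVs y) :
    mat y * mat (adj x) + mat x * mat (cross x y) =
      tf (adj x) y • (1 : Matrix (Fin 3) (Fin 3) (Qt a b)) := by
  have h1 := mat_mul_adj (inV_add hx hy)
  have h2 := mat_mul_adj (inV_add hx (inV_smul (-1) hy))
  have h3 := mat_mul_adj hx
  have h4 := mat_mul_adj hy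
  rw [cub_add, adj_add, H64.mat_add, H64.mat_add, H64.mat_add] at h1
  rw [cub_add, adj_add, H64.mat_add, H64.mat_add, H64.mat_add, cub_smul, adj_smul,
    cross_smul_right, tf_smul_right, tf_smul_right, H64.mat_smul, H64.mat_smul,
    H64.mat_smul] at h2
  have h5 : (2 : F) ≠ 0 := NeZero.ne 2
  apply smul_right_injective _ h5
  simp only
  simp only [Matrix.mul_add, Matrix.add_mul, Matrix.smul_mul, Matrix.mul_smul] at h1 h2
  linear_combination (norm := module) h1 - h2 - (2 : F) • h4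

/-- The product `z y z`. -/
theorem mat_mul_mul [NeZero (2 : F)] {z y : Alb a b c} (hz : InVs z) (hy : InVs y)
    (h0 : cub z ≠ 0) : mat z * mat y * mat z = mat (tf z y • z - cross (adj z) y) := by
  have h1 := mat_mul_cross (inV_adj hz) hy
  rw [adj_adj, tf_smul_left, H64.mat_smul, Matrix.mul_smul] at h1
  have h2 := congrArg (fun m => mat z * m) h1
  simp only [Matrix.mul_add, Matrix.mul_smul, Matrix.mul_one] at h2
  rw [← Matrix.mul_assoc (mat z) (mat (adj z)), mat_mul_adj hz, Matrix.smul_mul, Matrix.one_mul,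
    ← Matrix.mul_assoc] at h2
  apply smul_right_injective _ h0
  simp only
  have h3 : mat (tf z y • z - cross (adj z) y) = tf z y • mat z - mat (cross (adj z) y) := by
    rw [sub_eq_add_neg, H64.mat_add, H64.mat_smul, ← neg_one_smul F (cross (adj z) y),
      H64.mat_smul, neg_one_smul, sub_eq_add_neg]
  rw [h3]
  linear_combination (norm := module) h2

theorem tf_of_inV {x : Alb a b c} (hx : InVs x) (y : Alb a b c) :
    tf x y = (mat x * mat y).trace.re := by
  obtain ⟨h1, h2, h3⟩ := hx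
  simp only [tf, bil_eq, h1, h2, h3]
  simp only [Matrix.trace, diag_apply, Matrix.mul_apply, Fin.sum_univ_three]
  simp [mat]
  ring

theorem inV_ofMV (S : Matrix (Fin 3) (Fin 3) (Qt a b)) : InVs (ofMV S 0 : Alb a b c) :=
  ⟨rfl, rfl, rfl⟩

theorem inV_act {x : Alb a b c} (hx : InVs x) (m : (Matrix (Fin 3) (Fin 3) (Qt a b))ˣ)
    (κ : Qt a b) : InVs (act m κ x) := by
  have hv : vec x = 0 := by
    obtain ⟨h1, h2, h3⟩ := hx
    funext i
    fin_cases i
    · exact h1
    · exact h2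
    · exact h3
  have h : act m κ x = ofMV ((m : Matrix (Fin 3) (Fin 3) (Qt a b)) * mat x *
      (m : Matrix (Fin 3) (Fin 3) (Qt a b))ᴴ) 0 := by
    rw [act, hv]
    congr 1
    funext i
    rw [Matrix.zero_vecMul, Pi.zero_apply, mul_zero]
  rw [h]
  exact inV_ofMV _

theorem act_eq_act_one [NeZero (2 : F)] {x : Alb a b c} (hx : InVs x)
    (m : (Matrix (Fin 3) (Fin 3) (Qt a b))ˣ) (κ : Qt a b) : act m κ x = act m 1 x :=
  inV_ext (inV_act hx m κ) (inV_act hx m 1) (by rw [mat_act, mat_act])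

theorem adj_act [NeZero (2 : F)] (hab : Aniso a b) {x : Alb a b c} (hx : InVs x)
    {m n : (Matrix (Fin 3) (Fin 3) (Qt a b))ˣ}
    (hn : (n : Matrix (Fin 3) (Fin 3) (Qt a b))ᴴ * (m : Matrix (Fin 3) (Fin 3) (Qt a b)) = 1) :
    adj (act m 1 x) = nu (m : Matrix (Fin 3) (Fin 3) (Qt a b)) • act n 1 (adj x) := by
  obtain ⟨κ, hκ⟩ := exists_kap hab m
  have h0 : κ ≠ 0 := by
    intro h
    apply nu_ne_zero hab m
    rw [← hκ, h]
    simp [nrd]
  obtain ⟨u, hu⟩ := (H64.isUnit_or_zero hab κ).resolve_right h0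
  have hφ : ∀ y : Alb a b c, H64.actL two_ne_zero m u y = act m κ y := fun y => by
    rw [H64.actL_apply, hu]
  have h1 : ∀ x : Alb a b c, cub (H64.actL two_ne_zero m u x) =
      nu (m : Matrix (Fin 3) (Fin 3) (Qt a b)) * cub x := fun x => by
    rw [hφ, cub_act hab m κ hκ]
  apply eq_of_tf
  intro z
  obtain ⟨y, rfl⟩ := (H64.actL (c := c) two_ne_zero m u).surjective z
  have h2 : tf (adj (H64.actL two_ne_zero m u x)) (H64.actL two_ne_zero m u y) =
      nu (m : Matrix (Fin 3) (Fin 3) (Qt a b)) * tf (adj x) y :=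
    tf_adj_of_cub (φ := (H64.actL (c := c) two_ne_zero m u).toLinearMap) h1 x y
  rw [← act_eq_act_one hx m κ, ← hφ, h2, tf_smul_left, tf_of_inV (inV_adj hx),
    tf_of_inV (inV_act (inV_adj hx) _ _), hφ, mat_act, mat_act]
  congr 1
  have hn' : (m : Matrix (Fin 3) (Fin 3) (Qt a b))ᴴ * (n : Matrix (Fin 3) (Fin 3) (Qt a b)) = 1 := by
    have h3 := congrArg conjTranspose hn
    rwa [conjTranspose_mul, conjTranspose_conjTranspose, conjTranspose_one] at h3
  have h4 : (n : Matrix (Fin 3) (Fin 3) (Qt a b)) * mat (adj x) *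
      (n : Matrix (Fin 3) (Fin 3) (Qt a b))ᴴ * ((m : Matrix (Fin 3) (Fin 3) (Qt a b)) * mat y *
      (m : Matrix (Fin 3) (Fin 3) (Qt a b))ᴴ) = (n : Matrix (Fin 3) (Fin 3) (Qt a b)) *
        (mat (adj x) * mat y * (m : Matrix (Fin 3) (Fin 3) (Qt a b))ᴴ) := by
    calc _ = (n : Matrix (Fin 3) (Fin 3) (Qt a b)) * mat (adj x) *
          ((n : Matrix (Fin 3) (Fin 3) (Qt a b))ᴴ * (m : Matrix (Fin 3) (Fin 3) (Qt a b))) *
          mat y * (m : Matrix (Fin 3) (Fin 3) (Qt a b))ᴴ := by simp only [Matrix.mul_assoc]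
      _ = _ := by rw [hn, Matrix.mul_one]; simp only [Matrix.mul_assoc]
  rw [h4, H64.re_trace_comm (n : Matrix (Fin 3) (Fin 3) (Qt a b)), Matrix.mul_assoc _ _
    (n : Matrix (Fin 3) (Fin 3) (Qt a b)), hn', Matrix.mul_one]

theorem cross_act [NeZero (2 : F)] (hab : Aniso a b) {x y : Alb a b c} (hx : InVs x) (hy : InVs y)
    {m n : (Matrix (Fin 3) (Fin 3) (Qt a b))ˣ}
    (hn : (n : Matrix (Fin 3) (Fin 3) (Qt a b))ᴴ * (m : Matrix (Fin 3) (Fin 3) (Qt a b)) = 1) :
    cross (act m 1 x) (act m 1 y) =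
      nu (m : Matrix (Fin 3) (Fin 3) (Qt a b)) • act n 1 (cross x y) := by
  have h := adj_act hab (inV_add hx hy) hn
  rw [H64.act_add, adj_add, adj_add, H64.act_add, H64.act_add, adj_act hab hx hn,
    adj_act hab hy hn, smul_add, smul_add] at h
  exact add_left_cancel (add_right_cancel h)

end Gn

end Vale.Agent.P011.E6I
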