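import Vale.Agent.P011.E6I.Gen2
import Vale.Agent.P011.E6I.Basic
import Vale.Agent.P011.E6I.Frm
import Vale.Agent.P011.E6I.H493.Clo

/-!
Frames attached to elements of rank one.
-/

namespace Vale.Agent.P011.E6I

open Vale.Agent.P011.MPQ hiding mat
open Vale.Agent.P011.D4 Vale.Agent.P011.D4.Oct Vale.Agent.P011.E6 Alb
open Matrix

namespace Gn

section rank1

variable {F : Type} [Field F] [NeZero (2 : F)] {a b c : Fˣ}

/-- Elements with adjoint zero. -/
theorem mul_of_adj {S : Alb a b c} (hS : InVs S) (ha : adj S = 0) (i j l : Fin 3) :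
    mat S i j * mat S j l = (mat S j j).re • mat S i l := by
  obtain ⟨h1, h2, h3⟩ := hS
  obtain ⟨d1, d2, d3, ⟨p, p'⟩, ⟨q, q'⟩, ⟨r, r'⟩⟩ := S
  simp only at h1 h2 h3
  subst h1 h2 h3
  rw [adj_mk] at ha
  have e1 : d2 * d3 - nrd p = 0 := congrArg Alb.d1 ha
  have e2 : d3 * d1 - nrd q = 0 := congrArg Alb.d2 ha
  have e3 : d1 * d2 - nrd r = 0 := congrArg Alb.d3 ha
  have e4 : star (q * r) - d1 • p = 0 := congrArg (fun x => x.x1.fst) ha
  have e5 : star (r * p) - d2 • q = 0 := congrArg (fun x => x.x2.fst) ha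
  have e6 : star (p * q) - d3 • r = 0 := congrArg (fun x => x.x3.fst) ha
  rw [sub_eq_zero] at e1 e2 e3 e4 e5 e6
  have f1 : q * r = d1 • star p := by
    rw [← QuaternionAlgebra.star_smul, ← e4, star_star]
  have f2 : r * p = d2 • star q := by
    rw [← QuaternionAlgebra.star_smul, ← e5, star_star]
  have f3 : p * q = d3 • star r := by
    rw [← QuaternionAlgebra.star_smul, ← e6, star_star]
  rw [star_mul] at e4 e5 e6
  have ha : ∀ t : F, (algebraMap F (Qt a b)) t = t • (1 : Qt a b) := fun t =>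
    Algebra.algebraMap_eq_smul_one t
  have hr : ∀ t : F, (t • (1 : Qt a b)).re = t := fun t => by simp
  fin_cases i <;> fin_cases j <;> fin_cases l <;>
  simp only [mat, ha, hr, Fin.zero_eta, Fin.mk_one, Fin.reduceFinMk, Fin.isValue, Matrix.of_apply,
      Matrix.cons_val_zero, Matrix.cons_val_one, Matrix.cons_val, smul_mul_assoc, one_mul,
      mul_smul_comm, mul_one, ms, sm, e4, e5, e6, f1, f2, f3, ← e1, ← e2, ← e3] <;> module

theorem exists_rank_one (hab : Aniso a b) {S : Alb a b c} (hS : InVs S) (h0 : S ≠ 0)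
    (ha : adj S = 0) : ∃ (μ : F) (y : Fin 3 → Qt a b), μ ≠ 0 ∧ y ≠ 0 ∧
      ∀ i j, mat S i j = μ • (y i * star (y j)) := by
  have h1 := mul_of_adj hS ha
  obtain ⟨j, hj⟩ : ∃ j, (mat S j j).re ≠ 0 := by
    by_contra hc
    push Not at hc
    apply h0
    have h2 : ∀ i j, mat S i j = 0 := by
      intro i j
      have h3 := h1 i j i
      rw [hc j, zero_smul] at h3
      have h4 : mat S j i = star (mat S i j) := (congrFun (congrFun (H64.mat_isHermitian S) j) i).symm
      rw [h4, ms] at h3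
      have h5 : nrd (mat S i j) = 0 := by
        have h6 := congrArg QuaternionAlgebra.re h3
        simpa using h6
      exact hab _ h5
    refine inV_ext hS ⟨rfl, rfl, rfl⟩ ?_
    apply Matrix.ext
    intro i j
    rw [h2]
    fin_cases i <;> fin_cases j <;> simp [mat]
  refine ⟨((mat S j j).re)⁻¹, fun i => mat S i j, inv_ne_zero hj, ?_, fun i l => ?_⟩
  · intro h
    apply hj
    rw [congrFun h j]
    rfl
  · have h4 : star (mat S l j) = mat S j l := congrFun (congrFun (H64.mat_isHermitian S) j) l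
    simp only
    rw [h4, h1, smul_smul, inv_mul_cancel₀ hj, one_smul]

theorem mat_act_e1 (m : (Matrix (Fin 3) (Fin 3) (Qt a b))ˣ) (i j : Fin 3) :
    mat (act m 1 (e1 : Alb a b c)) i j = (m : Matrix (Fin 3) (Fin 3) (Qt a b)) i 0 *
      star ((m : Matrix (Fin 3) (Fin 3) (Qt a b)) j 0) := by
  rw [mat_act, Matrix.mul_apply, Fin.sum_univ_three, Matrix.mul_apply, Matrix.mul_apply,
    Matrix.mul_apply, Fin.sum_univ_three, Fin.sum_univ_three, Fin.sum_univ_three]
  simp [mat, e1]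

end rank1

section cyc

variable {k L : Type} [Field k] [NumberField k] [Field L] [NumberField L] [Algebra k L]
  {ρ : L ≃ₐ[k] L} {lam : kˣ} {a b c : kˣ}

omit [NumberField k] [NumberField L] in
theorem ph_add (x y : AlbL L a b c) : ph ρ lam (x + y) = ph ρ lam x + ph ρ lam y := by
  apply Alb.ext <;> simp [ph, omap_add, mul_add]

omit [NumberField k] [NumberField L] in
theorem ph_smul (t : L) (x : AlbL L a b c) : ph ρ lam (t • x) = ρ t • ph ρ lam x := by
  apply Alb.ext <;> simp [ph, omap_smul, mul_left_comm, smul_comm (ρ t)]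

omit [NumberField k] [NumberField L] in
theorem rho_lam : ρ (up L lam : L) = (up L lam : L) := ρ.commutes _

omit [NumberField k] [NumberField L] in
theorem rho_lami : ρ ((up L lam)⁻¹ : Lˣ) = ((up L lam)⁻¹ : Lˣ) := by
  rw [Units.val_inv_eq_inv_val, map_inv₀, rho_lam]

omit [NumberField k] [NumberField L] in
theorem adj_ph (x : AlbL L a b c) :
    adj (ph ρ lam x) = (up L lam : L) • ph ρ lam⁻¹ (adj x) := by
  have h0 : (up L lam : L) ≠ 0 := (up L lam).ne_zero
  have h1 : (((up L lam⁻¹)⁻¹ : Lˣ) : L) = (up L lam : L) := by simp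
  have h2 : ((up L lam⁻¹ : Lˣ) : L) = (up L lam : L)⁻¹ := by simp
  have h3 : (((up L lam)⁻¹ : Lˣ) : L) = (up L lam : L)⁻¹ := Units.val_inv_eq_inv_val _
  rw [ph, ph, h1, h2, h3]
  apply Alb.ext
  · simp only [adj, d1_smul, map_sub, map_mul, Oct.norm_smul, norm_om]
    field_simp
  · simp only [adj, d2_smul, map_sub, map_mul, norm_om]
    field_simp
  · simp only [adj, d3_smul, map_sub, map_mul, norm_om]
    field_simp
  · simp only [adj, x1_smul, omap_sub, omap_smul, omap_star, omap_mul]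
    have e : (up L lam : L)⁻¹ * ρ x.d3 * (up L lam : L) = ρ x.d3 := by field_simp
    rw [smul_smul (up L lam : L), smul_smul, mul_inv_cancel₀ h0, one_smul, e]
  · simp only [adj, x2_smul, omap_sub, omap_smul, omap_star, omap_mul]
    rw [mul_smul_comm, star_smul_oct, smul_sub, smul_smul]
  · simp only [adj, x3_smul, omap_sub, omap_smul, omap_star, omap_mul]
    rw [smul_mul_assoc, star_smul_oct, smul_sub, smul_smul]

/-- The matrix with columns `y`, `u ρ(y)`, `u ρ(u ρ(y))`. -/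
def bb (ρ : L ≃ₐ[k] L) (lam : kˣ) {a b : kˣ} (y : Fin 3 → Qt (up L a) (up L b)) : MQ L a b :=
  !![y 0, (((up L lam)⁻¹ : Lˣ) : L) • qmap ρ (y 2), (((up L lam)⁻¹ : Lˣ) : L) • qmap ρ (qmap ρ (y 1));
     y 1, qmap ρ (y 0), (((up L lam)⁻¹ : Lˣ) : L) • qmap ρ (qmap ρ (y 2));
     y 2, qmap ρ (y 1), qmap ρ (qmap ρ (y 0))]

omit [NumberField k] [NumberField L] in
theorem mul_u_apply (S : MQ L a b) (i j : Fin 3) :
    (S * (toMQ (u0 L lam) : MQ L a b)) i j =
      (![S i 1, S i 2, (((up L lam)⁻¹ : Lˣ) : L) • S i 0] : Fin 3 → Qt (up L a) (up L b)) j := by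
  have h0 : (((0 : L) : Qt (up L a) (up L b))) = 0 := rfl
  have h1 : (((1 : L) : Qt (up L a) (up L b))) = 1 := rfl
  rw [Matrix.mul_apply, Fin.sum_univ_three]
  simp only [toMQ_apply]
  fin_cases j
  · change S i 0 * ((0 : L) : Qt (up L a) (up L b)) + S i 1 * ((1 : L) : Qt (up L a) (up L b)) +
      S i 2 * ((0 : L) : Qt (up L a) (up L b)) = S i 1
    rw [h0, h1, mul_zero, mul_zero, mul_one, add_zero, zero_add]
  · change S i 0 * ((0 : L) : Qt (up L a) (up L b)) + S i 1 * ((0 : L) : Qt (up L a) (up L b)) +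
      S i 2 * ((1 : L) : Qt (up L a) (up L b)) = S i 2
    rw [h0, h1, mul_zero, mul_zero, mul_one, add_zero, zero_add]
  · change S i 0 * ((((up L lam)⁻¹ : Lˣ) : L) : Qt (up L a) (up L b)) +
      S i 1 * ((0 : L) : Qt (up L a) (up L b)) +
      S i 2 * ((0 : L) : Qt (up L a) (up L b)) = (((up L lam)⁻¹ : Lˣ) : L) • S i 0
    rw [h0, mul_zero, mul_zero, add_zero, add_zero, ← QuaternionAlgebra.coe_commutes,
      QuaternionAlgebra.coe_mul_eq_smul]

theorem inD_bb (H : Hyp ρ lam a b c) (y : Fin 3 → Qt (up L a) (up L b)) :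
    InD ρ lam (bb ρ lam y) := by
  have h : ∀ q : Qt (up L a) (up L b), qmap ρ (qmap ρ (qmap ρ q)) = q := fun q =>
    QuaternionAlgebra.ext (H.rho3 _) (H.rho3 _) (H.rho3 _) (H.rho3 _)
  rw [InD]
  apply Matrix.ext
  intro i j
  rw [mul_u_apply, uq_mul_apply]
  simp only [Matrix.map_apply]
  fin_cases i <;> fin_cases j <;> simp only [bb, Fin.zero_eta, Fin.mk_one, Fin.reduceFinMk,
    Fin.isValue, Matrix.of_apply, Matrix.cons_val_zero, Matrix.cons_val_one, Matrix.cons_val,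
    qmap_smul, h, rho_lami] <;> rfl

theorem exists_unit_bb (H : Hyp ρ lam a b c) {y : Fin 3 → Qt (up L a) (up L b)} (hy : y ≠ 0) :
    ∃ m : (MQ L a b)ˣ, InD ρ lam (m : MQ L a b) ∧ ∀ i, (m : MQ L a b) i 0 = y i := by
  have h1 : bb ρ lam y ≠ 0 := by
    intro h
    apply hy
    funext i
    have h2 := congrFun (congrFun h i) 0
    fin_cases i <;> exact h2
  obtain ⟨m, hm⟩ := isUnit_of_inD H (inD_bb H y) h1
  refine ⟨m, by rw [hm]; exact inD_bb H y, fun i => ?_⟩
  rw [hm]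
  fin_cases i <;> rfl

omit [NumberField k] [NumberField L] in
theorem Hyp.lami (H : Hyp ρ lam a b c) : Hyp ρ lam⁻¹ a b c := by
  refine ⟨H.h3, H.hρ, fun x hx => ?_, H.hdiv⟩
  apply H.hlam x⁻¹
  have hx0 : x ≠ 0 := by
    rintro rfl
    have : FiniteDimensional k L := Module.finite_of_finrank_pos (by have := H.h3; omega)
    rw [Algebra.norm_zero] at hx
    exact (lam⁻¹ : kˣ).ne_zero hx.symm
  have h1 : Algebra.norm k x⁻¹ * Algebra.norm k x = 1 := by
    rw [← map_mul, inv_mul_cancel₀ hx0, map_one]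
  rw [hx] at h1
  have h2 := congrArg (fun t => t * (lam : k)) h1
  rw [mul_assoc, Units.inv_mul, mul_one, one_mul] at h2
  exact h2

omit [NumberField k] [NumberField L] in
theorem toMQ_u0_inv : (toMQ (u0 L lam⁻¹) : MQ L a b) = (toMQ (w0 L lam) : MQ L a b)ᴴ := by
  apply Matrix.ext
  intro i j
  rw [Matrix.conjTranspose_apply, toMQ_apply, toMQ_apply, H64.star_coe']
  congr 1
  fin_cases i <;> fin_cases j <;> simp [u0, w0]

omit [NumberField k] [NumberField L] in
/-- Passage to the dual. -/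
theorem inD_dual {m : (MQ L a b)ˣ} (hm : InD ρ lam⁻¹ (m : MQ L a b)) :
    ∃ n : (MQ L a b)ˣ, InD ρ lam (n : MQ L a b) ∧ (n : MQ L a b)ᴴ * (m : MQ L a b) = 1 := by
  have h1 : InD ρ lam ((m : MQ L a b)ᴴ) := by
    rw [InD, toMQ_u0_inv] at hm
    have h2 := congrArg conjTranspose hm
    rw [conjTranspose_mul, conjTranspose_mul, conjTranspose_conjTranspose,
      ← H64.map_qmap_conjTranspose] at h2
    rw [InD]
    calc (m : MQ L a b)ᴴ * toMQ (u0 L lam)
        = (toMQ (u0 L lam) * toMQ (w0 L lam)) * (m : MQ L a b)ᴴ * toMQ (u0 L lam) := by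
          rw [uq_mul_wq, Matrix.one_mul]
      _ = toMQ (u0 L lam) * (toMQ (w0 L lam) * (m : MQ L a b)ᴴ) * toMQ (u0 L lam) := by
          simp only [Matrix.mul_assoc]
      _ = toMQ (u0 L lam) * ((m : MQ L a b)ᴴ).map (qmap ρ) * (toMQ (w0 L lam) *
          toMQ (u0 L lam)) := by
          rw [h2]
          simp only [Matrix.mul_assoc]
      _ = _ := by rw [wq_mul_uq, Matrix.mul_one]
  let M : (MQ L a b)ˣ := ⟨(m : MQ L a b)ᴴ, ((m⁻¹ : (MQ L a b)ˣ) : MQ L a b)ᴴ,
    by rw [← conjTranspose_mul, H64.units_inv_mul, conjTranspose_one],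
    by rw [← conjTranspose_mul, H64.units_mul_inv, conjTranspose_one]⟩
  refine ⟨M⁻¹, InD.inv' (m := M) h1, ?_⟩
  change (((m⁻¹ : (MQ L a b)ˣ) : MQ L a b)ᴴ)ᴴ * (m : MQ L a b) = 1
  rw [conjTranspose_conjTranspose, H64.units_inv_mul]

end cyc

end Gn

end Vale.Agent.P011.E6I
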