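import Vale.Agent.P011.E6I.Gen3

/-!
Frames attached to elements of rank one, and isotropic elements.
-/

namespace Vale.Agent.P011.E6I

open Vale.Agent.P011.MPQ hiding mat
open Vale.Agent.P011.D4 Vale.Agent.P011.D4.Oct Vale.Agent.P011.E6 Alb
open Matrix

namespace Gn

variable {k L : Type} [Field k] [NumberField k] [Field L] [NumberField L] [Algebra k L]
  {ρ : L ≃ₐ[k] L} {lam : kˣ} {a b c : kˣ}

/-- The intersection of `V` and `h V`. -/
def UU {a b c : kˣ} (h : AlbL L a b c ≃ₗ[L] AlbL L a b c) : Submodule L (AlbL L a b c) :=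
  Vsub L a b c ⊓ (Vsub L a b c).map (h : AlbL L a b c →ₗ[L] AlbL L a b c)

omit [NumberField k] [NumberField L] in
theorem mem_Vsub {x : AlbL L a b c} : x ∈ Vsub L a b c ↔ InVs x := Iff.rfl

omit [NumberField k] [NumberField L] in
theorem mem_UU {h : AlbL L a b c ≃ₗ[L] AlbL L a b c} {x : AlbL L a b c} :
    x ∈ UU h ↔ InVs x ∧ InVs (h⁻¹ x) := by
  rw [UU, Submodule.mem_inf, mem_Vsub]
  refine and_congr_right fun _ => ?_
  rw [Submodule.mem_map]
  constructor
  · rintro ⟨y, hy, rfl⟩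
    have h1 : h⁻¹ ((h : AlbL L a b c →ₗ[L] AlbL L a b c) y) = y := h.symm_apply_apply y
    rw [h1]
    exact hy
  · intro h1
    exact ⟨h⁻¹ x, h1, h.apply_symm_apply x⟩

omit [NumberField k] [NumberField L] in
theorem inV_ph {x : AlbL L a b c} (hx : InVs x) : InVs (ph ρ lam x) := by
  obtain ⟨h1, h2, h3⟩ := hx
  refine ⟨?_, ?_, ?_⟩
  · change (up L lam : L) • qmap ρ x.x3.snd = 0
    rw [h3, qmap_zero, smul_zero]
  · change qmap ρ x.x1.snd = 0
    rw [h1, qmap_zero]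
  · change qmap ρ x.x2.snd = 0
    rw [h2, qmap_zero]

omit [NumberField k] [NumberField L] in
theorem UU_ph {h : AlbL L a b c ≃ₗ[L] AlbL L a b c} (hh : h ∈ GI ρ lam a b c)
    {x : AlbL L a b c} (hx : x ∈ UU h) : ph ρ lam x ∈ UU h := by
  rw [mem_UU] at hx ⊢
  refine ⟨inV_ph hx.1, ?_⟩
  rw [((GI ρ lam a b c).inv_mem hh).2]
  exact inV_ph hx.2

omit [NumberField k] in
theorem UU_cross {h : AlbL L a b c ≃ₗ[L] AlbL L a b c} (hh : h ∈ GI ρ lam a b c)
    {x y : AlbL L a b c} (hx : x ∈ UU h) (hy : y ∈ UU h) : cross (adj x) (adj y) ∈ UU h := by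
  rw [mem_UU] at hx hy ⊢
  refine ⟨inV_cross (inV_adj hx.1) (inV_adj hy.1), ?_⟩
  rw [← cross_adj (φ := h⁻¹) ((GI ρ lam a b c).inv_mem hh).1]
  exact inV_cross (inV_adj hx.2) (inV_adj hy.2)

/-- A diagonal element. -/
def dg3 {F : Type} [Field F] {a b c : Fˣ} (s : Fin 3 → F) : Alb a b c := ⟨s 0, s 1, s 2, 0, 0, 0⟩

omit [NumberField k] [NumberField L] in
theorem inV_dg3 (s : Fin 3 → L) : InVs (dg3 s : AlbL L a b c) := ⟨rfl, rfl, rfl⟩

omit [NumberField k] [NumberField L] in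
theorem ph_e1 : ph ρ lam (e1 : AlbL L a b c) = (up L lam : L) • e2 := by
  apply Alb.ext <;> simp [ph, e1, e2]

omit [NumberField k] [NumberField L] in
theorem ph_e2 : ph ρ lam (e2 : AlbL L a b c) = (up L lam : L) • e3 := by
  apply Alb.ext <;> simp [ph, e2, e3]

omit [NumberField k] [NumberField L] in
theorem ph_e3 : ph ρ lam (e3 : AlbL L a b c) = (((up L lam)⁻¹ : Lˣ) : L) • e1 := by
  apply Alb.ext <;> simp [ph, e1, e3]

theorem ph_act_one {m : (MQ L a b)ˣ} (hm : InD ρ lam (m : MQ L a b)) (x : AlbL L a b c) :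
    ph ρ lam (act m 1 x) = act m 1 (ph ρ lam x) := by
  have h := ph_act' hm 1 x
  rwa [qup_one] at h

theorem all_mem {W : Submodule L (AlbL L a b c)} (hW : ∀ x ∈ W, ph ρ lam x ∈ W)
    {m : (MQ L a b)ˣ} (hm : InD ρ lam (m : MQ L a b))
    (h : act m 1 (e1 : AlbL L a b c) ∈ W ∨ act m 1 (e3 : AlbL L a b c) ∈ W) :
    act m 1 (e1 : AlbL L a b c) ∈ W ∧ act m 1 (e2 : AlbL L a b c) ∈ W ∧
      act m 1 (e3 : AlbL L a b c) ∈ W := by
  have h0 : (up L lam : L) ≠ 0 := (up L lam).ne_zero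
  have h0' : (((up L lam)⁻¹ : Lˣ) : L) ≠ 0 := ((up L lam)⁻¹).ne_zero
  have h1 : act m 1 (e1 : AlbL L a b c) ∈ W := by
    rcases h with h | h
    · exact h
    · have h2 := hW _ h
      rw [ph_act_one hm, ph_e3, H64.act_smul] at h2
      exact (W.smul_mem_iff h0').mp h2
  have h2 : act m 1 (e2 : AlbL L a b c) ∈ W := by
    have h2 := hW _ h1
    rw [ph_act_one hm, ph_e1, H64.act_smul] at h2
    exact (W.smul_mem_iff h0).mp h2
  have h3 : act m 1 (e3 : AlbL L a b c) ∈ W := by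
    have h2 := hW _ h2
    rw [ph_act_one hm, ph_e2, H64.act_smul] at h2
    exact (W.smul_mem_iff h0).mp h2
  exact ⟨h1, h2, h3⟩

omit [NumberField k] [NumberField L] in
theorem dg3_eq (s : Fin 3 → L) :
    (dg3 s : AlbL L a b c) = s 0 • e1 + s 1 • e2 + s 2 • e3 := by
  apply Alb.ext <;> simp [dg3, e1, e2, e3]

omit [NumberField k] in
theorem act_dg3 (m : (MQ L a b)ˣ) (s : Fin 3 → L) : act m 1 (dg3 s : AlbL L a b c) =
    s 0 • act m 1 (e1 : AlbL L a b c) + s 1 • act m 1 (e2 : AlbL L a b c) +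
      s 2 • act m 1 (e3 : AlbL L a b c) := by
  rw [dg3_eq, H64.act_add, H64.act_add, H64.act_smul, H64.act_smul, H64.act_smul]

omit [NumberField k] [NumberField L] in
theorem mat_dg3 (s : Fin 3 → L) :
    mat (dg3 s : AlbL L a b c) = toMQ (Matrix.diagonal s) := by
  apply Matrix.ext
  intro i j
  rw [toMQ_apply]
  fin_cases i <;> fin_cases j <;> simp [mat, dg3] <;> rfl

/-- The embedding of the matrices, as a ring homomorphism. -/
def tq (L : Type) [Field L] [Algebra k L] (a b : kˣ) :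
    Matrix (Fin 3) (Fin 3) L →+* MQ L a b := (algebraMap L (Qt (up L a) (up L b))).mapMatrix

omit [NumberField k] [NumberField L] in
theorem tq_apply (x : Matrix (Fin 3) (Fin 3) L) : tq L a b x = toMQ x := rfl

omit [NumberField k] [NumberField L] in
theorem tq_smul (t : L) (x : Matrix (Fin 3) (Fin 3) L) : tq L a b (t • x) = t • tq L a b x := by
  apply Matrix.ext
  intro i j
  change ((t * x i j : L) : Qt (up L a) (up L b)) = t • ((x i j : L) : Qt (up L a) (up L b))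
  rw [QuaternionAlgebra.coe_mul, QuaternionAlgebra.coe_mul_eq_smul]

/-- The conjugates of an element. -/
def cyc (ρ : L ≃ₐ[k] L) (t : L) : Fin 3 → L := ![t, ρ t, ρ (ρ t)]

theorem inD_cyc (H : Hyp ρ lam a b c) (t : L) :
    InD ρ lam (toMQ (Matrix.diagonal (cyc ρ t)) : MQ L a b) := by
  have h3 := H.rho3 t
  rw [InD]
  have h1 : (toMQ (Matrix.diagonal (cyc ρ t)) : MQ L a b).map (qmap ρ) =
      toMQ ((Matrix.diagonal (cyc ρ t)).map ρ) := by
    apply Matrix.ext
    intro i j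
    rw [Matrix.map_apply, toMQ_apply, toMQ_apply, H64.qmap_coe]
    rfl
  rw [h1, ← toMQ_mul, ← toMQ_mul]
  congr 1
  apply Matrix.ext
  intro i j
  fin_cases i <;> fin_cases j <;>
    simp [u0, cyc, Matrix.mul_apply, Fin.sum_univ_three, h3, mul_comm]

omit [NumberField k] [NumberField L] in
theorem exists_ne (H : Hyp ρ lam a b c) : ∃ t : L, ρ t ≠ t := by
  by_contra hc
  push Not at hc
  exact H.hρ (AlgEquiv.ext hc)

omit [NumberField k] [NumberField L] in
theorem ph_dg3 (s : Fin 3 → L) : ph ρ lam (dg3 s : AlbL L a b c) =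
    dg3 ![(((up L lam)⁻¹ : Lˣ) : L) * ρ (s 2), (up L lam : L) * ρ (s 0),
      (up L lam : L) * ρ (s 1)] := by
  apply Alb.ext <;> simp [ph, dg3]

theorem frm_of_unit (H : Hyp ρ lam a b c) {h : AlbL L a b c ≃ₗ[L] AlbL L a b c}
    {m : (MQ L a b)ˣ} (hm : InD ρ lam (m : MQ L a b))
    (h1 : act m 1 (e1 : AlbL L a b c) ∈ UU h) (h2 : act m 1 (e2 : AlbL L a b c) ∈ UU h)
    (h3 : act m 1 (e3 : AlbL L a b c) ∈ UU h) : Frm ρ lam h := by
  obtain ⟨t, ht⟩ := exists_ne H
  have hr3 := H.rho3 t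
  have n01 : t - ρ t ≠ 0 := sub_ne_zero.mpr (Ne.symm ht)
  have n12 : ρ t - ρ (ρ t) ≠ 0 := by
    rw [← map_sub]
    exact (map_ne_zero ρ).mpr n01
  have n20 : ρ (ρ t) - t ≠ 0 := by
    have h4 := (map_ne_zero ρ).mpr n12
    rwa [map_sub, hr3] at h4
  -- the symmetric functions
  obtain ⟨p2, hp2⟩ := H.fix (t := t + ρ t + ρ (ρ t)) (by
    rw [map_add, map_add, hr3]; ring)
  obtain ⟨p1, hp1⟩ := H.fix (t := -(t * ρ t + ρ t * ρ (ρ t) + ρ (ρ t) * t)) (by
    rw [map_neg, map_add, map_add, map_mul, map_mul, map_mul, hr3]; ring)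
  obtain ⟨p0, hp0⟩ := H.fix (t := t * ρ t * ρ (ρ t)) (by
    rw [map_mul, map_mul, hr3]; ring)
  set D : Matrix (Fin 3) (Fin 3) L := Matrix.diagonal (cyc ρ t) with hD
  have hD3 : D ^ 3 = algebraMap k L p2 • D ^ 2 + algebraMap k L p1 • D +
      algebraMap k L p0 • (1 : Matrix (Fin 3) (Fin 3) L) := by
    rw [hp2, hp1, hp0, hD, Matrix.diagonal_pow, Matrix.diagonal_pow]
    apply Matrix.ext
    intro i j
    fin_cases i <;> fin_cases j <;> simp [cyc] <;> ring
  set z : MQ L a b := (m : MQ L a b) * tq L a b D * ((m⁻¹ : (MQ L a b)ˣ) : MQ L a b) with hz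
  have hzn : ∀ n : ℕ, z ^ n = (m : MQ L a b) * tq L a b (D ^ n) *
      ((m⁻¹ : (MQ L a b)ˣ) : MQ L a b) := by
    intro n
    rw [hz, Units.conj_pow, map_pow]
  have hsc : ∀ s : L, (m : MQ L a b) * tq L a b (s • 1) * ((m⁻¹ : (MQ L a b)ˣ) : MQ L a b) =
      s • 1 := by
    intro s
    rw [tq_smul, map_one, Matrix.mul_smul, Matrix.mul_one, Matrix.smul_mul, H64.units_mul_inv]
  have hsm : ∀ (s : L) (A : Matrix (Fin 3) (Fin 3) L),
      (m : MQ L a b) * tq L a b (s • A) * ((m⁻¹ : (MQ L a b)ˣ) : MQ L a b) =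
      s • ((m : MQ L a b) * tq L a b A * ((m⁻¹ : (MQ L a b)ˣ) : MQ L a b)) := by
    intro s A
    rw [tq_smul, Matrix.mul_smul, Matrix.smul_mul]
  have hkey : ∀ s s' : Fin 3 → L, s' = (fun i => cyc ρ t i * s i) →
      z * ((m : MQ L a b) * toMQ (Matrix.diagonal s) * (m : MQ L a b)ᴴ) =
        (m : MQ L a b) * toMQ (Matrix.diagonal s') * (m : MQ L a b)ᴴ := by
    intro s s' hs
    rw [hs, ← Matrix.diagonal_mul_diagonal, toMQ_mul, hz]
    calc _ = (m : MQ L a b) * tq L a b D * (((m⁻¹ : (MQ L a b)ˣ) : MQ L a b) *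
          (m : MQ L a b)) * toMQ (Matrix.diagonal s) * (m : MQ L a b)ᴴ := by
          simp only [Matrix.mul_assoc]
      _ = _ := by
          rw [H64.units_inv_mul, Matrix.mul_one]
          simp only [Matrix.mul_assoc]
          rfl
  refine ⟨z, p2, p1, p0, act m 1 (dg3 1), act m 1 (dg3 (cyc ρ t)),
    act m 1 (dg3 (fun i => cyc ρ t i ^ 2)), (hm.mul (inD_cyc H t)).mul hm.inv', ?_, ?_,
    inV_act (inV_dg3 _) _ _, inV_act (inV_dg3 _) _ _, inV_act (inV_dg3 _) _ _, ?_, ?_, ?_, ?_, ?_,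
    ?_, ?_⟩
  · rw [hzn, hzn, hD3, map_add, map_add, Matrix.mul_add, Matrix.mul_add, Matrix.add_mul,
      Matrix.add_mul, hsc, hsm, hsm]
  · intro q1 q0 hq
    rw [hzn] at hq
    have h4 : tq L a b (D ^ 2) = tq L a b (algebraMap k L q1 • D + algebraMap k L q0 • 1) := by
      have h5 : (m : MQ L a b) * tq L a b (D ^ 2) * ((m⁻¹ : (MQ L a b)ˣ) : MQ L a b) =
          (m : MQ L a b) * tq L a b (algebraMap k L q1 • D + algebraMap k L q0 • 1) *
            ((m⁻¹ : (MQ L a b)ˣ) : MQ L a b) := by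
        rw [hq, map_add, Matrix.mul_add, Matrix.add_mul, hsc, hsm]
      exact (Units.mul_right_inj m).mp ((Units.mul_left_inj m⁻¹).mp h5)
    have h6 : ∀ i, cyc ρ t i ^ 2 = algebraMap k L q1 * cyc ρ t i + algebraMap k L q0 := by
      intro i
      have h7 := congrArg QuaternionAlgebra.re (congrFun (congrFun h4 i) i)
      rw [hD, Matrix.diagonal_pow] at h7
      have h8 : ∀ A : Matrix (Fin 3) (Fin 3) L, (tq L a b A i i).re = A i i := fun A => rfl
      rw [h8, h8, Matrix.add_apply, Matrix.smul_apply, Matrix.smul_apply,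
        Matrix.diagonal_apply_eq, Matrix.diagonal_apply_eq, Matrix.one_apply_eq, smul_eq_mul,
        smul_eq_mul, mul_one] at h7
      exact h7
    have h60 := h6 0
    have h61 := h6 1
    have h62 := h6 2
    change t ^ 2 = algebraMap k L q1 * t + algebraMap k L q0 at h60
    change ρ t ^ 2 = algebraMap k L q1 * ρ t + algebraMap k L q0 at h61
    change ρ (ρ t) ^ 2 = algebraMap k L q1 * ρ (ρ t) + algebraMap k L q0 at h62
    have h7 : t + ρ t = algebraMap k L q1 := by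
      apply mul_left_cancel₀ n01
      linear_combination h60 - h61
    have h8 : t + ρ (ρ t) = algebraMap k L q1 := by
      apply mul_left_cancel₀ n20
      linear_combination h62 - h60
    apply n12
    linear_combination h7 - h8
  · rw [mat_act, mat_act, mat_dg3, mat_dg3]
    exact (hkey 1 _ (funext fun i => (mul_one _).symm)).symm
  · rw [mat_act, mat_act, mat_dg3, mat_dg3]
    exact (hkey (cyc ρ t) _ (funext fun i => pow_two _)).symm
  · obtain ⟨κ, hκ⟩ := exists_kap H.aniso m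
    rw [← act_eq_act_one (inV_dg3 _) m κ, cub_act H.aniso m κ hκ]
    refine mul_ne_zero (nu_ne_zero H.aniso m) ?_
    rw [cub_of_inV (inV_dg3 _)]
    simp [dg3, nrd]
  · exact (mem_UU.mp (by
      rw [act_dg3]
      exact add_mem (add_mem ((UU h).smul_mem _ h1) ((UU h).smul_mem _ h2))
        ((UU h).smul_mem _ h3))).2
  · exact (mem_UU.mp (by
      rw [act_dg3]
      exact add_mem (add_mem ((UU h).smul_mem _ h1) ((UU h).smul_mem _ h2))
        ((UU h).smul_mem _ h3))).2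
  · exact (mem_UU.mp (by
      rw [act_dg3]
      exact add_mem (add_mem ((UU h).smul_mem _ h1) ((UU h).smul_mem _ h2))
        ((UU h).smul_mem _ h3))).2
  · set v := act m 1 (dg3 1 : AlbL L a b c) with hv
    set x := act m 1 (dg3 (cyc ρ t) : AlbL L a b c) with hx
    set y := act m 1 (dg3 (fun i => cyc ρ t i ^ 2) : AlbL L a b c) with hy
    set W := Submodule.span L ({v, x, y} : Set (AlbL L a b c)) with hW
    have ev : v = (1 : L) • act m 1 (e1 : AlbL L a b c) + (1 : L) • act m 1 (e2 : AlbL L a b c) +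
        (1 : L) • act m 1 (e3 : AlbL L a b c) := act_dg3 m 1
    have ex : x = t • act m 1 (e1 : AlbL L a b c) + ρ t • act m 1 (e2 : AlbL L a b c) +
        ρ (ρ t) • act m 1 (e3 : AlbL L a b c) := act_dg3 m _
    have ey : y = t ^ 2 • act m 1 (e1 : AlbL L a b c) + ρ t ^ 2 • act m 1 (e2 : AlbL L a b c) +
        ρ (ρ t) ^ 2 • act m 1 (e3 : AlbL L a b c) := act_dg3 m _
    have mv : v ∈ W := Submodule.subset_span (by simp)
    have mx : x ∈ W := Submodule.subset_span (by simp)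
    have my : y ∈ W := Submodule.subset_span (by simp)
    have m1 : act m 1 (e1 : AlbL L a b c) ∈ W := by
      refine (W.smul_mem_iff (mul_ne_zero n01 n20)).mp ?_
      have e : ((t - ρ t) * (ρ (ρ t) - t)) • act m 1 (e1 : AlbL L a b c) =
          -(y - (ρ t + ρ (ρ t)) • x + (ρ t * ρ (ρ t)) • v) := by
        rw [ev, ex, ey]
        module
      rw [e]
      exact neg_mem (add_mem (sub_mem my (W.smul_mem _ mx)) (W.smul_mem _ mv))
    have m2 : act m 1 (e2 : AlbL L a b c) ∈ W := by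
      refine (W.smul_mem_iff (mul_ne_zero n01 n12)).mp ?_
      have e : ((t - ρ t) * (ρ t - ρ (ρ t))) • act m 1 (e2 : AlbL L a b c) =
          -(y - (t + ρ (ρ t)) • x + (t * ρ (ρ t)) • v) := by
        rw [ev, ex, ey]
        module
      rw [e]
      exact neg_mem (add_mem (sub_mem my (W.smul_mem _ mx)) (W.smul_mem _ mv))
    have m3 : act m 1 (e3 : AlbL L a b c) ∈ W := by
      refine (W.smul_mem_iff (mul_ne_zero n12 n20)).mp ?_
      have e : ((ρ t - ρ (ρ t)) * (ρ (ρ t) - t)) • act m 1 (e3 : AlbL L a b c) =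
          -(y - (t + ρ t) • x + (t * ρ t) • v) := by
        rw [ev, ex, ey]
        module
      rw [e]
      exact neg_mem (add_mem (sub_mem my (W.smul_mem _ mx)) (W.smul_mem _ mv))
    have key : ∀ s : Fin 3 → L, ph ρ lam (act m 1 (dg3 s : AlbL L a b c)) ∈ W := by
      intro s
      rw [ph_act_one hm, ph_dg3, act_dg3]
      exact add_mem (add_mem (W.smul_mem _ m1) (W.smul_mem _ m2)) (W.smul_mem _ m3)
    intro s hs
    obtain ⟨α, β, γ, rfl⟩ := Submodule.mem_span_triple.mp hs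
    rw [ph_add, ph_add, ph_smul, ph_smul, ph_smul]
    exact add_mem (add_mem (W.smul_mem _ (key _)) (W.smul_mem _ (key _))) (W.smul_mem _ (key _))

theorem exists_of_rank_one (H : Hyp ρ lam a b c) {S : AlbL L a b c} (hS : InVs S) (h0 : S ≠ 0)
    (ha : adj S = 0) : ∃ (m : (MQ L a b)ˣ) (μ : L), InD ρ lam (m : MQ L a b) ∧ μ ≠ 0 ∧
      S = μ • act m 1 (e1 : AlbL L a b c) := by
  obtain ⟨μ, y, hμ, hy, hm⟩ := exists_rank_one H.aniso hS h0 ha
  obtain ⟨m, hmD, hm0⟩ := exists_unit_bb H hy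
  refine ⟨m, μ, hmD, hμ, ?_⟩
  refine inV_ext hS (inV_smul μ (inV_act ⟨rfl, rfl, rfl⟩ m 1)) ?_
  rw [H64.mat_smul]
  apply Matrix.ext
  intro i j
  rw [Matrix.smul_apply, mat_act_e1, hm, hm0, hm0]

/-- An isotropic element gives a frame. -/
theorem frm_of_iso (H : Hyp ρ lam a b c) {h : AlbL L a b c ≃ₗ[L] AlbL L a b c}
    (hh : h ∈ GI ρ lam a b c) {S : AlbL L a b c} (hS : S ∈ UU h) (h0 : S ≠ 0)
    (hc : cub S = 0) : Frm ρ lam h := by
  have hW : ∀ x ∈ UU h, ph ρ lam x ∈ UU h := fun x hx => UU_ph hh hx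
  by_cases ha : adj S = 0
  · obtain ⟨m, μ, hm, hμ, rfl⟩ := exists_of_rank_one H (mem_UU.mp hS).1 h0 ha
    obtain ⟨h1, h2, h3⟩ := all_mem hW hm (Or.inl (((UU h).smul_mem_iff hμ).mp hS))
    exact frm_of_unit H hm h1 h2 h3
  · have haa : adj (adj S) = 0 := by rw [adj_adj, hc, zero_smul]
    obtain ⟨m, μ, hm, hμ, hX⟩ := exists_of_rank_one (Hyp.lami H) (inV_adj (mem_UU.mp hS).1) ha haa
    obtain ⟨n, hn, hnm⟩ := inD_dual hm
    have hi : (up L lam⁻¹ : L) ≠ 0 := (up L lam⁻¹).ne_zero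
    have h0' : (up L lam : L) ≠ 0 := (up L lam).ne_zero
    have hρμ : ρ μ ≠ 0 := (map_ne_zero ρ).mpr hμ
    have h1 : adj (ph ρ lam S) = ((up L lam : L) * (ρ μ * (up L lam⁻¹ : L))) •
        act m 1 (e2 : AlbL L a b c) := by
      rw [adj_ph, hX, ph_smul, ph_act_one hm, ph_e1, H64.act_smul, smul_smul, smul_smul,
        mul_assoc]
    have h2 := UU_cross hh hS (hW _ hS)
    have h3 : cross (e1 : AlbL L a b c) e2 = e3 := by
      apply Alb.ext <;> simp [cross, e1, e2, e3, bil_eq]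
    rw [h1, hX, cross_smul_left, cross_smul_right, cross_act H.aniso ⟨rfl, rfl, rfl⟩ ⟨rfl, rfl, rfl⟩
      hnm, h3] at h2
    have h4 := ((UU h).smul_mem_iff hμ).mp h2
    have h5 := ((UU h).smul_mem_iff (mul_ne_zero h0' (mul_ne_zero hρμ hi))).mp h4
    have h6 := ((UU h).smul_mem_iff (nu_ne_zero H.aniso m)).mp h5
    obtain ⟨h7, h8, h9⟩ := all_mem hW hn (Or.inr h6)
    exact frm_of_unit H hn h7 h8 h9

end Gn

end Vale.Agent.P011.E6I
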