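import Vale.Agent.P011.E6I.Gen4

/-!
Subspaces of dimension three on which the cubic norm is anisotropic.
-/

namespace Vale.Agent.P011.E6I

open Vale.Agent.P011.MPQ hiding mat
open Vale.Agent.P011.D4 Vale.Agent.P011.D4.Oct Vale.Agent.P011.E6 Alb
open Matrix

namespace Gn

section alg

variable {F R : Type} [Field F] [Ring R] [Algebra F R]

/-- The powers of a cubic element are independent. -/
theorem indep {α : R} {P2 P1 P0 : F} (hα : α ^ 3 = P2 • α ^ 2 + P1 • α + P0 • (1 : R))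
    (hr : ∀ t : F, t ^ 3 - P2 * t ^ 2 - P1 * t - P0 ≠ 0) (h1 : ∀ t : F, α ≠ t • (1 : R))
    (hone : (1 : R) ≠ 0) {c0 c1 c2 : F}
    (h : c0 • (1 : R) + c1 • α + c2 • α ^ 2 = 0) : c0 = 0 ∧ c1 = 0 ∧ c2 = 0 := by
  -- degree one
  have key : ∀ s0 s1 : F, s0 • (1 : R) + s1 • α = 0 → s0 = 0 ∧ s1 = 0 := by
    intro s0 s1 hs
    have hs1 : s1 = 0 := by
      by_contra hs1
      apply h1 (-(s1⁻¹ * s0))
      have h2 : α = s1⁻¹ • (s0 • (1 : R) + s1 • α) - (s1⁻¹ * s0) • (1 : R) := by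
        rw [smul_add, smul_smul, smul_smul, inv_mul_cancel₀ hs1]
        module
      rw [h2, hs]
      module
    subst hs1
    rw [zero_smul, add_zero] at hs
    refine ⟨?_, rfl⟩
    by_contra hs0
    apply hone
    have h2 : (1 : R) = s0⁻¹ • (s0 • (1 : R)) := by
      rw [smul_smul, inv_mul_cancel₀ hs0, one_smul]
    rw [h2, hs, smul_zero]
  have hc2 : c2 = 0 := by
    by_contra hc2
    set r := -(c2⁻¹ * c1) with hr'
    set s := -(c2⁻¹ * c0) with hs'
    have h2 : α ^ 2 = r • α + s • (1 : R) := by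
      have h3 : α ^ 2 = c2⁻¹ • (c0 • (1 : R) + c1 • α + c2 • α ^ 2) - (c2⁻¹ * c0) • (1 : R) -
          (c2⁻¹ * c1) • α := by
        rw [smul_add, smul_add, smul_smul, smul_smul, smul_smul, inv_mul_cancel₀ hc2]
        module
      rw [h3, h, hr', hs']
      module
    have h3 : α ^ 3 = (r * r + s) • α + (r * s) • (1 : R) := by
      rw [pow_succ, h2, add_mul, smul_mul_assoc, smul_mul_assoc, one_mul, ← pow_two, h2]
      module
    rw [hα, h2] at h3
    have h4 : (P2 * s + P0 - r * s) • (1 : R) + (P2 * r + P1 - (r * r + s)) • α = 0 := by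
      linear_combination (norm := module) h3
    obtain ⟨h5, h6⟩ := key _ _ h4
    apply hr (P2 - r)
    linear_combination (-(P2 - r)) * h6 - h5
  subst hc2
  rw [zero_smul, add_zero] at h
  obtain ⟨h2, h3⟩ := key _ _ h
  exact ⟨h2, h3, rfl⟩

end alg

theorem surj_of_inj {F U : Type} [Field F] [AddCommGroup U] [Module F U] [Module.Finite F U]
    (f : U → U) (hadd : ∀ y z, f (y + z) = f y + f z) (hsmul : ∀ (t : F) y, f (t • y) = t • f y)
    (hinj : Function.Injective f) : Function.Surjective f :=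
  LinearMap.injective_iff_surjective (f := (IsLinearMap.mk' f ⟨hadd, hsmul⟩ : U →ₗ[F] U)).mp hinj

section T

variable {F : Type} [Field F] [NeZero (2 : F)] {a b c : Fˣ}

/-- The quotient `x v⁻¹`. -/
def Tm (v : Alb a b c) : Alb a b c →ₗ[F] Matrix (Fin 3) (Fin 3) (Qt a b) where
  toFun x := (cub v)⁻¹ • (mat x * mat (adj v))
  map_add' x y := by rw [H64.mat_add, Matrix.add_mul, smul_add]
  map_smul' t x := by rw [H64.mat_smul, Matrix.smul_mul, smul_comm, RingHom.id_apply]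

omit [NeZero (2 : F)] in
theorem Tm_apply (v x : Alb a b c) : Tm v x = (cub v)⁻¹ • (mat x * mat (adj v)) := rfl

omit [NeZero (2 : F)] in
theorem Tm_mul {v : Alb a b c} (hv : InVs v) (h0 : cub v ≠ 0) (x : Alb a b c) :
    Tm v x * mat v = mat x := by
  rw [Tm_apply, Matrix.smul_mul, Matrix.mul_assoc, mat_adj_mul hv, Matrix.mul_smul,
    Matrix.mul_one, smul_smul, inv_mul_cancel₀ h0, one_smul]

omit [NeZero (2 : F)] in
theorem Tm_self {v : Alb a b c} (hv : InVs v) (h0 : cub v ≠ 0) : Tm v v = 1 := by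
  rw [Tm_apply, mat_mul_adj hv, smul_smul, inv_mul_cancel₀ h0, one_smul]

omit [NeZero (2 : F)] in
theorem Tm_inj {v : Alb a b c} (hv : InVs v) (h0 : cub v ≠ 0) {x y : Alb a b c} (hx : InVs x)
    (hy : InVs y) (h : Tm v x = Tm v y) : x = y := by
  refine inV_ext hx hy ?_
  rw [← Tm_mul hv h0 x, h, Tm_mul hv h0]

theorem Tm_sq {v : Alb a b c} (hv : InVs v) {x : Alb a b c} (hx : InVs x)
    (hx0 : cub x ≠ 0) : Tm v x ^ 2 =
      Tm v ((cub v)⁻¹ • (tf x (adj v) • x - cross (adj x) (adj v))) := by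
  rw [pow_two, map_smul, Tm_apply, Tm_apply, ← mat_mul_mul hx (inV_adj hv) hx0]
  simp only [Matrix.smul_mul, Matrix.mul_smul, Matrix.mul_assoc]

theorem Tm_cube {v : Alb a b c} (hv : InVs v) (h0 : cub v ≠ 0) {x : Alb a b c} (hx : InVs x)
    (hx0 : cub x ≠ 0) : Tm v x ^ 3 = ((cub v)⁻¹ * tf x (adj v)) • Tm v x ^ 2 +
      (-((cub v)⁻¹ * tf v (adj x))) • Tm v x + ((cub v)⁻¹ * cub x) •
        (1 : Matrix (Fin 3) (Fin 3) (Qt a b)) := by
  have h1 : mat (cross (adj x) (adj v)) = tf v (adj x) • mat v - mat v * mat (adj x) * mat v := by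
    have h2 := mat_mul_mul hv (inV_adj hx) h0
    rw [sub_eq_add_neg, H64.mat_add, H64.mat_smul, ← neg_one_smul F (cross (adj v) (adj x)),
      H64.mat_smul, cross_comm] at h2
    rw [h2]
    module
  have h3 : Tm v (cross (adj x) (adj v)) = tf v (adj x) • 1 - mat v * mat (adj x) := by
    rw [Tm_apply, h1, Matrix.sub_mul, Matrix.smul_mul, mat_mul_adj hv, Matrix.mul_assoc,
      mat_mul_adj hv, Matrix.mul_smul, Matrix.mul_one, smul_sub, smul_smul, smul_smul, smul_smul]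
    rw [inv_mul_cancel₀ h0, one_smul]
    congr 2
    field_simp
  have h4 : Tm v x * Tm v (cross (adj x) (adj v)) = tf v (adj x) • Tm v x - cub x • 1 := by
    rw [h3, Matrix.mul_sub, Matrix.mul_smul, Matrix.mul_one, ← Matrix.mul_assoc, Tm_mul hv h0,
      mat_mul_adj hx]
  calc Tm v x ^ 3 = Tm v x * Tm v x ^ 2 := pow_succ' _ _
    _ = Tm v x * Tm v ((cub v)⁻¹ • (tf x (adj v) • x - cross (adj x) (adj v))) := by
        rw [Tm_sq hv hx hx0]
    _ = (cub v)⁻¹ • (tf x (adj v) • Tm v x ^ 2 - (tf v (adj x) • Tm v x - cub x • 1)) := by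
        rw [map_smul, map_sub, map_smul, Matrix.mul_smul, Matrix.mul_sub, h4, Matrix.mul_smul,
          pow_two]
    _ = _ := by module

/-- The data of the case of dimension three. -/
structure Dat (U : Submodule F (Alb a b c)) (v : Alb a b c) : Prop where
  /-- the subspace consists of hermitian matrices over the quaternions -/
  inV : ∀ x ∈ U, InVs x
  /-- closure -/
  cr : ∀ x ∈ U, ∀ y ∈ U, cross (adj x) (adj y) ∈ U
  /-- anisotropic -/
  an : ∀ x ∈ U, cub x = 0 → x = 0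
  /-- base point -/
  mem : v ∈ U
  /-- base point -/
  ne : cub v ≠ 0
  /-- dimension -/
  dim : Module.finrank F U = 3

variable {U : Submodule F (Alb a b c)} {v : Alb a b c} (D : Dat U v)

include D

/-- The set of quotients. -/
theorem Dat.sq {x : Alb a b c} (hx : x ∈ U) : ∃ y ∈ U, Tm v y = Tm v x ^ 2 := by
  by_cases h0 : x = 0
  · refine ⟨0, U.zero_mem, ?_⟩
    rw [h0, map_zero, zero_pow two_ne_zero]
  · have hx0 : cub x ≠ 0 := fun h => h0 (D.an x hx h)
    refine ⟨(cub v)⁻¹ • (tf x (adj v) • x - cross (adj x) (adj v)),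
      U.smul_mem _ (U.sub_mem (U.smul_mem _ hx) (D.cr x hx v D.mem)), ?_⟩
    exact (Tm_sq (D.inV _ D.mem) (D.inV _ hx) hx0).symm

/-- The cubic relation, without roots. -/
theorem Dat.cube {x : Alb a b c} (hx : x ∈ U) (h1 : ∀ t : F, Tm v x ≠ t • 1) :
    ∃ P2 P1 P0 : F, Tm v x ^ 3 = P2 • Tm v x ^ 2 + P1 • Tm v x + P0 • 1 ∧
      ∀ c0 c1 c2 : F, c0 • (1 : Matrix (Fin 3) (Fin 3) (Qt a b)) + c1 • Tm v x +
        c2 • Tm v x ^ 2 = 0 → c0 = 0 ∧ c1 = 0 ∧ c2 = 0 := by
  have hv := D.inV _ D.mem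
  have hx0 : cub x ≠ 0 := by
    intro h
    apply h1 0
    rw [D.an x hx h, map_zero, zero_smul]
  refine ⟨_, _, _, Tm_cube hv D.ne (D.inV _ hx) hx0, ?_⟩
  intro c0 c1 c2 h
  refine indep (Tm_cube hv D.ne (D.inV _ hx) hx0) ?_ h1 one_ne_zero h
  intro t ht
  have h2 : cub (t • v - x) = 0 := by
    rw [sub_eq_add_neg, cub_add, cub_smul, adj_smul, cub_neg, adj_neg, tf_smul_left,
      tf_neg_right, tf_smul_left]
    rw [tf_comm x] at ht
    have h3 := D.ne
    field_simp at ht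
    linear_combination ht
  have h3 := D.an _ (U.sub_mem (U.smul_mem t D.mem) hx) h2
  apply h1 t
  rw [← sub_eq_zero.mp h3, map_smul, Tm_self hv D.ne]

/-- The quotients are polynomials in any one of them. -/
theorem Dat.span {x y : Alb a b c} (hx : x ∈ U) (h1 : ∀ t : F, Tm v x ≠ t • 1)
    (hy : y ∈ U) : ∃ c0 c1 c2 : F, Tm v y = c0 • (1 : Matrix (Fin 3) (Fin 3) (Qt a b)) +
      c1 • Tm v x + c2 • Tm v x ^ 2 := by
  have hv := D.inV _ D.mem
  obtain ⟨P2, P1, P0, -, hind⟩ := D.cube hx h1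
  obtain ⟨w, hw, hw2⟩ := D.sq hx
  have hfin : Module.Finite F U := Module.finite_of_finrank_pos (by rw [D.dim]; norm_num)
  have hli : LinearIndependent F ![(⟨v, D.mem⟩ : U), ⟨x, hx⟩, ⟨w, hw⟩] := by
    rw [Fintype.linearIndependent_iff]
    intro g hg
    rw [Fin.sum_univ_three] at hg
    have h2 := congrArg (fun s : U => Tm v (s : Alb a b c)) hg
    have h3 : g 0 • (1 : Matrix (Fin 3) (Fin 3) (Qt a b)) + g 1 • Tm v x + g 2 • Tm v x ^ 2 = 0 := by
      rw [← hw2, ← Tm_self hv D.ne, ← map_smul, ← map_smul, ← map_smul, ← map_add, ← map_add]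
      simpa using h2
    obtain ⟨h4, h5, h6⟩ := hind _ _ _ h3
    intro i
    fin_cases i
    · exact h4
    · exact h5
    · exact h6
  have htop := hli.span_eq_top_of_card_eq_finrank' (by rw [D.dim]; rfl)
  have hmem : (⟨y, hy⟩ : U) ∈ Submodule.span F
      (Set.range ![(⟨v, D.mem⟩ : U), ⟨x, hx⟩, ⟨w, hw⟩]) := by
    rw [htop]
    exact Submodule.mem_top
  obtain ⟨g, hg⟩ := (Submodule.mem_span_range_iff_exists_fun F).mp hmem
  refine ⟨g 0, g 1, g 2, ?_⟩
  rw [Fin.sum_univ_three] at hg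
  have h2 := congrArg (fun s : U => Tm v (s : Alb a b c)) hg
  rw [← hw2, ← Tm_self hv D.ne, ← map_smul, ← map_smul, ← map_smul, ← map_add, ← map_add]
  simpa using h2.symm

/-- There is an element which is not a scalar. -/
theorem Dat.exists_ne : ∃ x ∈ U, ∀ t : F, Tm v x ≠ t • 1 := by
  have hv := D.inV _ D.mem
  by_contra hc
  push Not at hc
  have hfin : Module.Finite F U := Module.finite_of_finrank_pos (by rw [D.dim]; norm_num)
  have h2 : U ≤ Submodule.span F {v} := by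
    intro x hx
    obtain ⟨t, ht⟩ := hc x hx
    rw [← Tm_self hv D.ne, ← map_smul] at ht
    have h3 := Tm_inj hv D.ne (D.inV _ hx) (inV_smul t hv) ht
    rw [h3]
    exact Submodule.smul_mem _ _ (Submodule.mem_span_singleton_self v)
  have h3 := Submodule.finrank_mono h2
  have h4 : Module.finrank F (Submodule.span F {v}) ≤ 1 := by
    have := finrank_span_le_card (R := F) ({v} : Set (Alb a b c))
    simpa using this
  rw [D.dim] at h3
  omega

/-- The quotients form an algebra. -/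
theorem Dat.mul {x y : Alb a b c} (hx : x ∈ U) (hy : y ∈ U) : ∃ w ∈ U, Tm v w = Tm v x * Tm v y := by
  have hv := D.inV _ D.mem
  obtain ⟨e, he, h1⟩ := D.exists_ne
  obtain ⟨P2, P1, P0, hcube, -⟩ := D.cube he h1
  obtain ⟨e2, he2, hs⟩ := D.sq he
  -- multiplication by the generator
  have key : ∀ z ∈ U, ∃ w ∈ U, Tm v w = Tm v e * Tm v z := by
    intro z hz
    obtain ⟨c0, c1, c2, hc⟩ := D.span he h1 hz
    refine ⟨c0 • e + c1 • e2 + c2 • (P2 • e2 + P1 • e + P0 • v),
      U.add_mem (U.add_mem (U.smul_mem _ he) (U.smul_mem _ he2)) (U.smul_mem _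
        (U.add_mem (U.add_mem (U.smul_mem _ he2) (U.smul_mem _ he)) (U.smul_mem _ D.mem))), ?_⟩
    rw [hc, Matrix.mul_add, Matrix.mul_add, Matrix.mul_smul, Matrix.mul_smul, Matrix.mul_smul,
      Matrix.mul_one, ← pow_succ', hcube, map_add, map_add, map_smul, map_smul, map_smul, map_add,
      map_add, map_smul, map_smul, map_smul, hs, Tm_self hv D.ne, pow_two]
  obtain ⟨c0, c1, c2, hc⟩ := D.span he h1 hx
  obtain ⟨w1, hw1, hw1'⟩ := key y hy
  obtain ⟨w2, hw2, hw2'⟩ := key w1 hw1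
  refine ⟨c0 • y + c1 • w1 + c2 • w2, U.add_mem (U.add_mem (U.smul_mem _ hy) (U.smul_mem _ hw1))
    (U.smul_mem _ hw2), ?_⟩
  rw [hc, Matrix.add_mul, Matrix.add_mul, Matrix.smul_mul, Matrix.smul_mul, Matrix.smul_mul,
    Matrix.one_mul, map_add, map_add, map_smul, map_smul, map_smul, hw2', hw1', pow_two,
    Matrix.mul_assoc]

omit D in
omit [NeZero (2 : F)] in
theorem Tm_cancel {v g : Alb a b c} (hv : InVs v) (h0 : cub v ≠ 0) (hg : InVs g) (hg0 : cub g ≠ 0)
    {α β : Matrix (Fin 3) (Fin 3) (Qt a b)} (h : α * Tm v g = β * Tm v g) : α = β := by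
  have h4 : α * Tm v g * mat v * mat (adj g) = β * Tm v g * mat v * mat (adj g) := by rw [h]
  rw [Matrix.mul_assoc α, Matrix.mul_assoc β, Tm_mul hv h0, Matrix.mul_assoc,
    Matrix.mul_assoc, mat_mul_adj hg, Matrix.mul_smul, Matrix.mul_smul,
    Matrix.mul_one, Matrix.mul_one] at h4
  exact smul_right_injective _ hg0 h4

/-- The quotients form a field. -/
theorem Dat.div {g : Alb a b c} (hg : g ∈ U) (hg0 : cub g ≠ 0) {w : Alb a b c} (hw : w ∈ U) :
    ∃ y ∈ U, Tm v y * Tm v g = Tm v w := by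
  have hv := D.inV _ D.mem
  have hfin : Module.Finite F U := Module.finite_of_finrank_pos (by rw [D.dim]; norm_num)
  have h1 : ∀ y : U, ∃ z : U, Tm v (z : Alb a b c) = Tm v (y : Alb a b c) * Tm v g := by
    intro y
    obtain ⟨z, hz, hz'⟩ := D.mul y.2 hg
    exact ⟨⟨z, hz⟩, hz'⟩
  choose f hf using h1
  have hadd : ∀ y z : U, f (y + z) = f y + f z := by
    intro y z
    apply Subtype.ext
    apply Tm_inj hv D.ne (D.inV _ (f (y + z)).2) (D.inV _ (f y + f z).2)
    rw [hf, Submodule.coe_add, map_add, Submodule.coe_add, map_add, hf, hf, Matrix.add_mul]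
  have hsmul : ∀ (t : F) (y : U), f (t • y) = t • f y := by
    intro t y
    apply Subtype.ext
    apply Tm_inj hv D.ne (D.inV _ (f (t • y)).2) (D.inV _ (t • f y).2)
    rw [hf, Submodule.coe_smul, map_smul, Submodule.coe_smul, map_smul, hf, Matrix.smul_mul]
  have hinj : Function.Injective f := by
    intro y z hyz
    have h2 : Tm v (y : Alb a b c) * Tm v g = Tm v (z : Alb a b c) * Tm v g := by
      rw [← hf, ← hf, hyz]
    exact Subtype.ext (Tm_inj hv D.ne (D.inV _ y.2) (D.inV _ z.2)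
      (Tm_cancel hv D.ne (D.inV _ hg) hg0 h2))
  have hsur := surj_of_inj f hadd hsmul hinj
  obtain ⟨y, hy⟩ := hsur ⟨w, hw⟩
  refine ⟨y, y.2, ?_⟩
  rw [← hf, hy]

end T

end Gn

end Vale.Agent.P011.E6I
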