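import Vale.Agent.P011.E6I.Gen5
import Vale.Agent.P011.E6I.H493.Dim

/-!
Frames in the anisotropic case.
-/

namespace Vale.Agent.P011.E6I

open Vale.Agent.P011.MPQ hiding mat
open Vale.Agent.P011.D4 Vale.Agent.P011.D4.Oct Vale.Agent.P011.E6 Alb
open Matrix

namespace Gn

variable {k L : Type} [Field k] [NumberField k] [Field L] [NumberField L] [Algebra k L]
  {ρ : L ≃ₐ[k] L} {lam : kˣ} {a b c : kˣ}

/-- The semilinear automorphism with fixed algebra `D ⊗ Q`. -/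
def psi (ρ : L ≃ₐ[k] L) (lam : kˣ) {a b : kˣ} (m : MQ L a b) : MQ L a b :=
  toMQ (u0 L lam) * m.map (qmap ρ) * toMQ (w0 L lam)

omit [NumberField k] [NumberField L] in
theorem psi_mul (m n : MQ L a b) : psi ρ lam (m * n) = psi ρ lam m * psi ρ lam n := by
  rw [psi, psi, psi, H64.map_mul_qmap]
  calc _ = toMQ (u0 L lam) * m.map (qmap ρ) * (toMQ (w0 L lam) * toMQ (u0 L lam)) *
        n.map (qmap ρ) * toMQ (w0 L lam) := by
        rw [wq_mul_uq, Matrix.mul_one]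
        simp only [Matrix.mul_assoc]
    _ = _ := by simp only [Matrix.mul_assoc]

omit [NumberField k] [NumberField L] in
theorem psi_add (m n : MQ L a b) : psi ρ lam (m + n) = psi ρ lam m + psi ρ lam n := by
  have h : (m + n).map (qmap ρ) = m.map (qmap ρ) + n.map (qmap ρ) := by
    apply Matrix.ext
    intro i j
    exact qmap_add ρ _ _
  rw [psi, psi, psi, h, Matrix.mul_add, Matrix.add_mul]

omit [NumberField k] [NumberField L] in
theorem psi_smul (t : L) (m : MQ L a b) : psi ρ lam (t • m) = ρ t • psi ρ lam m := by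
  have h : (t • m).map (qmap ρ) = ρ t • m.map (qmap ρ) := by
    apply Matrix.ext
    intro i j
    exact qmap_smul ρ _ _
  rw [psi, psi, h, Matrix.mul_smul, Matrix.smul_mul]

omit [NumberField k] [NumberField L] in
theorem psi_one : psi ρ lam (1 : MQ L a b) = 1 := by
  have h : (1 : MQ L a b).map (qmap ρ) = 1 := by
    apply Matrix.ext
    intro i j
    rw [Matrix.map_apply, Matrix.one_apply]
    split_ifs
    · exact qmap_one ρ
    · exact qmap_zero ρ
  rw [psi, h, Matrix.mul_one, uq_mul_wq]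

omit [NumberField k] [NumberField L] in
theorem inD_iff {m : MQ L a b} : InD ρ lam m ↔ psi ρ lam m = m := by
  rw [psi, InD]
  constructor
  · intro h
    rw [← h, Matrix.mul_assoc, uq_mul_wq, Matrix.mul_one]
  · intro h
    conv_lhs => rw [← h]
    rw [Matrix.mul_assoc, wq_mul_uq, Matrix.mul_one]

omit [NumberField k] [NumberField L] in
theorem mul_w_apply (S : MQ L a b) (i j : Fin 3) :
    (S * (toMQ (w0 L lam) : MQ L a b)) i j =
      (![(up L lam : L) • S i 2, S i 0, S i 1] : Fin 3 → Qt (up L a) (up L b)) j := by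
  have h0 : (((0 : L) : Qt (up L a) (up L b))) = 0 := rfl
  have h1 : (((1 : L) : Qt (up L a) (up L b))) = 1 := rfl
  rw [Matrix.mul_apply, Fin.sum_univ_three]
  simp only [toMQ_apply]
  fin_cases j
  · change S i 0 * ((0 : L) : Qt (up L a) (up L b)) + S i 1 * ((0 : L) : Qt (up L a) (up L b)) +
      S i 2 * ((up L lam : L) : Qt (up L a) (up L b)) = (up L lam : L) • S i 2
    rw [h0, mul_zero, mul_zero, zero_add, zero_add, ← QuaternionAlgebra.coe_commutes,
      QuaternionAlgebra.coe_mul_eq_smul]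
  · change S i 0 * ((1 : L) : Qt (up L a) (up L b)) + S i 1 * ((0 : L) : Qt (up L a) (up L b)) +
      S i 2 * ((0 : L) : Qt (up L a) (up L b)) = S i 0
    rw [h0, h1, mul_zero, mul_zero, mul_one, add_zero, add_zero]
  · change S i 0 * ((0 : L) : Qt (up L a) (up L b)) + S i 1 * ((1 : L) : Qt (up L a) (up L b)) +
      S i 2 * ((0 : L) : Qt (up L a) (up L b)) = S i 1
    rw [h0, h1, mul_zero, mul_zero, mul_one, add_zero, zero_add]

omit [NumberField k] [NumberField L] in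
theorem psi_apply (m : MQ L a b) (i j : Fin 3) : psi ρ lam m i j =
    (![(up L lam : L) • (![(((up L lam)⁻¹ : Lˣ) : L) • qmap ρ (m 2 2), qmap ρ (m 0 2),
        qmap ρ (m 1 2)] : Fin 3 → Qt (up L a) (up L b)) i,
      (![(((up L lam)⁻¹ : Lˣ) : L) • qmap ρ (m 2 0), qmap ρ (m 0 0),
        qmap ρ (m 1 0)] : Fin 3 → Qt (up L a) (up L b)) i,
      (![(((up L lam)⁻¹ : Lˣ) : L) • qmap ρ (m 2 1), qmap ρ (m 0 1),
        qmap ρ (m 1 1)] : Fin 3 → Qt (up L a) (up L b)) i] :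
          Fin 3 → Qt (up L a) (up L b)) j := by
  rw [psi, mul_w_apply, uq_mul_apply, uq_mul_apply, uq_mul_apply]
  rfl

theorem psi_cube (H : Hyp ρ lam a b c) (m : MQ L a b) :
    psi ρ lam (psi ρ lam (psi ρ lam m)) = m := by
  have h : ∀ q : Qt (up L a) (up L b), qmap ρ (qmap ρ (qmap ρ q)) = q := fun q =>
    QuaternionAlgebra.ext (H.rho3 _) (H.rho3 _) (H.rho3 _) (H.rho3 _)
  have h0 : (up L lam : L) * (((up L lam)⁻¹ : Lˣ) : L) = 1 := Units.mul_inv _
  have h0' : (((up L lam)⁻¹ : Lˣ) : L) * (up L lam : L) = 1 := Units.inv_mul _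
  apply Matrix.ext
  intro i j
  rw [psi_apply]
  simp only [psi_apply]
  fin_cases i <;> fin_cases j <;> simp only [Fin.zero_eta, Fin.mk_one, Fin.reduceFinMk,
    Fin.isValue, Matrix.cons_val_zero, Matrix.cons_val_one, Matrix.cons_val,
    qmap_smul, h, rho_lami, rho_lam, smul_smul, h0, h0', one_smul, mul_one, one_mul]

omit [NumberField k] [NumberField L] in
theorem psi_ph {α : MQ L a b} {x v : AlbL L a b c} (h : α * mat v = mat x) :
    psi ρ lam α * mat (ph ρ lam v) = mat (ph ρ lam x) := by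
  rw [mat_ph, mat_ph, ← h, H64.map_mul_qmap, psi, Matrix.mul_smul]
  congr 1
  calc _ = toMQ (u0 L lam) * α.map (qmap ρ) * (toMQ (w0 L lam) * toMQ (u0 L lam)) *
        (mat v).map (qmap ρ) * (toMQ (u0 L lam) : MQ L a b)ᴴ := by
        simp only [Matrix.mul_assoc]
    _ = _ := by
        rw [wq_mul_uq, Matrix.mul_one]
        simp only [Matrix.mul_assoc]

theorem dat_UU {h : AlbL L a b c ≃ₗ[L] AlbL L a b c}
    (hh : h ∈ GI ρ lam a b c) (h3 : Module.finrank L (UU h) = 3)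
    (han : ∀ x ∈ UU h, cub x = 0 → x = 0) : ∃ v, Dat (UU h) v := by
  have hfin : Module.Finite L (UU h) := Module.finite_of_finrank_pos (by rw [h3]; norm_num)
  have hne : UU h ≠ ⊥ := by
    intro hb
    rw [hb, finrank_bot] at h3
    norm_num at h3
  obtain ⟨v, hv, hv0⟩ := (UU h).exists_mem_ne_zero_of_ne_bot hne
  exact ⟨v, fun x hx => (mem_UU.mp hx).1, fun x hx y hy => UU_cross hh hx hy, han, hv,
    fun h0 => hv0 (han v hv h0), h3⟩

theorem cub_ph_ne (H : Hyp ρ lam a b c) {h : AlbL L a b c ≃ₗ[L] AlbL L a b c}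
    (hh : h ∈ GI ρ lam a b c) {v : AlbL L a b c} (D : Dat (UU h) v) :
    cub (ph ρ lam v) ≠ 0 := by
  intro h0
  have h1 := D.an _ (UU_ph hh D.mem) h0
  have h2 := ph3 (ρ := ρ) (lam := lam) H.rho3 v
  have h3 : ph ρ lam (0 : AlbL L a b c) = 0 := by
    have h4 := Gn.ph_smul (ρ := ρ) (lam := lam) 0 (0 : AlbL L a b c)
    rw [map_zero, zero_smul, zero_smul] at h4
    exact h4
  rw [h1, h3, h3] at h2
  have h5 : algebraMap k L lam ≠ 0 := (up L lam).ne_zero
  have h6 := (smul_eq_zero.mp h2.symm).resolve_left h5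
  apply D.ne
  rw [h6, cub_zero]

/-- The algebra of the quotients is stable. -/
theorem psi_mem (H : Hyp ρ lam a b c) {h : AlbL L a b c ≃ₗ[L] AlbL L a b c}
    (hh : h ∈ GI ρ lam a b c) {v : AlbL L a b c} (D : Dat (UU h) v) {x : AlbL L a b c}
    (hx : x ∈ UU h) : ∃ y ∈ UU h, Tm v y = psi ρ lam (Tm v x) := by
  have hv := D.inV _ D.mem
  have hg : ph ρ lam v ∈ UU h := UU_ph hh D.mem
  have hg0 := cub_ph_ne H hh D
  obtain ⟨y, hy, hy'⟩ := D.div hg hg0 (UU_ph hh hx)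
  refine ⟨y, hy, Tm_cancel hv D.ne (D.inV _ hg) hg0 ?_⟩
  rw [hy']
  have h1 := psi_ph (ρ := ρ) (lam := lam) (Tm_mul hv D.ne x)
  rw [Tm_apply v (ph ρ lam x), ← h1, Tm_apply v (ph ρ lam v), Matrix.mul_smul,
    Matrix.mul_assoc]

/-- The algebra of the quotients contains an element of `D ⊗ Q` which is not a scalar. -/
theorem exists_inD (H : Hyp ρ lam a b c) {h : AlbL L a b c ≃ₗ[L] AlbL L a b c}
    (hh : h ∈ GI ρ lam a b c) {v : AlbL L a b c} (D : Dat (UU h) v) :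
    ∃ x ∈ UU h, (∀ t : L, Tm v x ≠ t • 1) ∧ InD ρ lam (Tm v x) := by
  have hv := D.inV _ D.mem
  obtain ⟨e, he, h1⟩ := D.exists_ne
  obtain ⟨e', he', hψ⟩ := psi_mem H hh D he
  obtain ⟨e'', he'', hψ'⟩ := psi_mem H hh D he'
  rw [hψ] at hψ'
  obtain ⟨t, ht⟩ := exists_ne H
  have hr3 := H.rho3 t
  have n01 : t - ρ t ≠ 0 := sub_ne_zero.mpr (Ne.symm ht)
  have n12 : ρ t - ρ (ρ t) ≠ 0 := by
    rw [← map_sub]
    exact (map_ne_zero ρ).mpr n01
  have n20 : ρ (ρ t) - t ≠ 0 := by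
    have h4 := (map_ne_zero ρ).mpr n12
    rwa [map_sub, hr3] at h4
  -- the traces
  have hT : ∀ w : L, InD ρ lam (Tm v (w • e + ρ w • e' + ρ (ρ w) • e'')) := by
    intro w
    rw [inD_iff, map_add, map_add, map_smul, map_smul, map_smul, hψ', hψ, psi_add, psi_add,
      psi_smul, psi_smul, psi_smul, psi_cube H, H.rho3]
    abel
  have hU : ∀ w : L, w • e + ρ w • e' + ρ (ρ w) • e'' ∈ UU h := fun w =>
    add_mem (add_mem ((UU h).smul_mem _ he) ((UU h).smul_mem _ he')) ((UU h).smul_mem _ he'')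
  by_contra hc
  push Not at hc
  have hs : ∀ w : L, ∃ s : L, Tm v (w • e + ρ w • e' + ρ (ρ w) • e'') = s • 1 := by
    intro w
    by_contra hc'
    push Not at hc'
    exact hc _ (hU w) hc' (hT w)
  obtain ⟨s0, hs0⟩ := hs 1
  obtain ⟨s1, hs1⟩ := hs t
  obtain ⟨s2, hs2⟩ := hs (t ^ 2)
  apply h1 (-(((t - ρ t) * (ρ (ρ t) - t))⁻¹ * (s2 - (ρ t + ρ (ρ t)) * s1 +
    (ρ t * ρ (ρ t)) * s0)))
  have hne : (t - ρ t) * (ρ (ρ t) - t) ≠ 0 := mul_ne_zero n01 n20
  have h2 : ((t - ρ t) * (ρ (ρ t) - t)) • Tm v e =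
      -((s2 - (ρ t + ρ (ρ t)) * s1 + (ρ t * ρ (ρ t)) * s0) • (1 : MQ L a b)) := by
    have e1 : (s2 - (ρ t + ρ (ρ t)) * s1 + (ρ t * ρ (ρ t)) * s0) • (1 : MQ L a b) =
        s2 • 1 - (ρ t + ρ (ρ t)) • s1 • 1 + (ρ t * ρ (ρ t)) • s0 • 1 := by module
    rw [e1, ← hs0, ← hs1, ← hs2]
    simp only [map_add, map_smul, map_one, map_pow]
    module
  have h3 : Tm v e = ((t - ρ t) * (ρ (ρ t) - t))⁻¹ • ((t - ρ t) * (ρ (ρ t) - t)) • Tm v e := by
    rw [smul_smul, inv_mul_cancel₀ hne, one_smul]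
  rw [h3, h2]
  module

/-- The case of dimension three. -/
theorem frm_of_aniso (H : Hyp ρ lam a b c) {h : AlbL L a b c ≃ₗ[L] AlbL L a b c}
    (hh : h ∈ GI ρ lam a b c) (h3 : Module.finrank L (UU h) = 3)
    (han : ∀ x ∈ UU h, cub x = 0 → x = 0) : Frm ρ lam h := by
  obtain ⟨v, D⟩ := dat_UU hh h3 han
  have hv := D.inV _ D.mem
  obtain ⟨x, hx, hx1, hxD⟩ := exists_inD H hh D
  obtain ⟨P2, P1, P0, hcube, hind⟩ := D.cube hx hx1
  obtain ⟨y, hy, hy2⟩ := D.sq hx
  -- the coefficients are in the ground field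
  have hψ := inD_iff.mp hxD
  have hψ2 : psi ρ lam (Tm v x ^ 2) = Tm v x ^ 2 := by rw [pow_two, psi_mul, hψ]
  have hψ3 : psi ρ lam (Tm v x ^ 3) = Tm v x ^ 3 := by rw [pow_succ, psi_mul, hψ2, hψ]
  have hcube' : Tm v x ^ 3 = ρ P2 • Tm v x ^ 2 + ρ P1 • Tm v x + ρ P0 • 1 := by
    have h4 := congrArg (psi ρ lam) hcube
    rwa [hψ3, psi_add, psi_add, psi_smul, psi_smul, psi_smul, hψ2, hψ, psi_one] at h4
  obtain ⟨e0, e1, e2⟩ := hind (ρ P0 - P0) (ρ P1 - P1) (ρ P2 - P2) (by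
    linear_combination (norm := module) hcube - hcube')
  obtain ⟨p2, hp2⟩ := H.fix (sub_eq_zero.mp e2)
  obtain ⟨p1, hp1⟩ := H.fix (sub_eq_zero.mp e1)
  obtain ⟨p0, hp0⟩ := H.fix (sub_eq_zero.mp e0)
  have hle : Submodule.span L ({v, x, y} : Set (AlbL L a b c)) ≤ UU h := by
    rw [Submodule.span_le]
    rintro s (rfl | rfl | rfl)
    · exact D.mem
    · exact hx
    · exact hy
  refine ⟨Tm v x, p2, p1, p0, v, x, y, hxD, by rw [hp2, hp1, hp0]; exact hcube, ?_, D.inV _ D.mem,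
    D.inV _ hx, D.inV _ hy, (Tm_mul hv D.ne x).symm, ?_, D.ne, (mem_UU.mp D.mem).2,
    (mem_UU.mp hx).2, (mem_UU.mp hy).2, ?_⟩
  · intro q1 q0 hq
    obtain ⟨-, -, h5⟩ := hind (-algebraMap k L q0) (-algebraMap k L q1) 1 (by
      linear_combination (norm := module) hq)
    exact one_ne_zero h5
  · rw [← Tm_mul hv D.ne y, hy2, pow_two, Matrix.mul_assoc, Tm_mul hv D.ne x]
  · intro s hs
    have h4 := UU_ph hh (hle hs)
    obtain ⟨c0, c1, c2, hc⟩ := D.span hx hx1 h4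
    have h5 : ph ρ lam s = c0 • v + c1 • x + c2 • y := by
      apply Tm_inj hv D.ne (D.inV _ h4) (D.inV _ (add_mem (add_mem ((UU h).smul_mem _ D.mem)
        ((UU h).smul_mem _ hx)) ((UU h).smul_mem _ hy)))
      rw [hc, map_add, map_add, map_smul, map_smul, map_smul, Tm_self hv D.ne, hy2]
    rw [h5]
    exact Submodule.mem_span_triple.mpr ⟨c0, c1, c2, rfl⟩

end Gn

/-- **The intersection of `V` and `h V` contains a frame.** -/
theorem frm {k L : Type} [Field k] [NumberField k] [Field L] [NumberField L] [Algebra k L]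
    {ρ : L ≃ₐ[k] L} {lam : kˣ} {a b c : kˣ} (H : Hyp ρ lam a b c)
    {h : AlbL L a b c ≃ₗ[L] AlbL L a b c} (hh : h ∈ GI ρ lam a b c) : Frm ρ lam h := by
  by_cases hc : ∃ S ∈ Gn.UU h, S ≠ 0 ∧ cub S = 0
  · obtain ⟨S, hS, h0, hc⟩ := hc
    exact Gn.frm_of_iso H hh hS h0 hc
  · push Not at hc
    have h1 := finrank_U H hh
    have h2 : Module.finrank L (Gn.UU h) < 6 := by
      by_contra h6
      push Not at h6
      obtain ⟨S, hS, h0, h3⟩ := exists_iso H.aniso (Gn.UU h) inf_le_left h6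
      exact hc S hS h0 h3
    have h3 : Module.finrank L (Gn.UU h) = 3 := by
      have h4 : 3 ≤ Module.finrank L (Gn.UU h) := h1.1
      have h5 : 3 ∣ Module.finrank L (Gn.UU h) := h1.2
      omega
    refine Gn.frm_of_aniso H hh h3 fun x hx h0 => ?_
    by_contra hne
    exact hc x hx hne h0

end Vale.Agent.P011.E6I
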