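import Vale.Agent.P011.E6I.Nor1
import Vale.Agent.P011.E6I.H69.ResB
import Vale.Agent.P011.E6I.H637.Conj
import Vale.Agent.P011.E6I.H637.Shift
import Vale.Agent.P011.E6I.FxPsi
import Vale.Agent.P011.E6I.H68.FkS
import Vale.Agent.P011.E6I.Frm

/-!
Every normal subgroup of the group `GI` is central or the whole group.
-/

open NumberField Matrix Polynomial

namespace Vale.Agent.P011.E6I.Nor

open Vale.Agent.P011.MPQ Vale.Agent.P011.D4 Vale.Agent.P011.D4.Oct Vale.Agent.P011.E6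
open Vale.Agent.P011.E6.Alb Vale.Agent.P011.E6I

variable {k L : Type} [Field k] [NumberField k] [Field L] [NumberField L] [Algebra k L]
  {ρ : L ≃ₐ[k] L} {lam : kˣ} {a b c : kˣ}

/-- The stabilizer of a frame has no proper normal subgroup. -/
theorem fix_simple (H : Hyp ρ lam a b c) (N : Subgroup (GI ρ lam a b c)) (hN : N.Normal)
    {z : Matrix (Fin 3) (Fin 3) L} (hz : InD0 ρ lam z)
    (hzk : ∀ t : L, z ≠ t • (1 : Matrix (Fin 3) (Fin 3) L)) {φ ψ : GI ρ lam a b c}
    (hφN : φ ∈ N) (hφ1 : φ ≠ 1)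
    (hφ : ∀ S : Matrix (Fin 3) (Fin 3) L, Sᵀ = S → z * S = S * zᵀ →
      φ.1 (Alb.ofF S) = Alb.ofF S)
    (hψ : ∀ S : Matrix (Fin 3) (Fin 3) L, Sᵀ = S → z * S = S * zᵀ →
      ψ.1 (Alb.ofF S) = Alb.ofF S) : ψ ∈ N := by
  obtain ⟨p0, p1, p2, P, hirr, hP, hzP⟩ := Fx.exists_P H hz hzk
  obtain ⟨g, hg⟩ := Fx.exists_Psi (fun t ht => H.fix ht) hP hz hzP φ.2 hφ
  obtain ⟨g', hg'⟩ := Fx.exists_Psi (fun t ht => H.fix ht) hP hz hzP ψ.2 hψ
  have eg : Fx.Psi hP hz hzP g = φ := Subtype.ext hg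
  have eg' : Fx.Psi hP hz hzP g' = ψ := Subtype.ext hg'
  have h1 : N.comap (Fx.Psi hP hz hzP) = ⊤ := by
    refine (fixK_simple H.hdiv hirr _ (hN.comap _)).resolve_left fun h0 => ?_
    have h2 : g ∈ N.comap (Fx.Psi hP hz hzP) := by
      rw [Subgroup.mem_comap, eg]
      exact hφN
    rw [h0, Subgroup.mem_bot] at h2
    apply hφ1
    rw [← eg, h2, map_one]
  have h2 : g' ∈ N.comap (Fx.Psi hP hz hzP) := by
    rw [h1]
    exact Subgroup.mem_top g'
  rw [Subgroup.mem_comap, eg'] at h2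
  exact h2

omit [NumberField k] in
/-- The automorphisms of the octonion algebra fix the matrices over the ground field. -/
theorem autI_ofF (f : AutC a b c) (S : Matrix (Fin 3) (Fin 3) L) :
    (autI ρ lam a b c f).1 (Alb.ofF S) = Alb.ofF S := by
  have h1 : Em.extE L f.1 (1 : OctL L a b c) = 1 := by
    rw [← oup_one, Em.extE_oup, aut_one f]
  have key : ∀ s : L, Em.extE L f.1 (s • 1 : OctL L a b c) = s • 1 := fun s => by
    rw [map_smul, h1]
  change Rl.rlin L (Rl.autR a b c f) (Alb.ofF S) = Alb.ofF S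
  rw [Rl.rlin_apply]
  apply Alb.ext
  · rfl
  · rfl
  · rfl
  · exact key _
  · exact key _
  · exact key _

/-- The involution. -/
theorem negI_fix {v : AlbL L a b c} (hv : v ∈ Vsub L a b c) :
    (autI ρ lam a b c (long a b c (negS a b))).1 v = v := by
  obtain ⟨h1, h2, h3⟩ := hv
  rw [autI_negS, act_one_neg]
  apply Alb.ext
  · rfl
  · rfl
  · rfl
  · apply Oct.ext
    · rfl
    · rw [h1]
      exact neg_zero
  · apply Oct.ext
    · rfl
    · rw [h2]
      exact neg_zero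
  · apply Oct.ext
    · rfl
    · rw [h3]
      exact neg_zero

omit [NumberField k] [NumberField L] in
/-- The space `V` is stable under the similitudes. -/
theorem act_mem_vsub {m : (MQ L a b)ˣ} {κ : Qt (up L a) (up L b)} {v : AlbL L a b c}
    (hv : v ∈ Vsub L a b c) : Alb.act m κ v ∈ Vsub L a b c := by
  obtain ⟨h1, h2, h3⟩ := hv
  have h4 : vec v = 0 := by
    funext i
    fin_cases i
    · exact h1
    · exact h2
    · exact h3
  have h5 := H64.row_vec_act m κ v
  have h6 : H64.row (vec v) = 0 := by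
    rw [h4]
    rfl
  rw [h6, Matrix.zero_mul, Matrix.mul_zero] at h5
  exact ⟨congrFun (congrFun h5 0) 0, congrFun (congrFun h5 0) 1, congrFun (congrFun h5 0) 2⟩

omit [NumberField k] in
theorem mat_sim {m : (MQ L a b)ˣ} {z : MQ L a b} {z0 : Matrix (Fin 3) (Fin 3) L}
    {κ : Qt (up L a) (up L b)} (hmz : (m : MQ L a b) * z = toMQ z0 * (m : MQ L a b))
    {v x : AlbL L a b c} (h : mat x = z * mat v) :
    mat (Alb.act m κ x) = z0.map (algebraMap L (Qt (up L a) (up L b))) *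
      mat (Alb.act m κ v) := by
  rw [mat_act, mat_act, h, ← Matrix.mul_assoc, hmz]
  simp only [Matrix.mul_assoc]
  rfl

/-- The main step. -/
theorem top_of_frm (H : Hyp ρ lam a b c) (hres : res0 ρ lam a b c = ⊤)
    (N : Subgroup (GI ρ lam a b c)) (hN : N.Normal) {g : GI ρ lam a b c} (hg : g ∈ N)
    (hf : Frm ρ lam (a := a) (b := b) (c := c) g.1)
    (hgJ : g * autI ρ lam a b c (long a b c (negS a b)) ≠
      autI ρ lam a b c (long a b c (negS a b)) * g) : N = ⊤ := by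
  set J := autI ρ lam a b c (long a b c (negS a b)) with hJ
  obtain ⟨z, p2, p1, p0, v, x, y, hz, hp, hz2, hv, hx, hy, e1, e2, hc, hv', hx', hy', -⟩ := hf
  -- the commutator
  have hn : g * J * g⁻¹ * J⁻¹ ∈ N := by
    have h1 : J * g⁻¹ * J⁻¹ ∈ N := hN.conj_mem _ (N.inv_mem hg) J
    have h2 := N.mul_mem hg h1
    simpa only [mul_assoc] using h2
  have hn1 : g * J * g⁻¹ * J⁻¹ ≠ 1 := by
    intro h
    apply hgJ
    rw [mul_inv_eq_one, mul_inv_eq_iff_eq_mul] at h
    exact h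
  have hfixn : ∀ w : AlbL L a b c, w ∈ Vsub L a b c → (g.1)⁻¹ w ∈ Vsub L a b c →
      (g * J * g⁻¹ * J⁻¹).1 w = w := by
    intro w h1 h2
    have h3 : (J⁻¹).1 w = w := by
      apply J.1.injective
      have h4 : J.1 ((J⁻¹).1 w) = w := by
        change (J * J⁻¹).1 w = w
        rw [mul_inv_cancel]
        rfl
      rw [h4]
      exact (negI_fix h1).symm
    change g.1 (J.1 ((g.1)⁻¹ ((J⁻¹).1 w))) = w
    rw [h3]
    have h4 : J.1 ((g.1)⁻¹ w) = (g.1)⁻¹ w := negI_fix h2
    rw [h4]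
    change (g * g⁻¹).1 w = w
    rw [mul_inv_cancel]
    rfl
  obtain ⟨m, z0, hm, -, hz0, hz0k, hmz⟩ := exists_conj_D H hz hp hz2 (0 : Qt a b) (by
    have h1 : sc L (0 : Qt a b) = 0 := by
      apply Matrix.ext
      intro i j
      by_cases h : i = j
      · subst h
        simp only [sc, Matrix.diagonal_apply_eq, Matrix.zero_apply]
        exact qup_zero
      · simp only [sc, Matrix.diagonal_apply_ne _ h, Matrix.zero_apply]
    rw [h1, Matrix.mul_zero, Matrix.zero_mul])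
  obtain ⟨κ, Ψ, hκ, hΨ⟩ := exists_sim H hm
  obtain ⟨z', t, -, ht0, htd, hzt⟩ := H637.exists_shift H hz0 hz0k
  have hz' : z' = z0 - t • (1 : Matrix (Fin 3) (Fin 3) L) := by rw [hzt, add_sub_cancel_right]
  rw [hz'] at ht0 htd
  have hGI : ∀ φ, φ ∈ GI ρ lam a b c ↔ conjE Ψ φ ∈ GI ρ lam a b c := fun φ =>
    sim_GI H hm hκ hΨ φ
  have hJc : conjI hGI J = J := by
    apply Subtype.ext
    apply LinearEquiv.ext
    intro x
    change Ψ (J.1 (Ψ.symm x)) = J.1 x
    have h1 : ∀ x, Ψ (J.1 x) = J.1 (Ψ x) := by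
      intro x
      rw [hJ, autI_negS, autI_negS, hΨ, hΨ, act_act, act_act, mul_one, one_mul, mul_neg_one,
        neg_one_mul]
    rw [h1, LinearEquiv.apply_symm_apply]
  -- the frame
  have hfr : ∀ S : Matrix (Fin 3) (Fin 3) L, Sᵀ = S → z0 * S = S * z0ᵀ →
      (conjI hGI (g * J * g⁻¹ * J⁻¹)).1 (Alb.ofF S) = Alb.ofF S := by
    intro S _ hS
    obtain ⟨c0, c1, c2, hspan⟩ := frame_span ht0 htd (v := Ψ v) (x := Ψ x) (y := Ψ y)
      (by rw [hΨ]; exact act_mem_vsub hv) (by rw [hΨ]; exact act_mem_vsub hx)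
      (by rw [hΨ]; exact act_mem_vsub hy) (by rw [hΨ, hΨ]; exact mat_sim hmz e1)
      (by rw [hΨ, hΨ]; exact mat_sim hmz e2)
      (by rw [hΨ, cub_act H.aniso m _ hκ]; exact mul_ne_zero (nu_ne_zero H.aniso m) hc) hS
    have h1 : ∀ w : AlbL L a b c, w ∈ Vsub L a b c → (g.1)⁻¹ w ∈ Vsub L a b c →
        (conjI hGI (g * J * g⁻¹ * J⁻¹)).1 (Ψ w) = Ψ w := by
      intro w h2 h3
      change Ψ ((g * J * g⁻¹ * J⁻¹).1 (Ψ.symm (Ψ w))) = Ψ w
      rw [LinearEquiv.symm_apply_apply, hfixn w h2 h3]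
    rw [hspan, map_add, map_add, map_smul, map_smul, map_smul, h1 v hv hv', h1 x hx hx',
      h1 y hy hy']
  have hJN : J ∈ N := by
    have h1 : conjI hGI J ∈ N.comap (conjI hGI).symm.toMonoidHom := by
      rw [hJc]
      refine fix_simple H (N.comap (conjI hGI).symm.toMonoidHom) (hN.comap _) hz0 hz0k
        (φ := conjI hGI (g * J * g⁻¹ * J⁻¹)) ?_ ?_ hfr (fun S _ _ => autI_ofF _ S)
      · change (conjI hGI).symm (conjI hGI (g * J * g⁻¹ * J⁻¹)) ∈ N
        rw [MulEquiv.symm_apply_apply]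
        exact hn
      · intro h0
        apply hn1
        apply (conjI hGI).injective
        rw [h0, map_one]
    have h2 : (conjI hGI).symm (conjI hGI J) ∈ N := h1
    rw [MulEquiv.symm_apply_apply] at h2
    exact h2
  have h1 := res0_le_of_one H.hdiv hN long_negS_ne hJN
  rw [hres] at h1
  exact top_le_iff.mp h1

/-- Every normal subgroup is central or the whole group. -/
theorem e6i_normal' (H : Hyp ρ lam a b c) (hres : res0 ρ lam a b c = ⊤)
    (hfrm : ∀ h : AlbL L a b c ≃ₗ[L] AlbL L a b c, h ∈ GI ρ lam a b c → Frm ρ lam h)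
    (N : Subgroup (GI ρ lam a b c)) (hN : N.Normal) :
    N ≤ Subgroup.center (GI ρ lam a b c) ∨ N = ⊤ := by
  by_cases h : ∀ g ∈ N, g * autI ρ lam a b c (long a b c (negS a b)) =
      autI ρ lam a b c (long a b c (negS a b)) * g
  · left
    have h1 : (Subgroup.centralizer (N : Set (GI ρ lam a b c))).Normal := by
      have := hN
      infer_instance
    have h2 : autI ρ lam a b c (long a b c (negS a b)) ∈
        Subgroup.centralizer (N : Set (GI ρ lam a b c)) := by
      rw [Subgroup.mem_centralizer_iff]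
      intro g hg
      exact h g hg
    have h3 := res0_le_of_one H.hdiv h1 long_negS_ne h2
    rw [hres] at h3
    intro g hg
    rw [Subgroup.mem_center_iff]
    intro x
    have h4 : x ∈ Subgroup.centralizer (N : Set (GI ρ lam a b c)) := h3 (Subgroup.mem_top x)
    rw [Subgroup.mem_centralizer_iff] at h4
    exact (h4 g hg).symm
  · right
    push Not at h
    obtain ⟨g, hg, hgJ⟩ := h
    exact top_of_frm H hres N hN hg (hfrm g.1 g.2) hgJ

end Vale.Agent.P011.E6I.Nor
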