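import Vale.Agent.P011.E6I.H553.Nrm
import Vale.Agent.P011.E6I.H553.Sgn
import Vale.Agent.P011.E6I.H62.Nrd
import Vale.Agent.P011.E6I.Fx
import Vale.Agent.P011.E6I.H637.RowC

/-!
The elements with a frame belong to the normal closure of the automorphism group of the octonion
algebra.
-/

open Matrix

namespace Vale.Agent.P011.E6I

open Vale.Agent.P011.MPQ Vale.Agent.P011.D4 Vale.Agent.P011.D4.Oct Vale.Agent.P011.E6
open Vale.Agent.P011.E6.Alb

section nf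

variable {k L : Type} [Field k] [NumberField k] [Field L] [NumberField L] [Algebra k L]
  {ρ : L ≃ₐ[k] L} {lam : kˣ} {a b c : kˣ}

omit [NumberField k] in
/-- The reduced norm is positive at the real places at which the quaternion algebra is definite. -/
theorem nu_pos_at {m : MQ L a b} {κ : Qt a b} (hκ : nrd (qup L κ) = nu m)
    (hm : nu m ≠ 0) (w : L →+* ℝ) (ha : w (up L a : L) < 0) (hb : w (up L b : L) < 0) :
    0 < w (nu m) := by
  have h1 : 0 ≤ w (nu m) := by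
    rw [← hκ, nrd, map_add, map_sub, map_sub, map_mul, map_mul, map_mul, map_mul, map_pow, map_pow,
      map_pow, map_pow]
    have := mul_nonneg (neg_pos.2 ha).le (sq_nonneg (w (qup L κ).imI))
    have := mul_nonneg (neg_pos.2 hb).le (sq_nonneg (w (qup L κ).imJ))
    have := mul_nonneg (mul_pos_of_neg_of_neg ha hb).le (sq_nonneg (w (qup L κ).imK))
    have := sq_nonneg (w (qup L κ).re)
    nlinarith
  exact lt_of_le_of_ne h1 (Ne.symm ((map_ne_zero w).2 hm))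

omit [NumberField k] [NumberField L] in
/-- The map `ph` on the frame. -/
theorem ph_frame {z T : Matrix (Fin 3) (Fin 3) L} (hT : Tᵀ = T) (hzT : z * T = T * zᵀ)
    {Ψ : AlbL L a b c ≃ₗ[L] AlbL L a b c} (hΨ : ∀ x, ph ρ lam (Ψ x) = Ψ (ph ρ lam x))
    {v x y : AlbL L a b c} (e0 : Ψ v = ofF T) (e1 : Ψ x = ofF (z * T))
    (e2 : Ψ y = ofF (z * (z * T))) {t0 t1 t2 : L}
    (ht : ph ρ lam v = t0 • v + t1 • x + t2 • y) :
    (up L lam : L) • (u0 L lam * T.map ρ * (u0 L lam)ᵀ) =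
      (t0 • (1 : Matrix (Fin 3) (Fin 3) L) + t1 • z + t2 • z ^ 2) * T := by
  have h1 : (T.map ρ)ᵀ = T.map ρ := by
    conv_rhs => rw [← hT]
    rfl
  have h2 := hΨ v
  rw [ht, map_add, map_add, map_smul, map_smul, map_smul, e0, e1, e2, ph_ofF hT, ← ofF_smul,
    ← ofF_smul, ← ofF_smul, ← ofF_add, ← ofF_add] at h2
  have h3 : t0 • T + t1 • (z * T) + t2 • (z * (z * T)) =
      (t0 • (1 : Matrix (Fin 3) (Fin 3) L) + t1 • z + t2 • z ^ 2) * T := by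
    simp only [pow_two, Matrix.add_mul, Matrix.smul_mul, Matrix.one_mul, Matrix.mul_assoc]
  rw [h3] at h2
  refine ofF_inj ?_ (poly_sym_transpose hzT hT _ _ _) h2
  rw [Matrix.transpose_smul, Matrix.transpose_mul, Matrix.transpose_mul, h1,
    Matrix.transpose_transpose, Matrix.mul_assoc]

/-- **The elements with a frame.** -/
theorem res_of_frm (H : Hyp ρ lam a b c) (hgood : GoodQt a b c)
    {h : AlbL L a b c ≃ₗ[L] AlbL L a b c} (hh : h ∈ GI ρ lam a b c) (hg : Frm ρ lam h) :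
    h ∈ Res ρ lam a b c := by
  obtain ⟨z, m0, z1, p, q, v, x, y, t0, t1, t2, hz, hm0, hz1, htr, hzk, hp, hq, hmz, hcube, hquad,
    hv, hx, hy, hxz, hyz, hcv, h0, h1, h2, hph⟩ := frm_normal H hg
  have hd : dz z1 ≠ 0 := dz_ne_zero H hz1 htr hzk
  have hab := H.aniso
  have hh' : h⁻¹ ∈ GI ρ lam a b c := inv_mem hh
  have hhi : ∀ s, h (h⁻¹ s) = s := fun s => by
    rw [← LinearEquiv.mul_apply, mul_inv_cancel]
    rfl
  have hih : ∀ s, h⁻¹ (h s) = s := fun s => by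
    rw [← LinearEquiv.mul_apply, inv_mul_cancel]
    rfl
  obtain ⟨z', hz', hcube', hquad', hxz', hyz'⟩ :=
    pull H hh' hz hcube hquad hv hx hy hxz hyz hcv h0 h1 h2 hph
  obtain ⟨m', hm'D, hm'⟩ := exists_conj_Q H hz' hz hcube' hcube hquad' hquad
  obtain ⟨w, hw⟩ : ∃ w, w = h⁻¹ v := ⟨_, rfl⟩
  obtain ⟨x', hx'⟩ : ∃ w, w = h⁻¹ x := ⟨_, rfl⟩
  obtain ⟨y', hy'⟩ : ∃ w, w = h⁻¹ y := ⟨_, rfl⟩
  have hcw : cub w ≠ 0 := by
    rw [hw, hh'.1]
    exact hcv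
  have hphw : ph ρ lam w = t0 • w + t1 • x' + t2 • y' := by
    rw [hw, ← hh'.2, hph, hx', hy', map_add, map_add, map_smul, map_smul, map_smul]
  rw [← hw] at h0 hxz'
  rw [← hx'] at h1 hxz' hyz'
  rw [← hy'] at h2 hyz'
  have hhw : h w = v := by rw [hw, hhi]
  have hhx : h x' = x := by rw [hx', hhi]
  have hhy : h y' = y := by rw [hy', hhi]
  -- the second conjugating matrix
  obtain ⟨m1, hm1e⟩ : ∃ m1 : (MQ L a b)ˣ, m1 = m0 * m' := ⟨_, rfl⟩
  have hm1 : InD ρ lam (m1 : MQ L a b) := by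
    rw [hm1e, Units.val_mul]
    exact hm0.mul hm'D
  have hmz1 : (m1 : MQ L a b) * z' = toMQ z1 * (m1 : MQ L a b) := by
    rw [hm1e, Units.val_mul, mul_assoc, hm', ← mul_assoc, hmz, mul_assoc]
  obtain ⟨κ0, Ψ0, hκ0, hΨ0⟩ := exists_sim (c := c) H hm0
  obtain ⟨κ1, Ψ1, hκ1, hΨ1⟩ := exists_sim (c := c) H hm1
  obtain ⟨T1, hT1, hzT1, hdT1, hf1⟩ := frame_ofF hab htr hd hmz hv hx hy hxz hyz hcv
  obtain ⟨T2, hT2, hzT2, hdT2, hf2⟩ := frame_ofF hab htr hd hmz1 h0 h1 h2 hxz' hyz' hcw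
  obtain ⟨a0, a1, a2⟩ := hf1 (qup L κ0)
  obtain ⟨b0, b1, b2⟩ := hf2 (qup L κ1)
  rw [← hΨ0] at a0 a1 a2
  rw [← hΨ1] at b0 b1 b2
  obtain ⟨Y, hY, hYT⟩ := exists_quot hzT1 hzT2 hdT2
  -- the quotient belongs to `D`
  have hYD : InD0 ρ lam Y := by
    have c1 := ph_frame (ρ := ρ) (lam := lam) hT2 hzT2 (Ψ := Ψ1)
      (fun s => by rw [hΨ1, hΨ1, ph_act' hm1]) b0 b1 b2 hphw
    have c2 := ph_frame (ρ := ρ) (lam := lam) hT1 hzT1 (Ψ := Ψ0)
      (fun s => by rw [hΨ0, hΨ0, ph_act' hm0]) a0 a1 a2 hph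
    rw [hYT] at c2
    exact quot_inD0 htr hd hY (poly_comm z1 t0 t1 t2) hdT2 c1 c2
  obtain ⟨y0, y1, y2, hYe⟩ := exists_coeff_k H hz1 hYD htr hd hY
  have hsym : ∀ {S : Matrix (Fin 3) (Fin 3) L}, z1 * S = S * z1ᵀ → Sᵀ = S :=
    fun hS => sym_of_comm htr hd hS
  -- the elements of the frame
  have key : ∀ S : Matrix (Fin 3) (Fin 3) L, z1 * S = S * z1ᵀ →
      InV (Ψ1.symm (ofF S)) ∧ InV (h (Ψ1.symm (ofF S))) ∧
        Ψ0 (h (Ψ1.symm (ofF S))) = ofF (Y * S) := by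
    intro S hS
    obtain ⟨c0, c1, c2, hc⟩ := exists_lin htr hd hS hzT2 hdT2
    have e1 : Ψ1.symm (ofF S) = c0 • w + c1 • x' + c2 • y' := by
      rw [LinearEquiv.symm_apply_eq, map_add, map_add, map_smul, map_smul, map_smul, b0, b1, b2,
        hc, ofF_add, ofF_add, ofF_smul, ofF_smul, ofF_smul]
    have e2 : h (Ψ1.symm (ofF S)) = c0 • v + c1 • x + c2 • y := by
      rw [e1, map_add, map_add, map_smul, map_smul, map_smul, hhw, hhx, hhy]
    have e3 : Y * S = c0 • T1 + c1 • (z1 * T1) + c2 • (z1 * (z1 * T1)) := by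
      rw [hc, hYT]
      simp only [Matrix.mul_add, Matrix.mul_smul, ← Matrix.mul_assoc]
      rw [hY, Matrix.mul_assoc z1 Y z1, hY]
      simp only [← Matrix.mul_assoc]
    refine ⟨?_, ?_, ?_⟩
    · rw [e1]
      exact ((h0.smul _).add (h1.smul _)).add (h2.smul _)
    · rw [e2]
      exact ((hv.smul _).add (hx.smul _)).add (hy.smul _)
    · rw [e2, e3, map_add, map_add, map_smul, map_smul, map_smul, a0, a1, a2, ofF_add, ofF_add,
        ofF_smul, ofF_smul, ofF_smul]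
  -- the norm
  have hnu0 : nu (m0 : MQ L a b) ≠ 0 := nu_ne_zero hab m0
  have hnu1 : nu (m1 : MQ L a b) ≠ 0 := nu_ne_zero hab m1
  have hroot : ∀ t : k, t ^ 3 + 0 * t ^ 2 + p * t + q ≠ 0 := by
    intro t ht
    have e1 := det_sub_smul htr (algebraMap k L t)
    have e2 : algebraMap k L t ^ 3 + pz z1 * algebraMap k L t + qz z1 = 0 := by
      have e3 := congrArg (algebraMap k L) ht
      rw [zero_mul, add_zero, map_add, map_add, map_pow, map_mul, map_zero, hp, hq] at e3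
      exact e3
    rw [e2, neg_zero] at e1
    exact det_ne_zero_D0 H (D0_sub hz1 (D0_smul (ρ.commutes t) D0_one))
      (sub_ne_zero.2 (hzk _)) e1
  have hpol : z1 ^ 3 + algebraMap k L 0 • z1 ^ 2 + algebraMap k L p • z1 +
      algebraMap k L q • (1 : Matrix (Fin 3) (Fin 3) L) = 0 := by
    have e1 := z_cube htr
    rw [pow_succ, pow_two, e1, hp, hq, map_zero, zero_smul]
    abel
  have hy0 : ¬ (y0 = 0 ∧ y1 = 0 ∧ y2 = 0) := by
    rintro ⟨rfl, rfl, rfl⟩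
    rw [map_zero, zero_smul, zero_smul, zero_smul, add_zero, add_zero] at hYe
    rw [hYT, hYe, Matrix.zero_mul, Matrix.det_zero] at hdT1
    exact hdT1 rfl
  have hsgn := sgn_of H hgood htr hd hp hq (h := (Ψ1.symm.trans h).trans Ψ0)
    (μ := nu (m0 : MQ L a b) * (nu (m1 : MQ L a b))⁻¹) (fun s => by
      have e1 : cub (Ψ1 (Ψ1.symm s)) = nu (m1 : MQ L a b) * cub (Ψ1.symm s) := by
        rw [hΨ1, cub_act hab m1 _ hκ1]
      rw [LinearEquiv.apply_symm_apply] at e1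
      rw [LinearEquiv.trans_apply, LinearEquiv.trans_apply, hΨ0, cub_act hab m0 _ hκ0, hh.1, e1]
      field_simp) (fun w ha hb => by
      rw [map_mul, map_inv₀]
      exact mul_pos (nu_pos_at hκ0 hnu0 w ha hb) (inv_pos.2 (nu_pos_at hκ1 hnu1 w ha hb)))
    (y0 := y0) (y1 := y1) (y2 := y2) (fun S hS => by
      rw [← hYe]
      exact (key S hS).2.2)
  obtain ⟨e, heD, hez, heT⟩ := exists_e H hz1 hpol hroot hy0 (fun τ r ha hb hr =>
    hsgn τ r ha hb hr)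
  rw [← hYe] at heT
  -- the element of the special linear group of `D ⊗ Q`
  obtain ⟨g, hge⟩ : ∃ g : (MQ L a b)ˣ, g = m0⁻¹ * e * m1 := ⟨_, rfl⟩
  have hgD : InD ρ lam (g : MQ L a b) := by
    rw [hge, Units.val_mul, Units.val_mul]
    exact ((InD.inv' hm0).mul heD).mul hm1
  have hgs : ∀ S : Matrix (Fin 3) (Fin 3) L, z1 * S = S * z1ᵀ →
      (g : MQ L a b) * mat (Ψ1.symm (ofF S)) * (g : MQ L a b)ᴴ =
        mat (h (Ψ1.symm (ofF S))) := by
    intro S hS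
    obtain ⟨-, -, e3⟩ := key S hS
    have e4 : (m1 : MQ L a b) * mat (Ψ1.symm (ofF S)) * (m1 : MQ L a b)ᴴ = toMQ S := by
      rw [← mat_act m1 (qup L κ1), ← hΨ1, LinearEquiv.apply_symm_apply, mat_ofF (hsym hS)]
      rfl
    have e5 : (m0 : MQ L a b) * mat (h (Ψ1.symm (ofF S))) * (m0 : MQ L a b)ᴴ = toMQ (Y * S) := by
      rw [← mat_act m0 (qup L κ0), ← hΨ0, e3, mat_ofF (hsym (comm_mul_sym hY hS))]
      rfl
    have e6 : ((m0⁻¹ : (MQ L a b)ˣ) : MQ L a b) * (m0 : MQ L a b) = 1 := Units.inv_mul _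
    have e7 : (m0 : MQ L a b)ᴴ * ((m0⁻¹ : (MQ L a b)ˣ) : MQ L a b)ᴴ = 1 := by
      rw [← Matrix.conjTranspose_mul, e6, Matrix.conjTranspose_one]
    rw [hge, Units.val_mul, Units.val_mul, Matrix.conjTranspose_mul, Matrix.conjTranspose_mul]
    calc _ = ((m0⁻¹ : (MQ L a b)ˣ) : MQ L a b) * ((e : MQ L a b) *
          ((m1 : MQ L a b) * mat (Ψ1.symm (ofF S)) * (m1 : MQ L a b)ᴴ) * (e : MQ L a b)ᴴ) *
          ((m0⁻¹ : (MQ L a b)ˣ) : MQ L a b)ᴴ := by simp only [Matrix.mul_assoc]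
      _ = ((m0⁻¹ : (MQ L a b)ˣ) : MQ L a b) * ((m0 : MQ L a b) *
          mat (h (Ψ1.symm (ofF S))) * (m0 : MQ L a b)ᴴ) *
          ((m0⁻¹ : (MQ L a b)ˣ) : MQ L a b)ᴴ := by rw [e4, heT S hS, e5]
      _ = (((m0⁻¹ : (MQ L a b)ˣ) : MQ L a b) * (m0 : MQ L a b)) *
          mat (h (Ψ1.symm (ofF S))) * ((m0 : MQ L a b)ᴴ *
          ((m0⁻¹ : (MQ L a b)ˣ) : MQ L a b)ᴴ) := by simp only [Matrix.mul_assoc]
      _ = _ := by rw [e6, e7, Matrix.one_mul, Matrix.mul_one]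
  have hnug : nu (g : MQ L a b) = 1 := by
    have e1 := hgs T2 hzT2
    have e2 : Ψ1.symm (ofF T2) = w := by rw [LinearEquiv.symm_apply_eq, b0]
    rw [e2, hhw] at e1
    have e3 := H64.herN_mul two_ne_zero hab (g : MQ L a b) (mat w) (H64.mat_isHermitian w)
    rw [e1, ← cub_inV hv, ← cub_inV h0] at e3
    have e4 : cub v = cub w := by rw [← hhw, hh.1]
    rw [e4] at e3
    exact (mul_right_cancel₀ hcw (by rw [one_mul]; exact e3)).symm
  obtain ⟨φ, hφG, hφ⟩ := exists_actI (c := c) H hgD hnug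
  have hφR : φ ∈ Res ρ lam a b c := inRes_DQ H hgD hnug φ hφ
  have hφs : ∀ S : Matrix (Fin 3) (Fin 3) L, z1 * S = S * z1ᵀ →
      φ (Ψ1.symm (ofF S)) = h (Ψ1.symm (ofF S)) := by
    intro S hS
    obtain ⟨e1, e2, -⟩ := key S hS
    apply eq_of_mat _ e2
    · rw [hφ, mat_act, hgs S hS]
    · rw [hφ]
      exact e1.act _ _
  -- the last factor fixes the frame
  have hf : Ψ1 * (φ⁻¹ * h) * Ψ1⁻¹ ∈ Res ρ lam a b c := by
    refine fix H hz1 hzk ((sim_GI H hm1 hκ1 hΨ1 _).1 (mul_mem (inv_mem hφG) hh))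
      (fun S _ hS => ?_)
    have e1 : (Ψ1 * (φ⁻¹ * h) * Ψ1⁻¹) (ofF S) = Ψ1 (φ⁻¹ (h (Ψ1.symm (ofF S)))) := rfl
    have e2 : φ⁻¹ (φ (Ψ1.symm (ofF S))) = Ψ1.symm (ofF S) := by
      rw [← LinearEquiv.mul_apply, inv_mul_cancel]
      rfl
    rw [e1, ← hφs S hS, e2, LinearEquiv.apply_symm_apply]
  have hf' := (sim_iff H hm1 hκ1 hΨ1 (φ⁻¹ * h)).2.2 hf
  have e1 : h = φ * (φ⁻¹ * h) := by rw [mul_inv_cancel_left]
  rw [e1]
  exact mul_mem hφR hf'

end nf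

end Vale.Agent.P011.E6I
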