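import Vale.Agent.P011.E6I.Basic
import Vale.Agent.P011.E6I.Gen6
import Vale.Agent.P011.E6I.ResFrm
import Vale.Agent.P011.E6.Pos3
import Vale.Agent.P011.E6.Reach

/-!
Assembly: the normal closure of the automorphism group of the octonion algebra is everything.
-/

open NumberField

namespace Vale.Agent.P011.E6I

open Vale.Agent.P011.MPQ Vale.Agent.P011.D4 Vale.Agent.P011.D4.Oct Vale.Agent.P011.E6

variable {k L : Type} [Field k] [NumberField k] [Field L] [NumberField L] [Algebra k L]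
  {ρ : L ≃ₐ[k] L} {lam : kˣ} {a b c : kˣ}

/-- The normal closure of the automorphism group of the octonion algebra is everything. -/
theorem res_top (H : Hyp ρ lam a b c) : Res ρ lam a b c = GI ρ lam a b c := by
  refine le_antisymm Res_le fun φ hφ => ?_
  obtain ⟨a', b', c', i, j, l, ht, hg⟩ := Lit.exists_good H.hdiv
  have H' : Hyp ρ lam a' b' c' := ⟨H.h3, H.hρ, H.hlam, (aniso_of_trip H.hdiv ht).2.2.2⟩
  obtain ⟨Ψ, hΨ⟩ : ∃ Ψ : AlbL L a' b' c' ≃ₗ[L] AlbL L a b c,
      ∀ x, Ψ x = Alb.omapA (emb (oup L i) (oup L j) (oup L l)) x := ⟨tripA L ht, tripA_apply ht⟩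
  obtain ⟨φ', hφ'⟩ : ∃ φ' : AlbL L a' b' c' ≃ₗ[L] AlbL L a' b' c',
      φ' = (Ψ.trans φ).trans Ψ.symm := ⟨_, rfl⟩
  have e : (Ψ.symm.trans φ').trans Ψ = φ := by
    apply LinearEquiv.ext
    intro x
    simp [hφ']
  have h1 : φ' ∈ GI ρ lam a' b' c' := (trip_Res ht hΨ).1.2 (by rw [e]; exact hφ)
  have h2 : φ' ∈ Res ρ lam a' b' c' := res_of_frm H' hg h1 (frm H' h1)
  have h3 := (trip_Res ht hΨ).2.1 h2
  rwa [e] at h3

/-- The normal closure of the automorphism group, as a subgroup of `GI`. -/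
theorem res0_top (H : Hyp ρ lam a b c) : res0 ρ lam a b c = ⊤ := by
  rw [eq_top_iff]
  rintro ⟨φ, hφ⟩ -
  rw [← mem_Res' hφ, res_top H]
  exact hφ

/-- There is no proper subgroup of finite index. -/
theorem e6i_index (H : Hyp ρ lam a b c) (N : Subgroup (GI ρ lam a b c)) (hN : N.index ≠ 0) :
    N = ⊤ := by
  rw [eq_top_iff, ← res0_top H]
  exact res0_le_of_index H.hdiv hN

end Vale.Agent.P011.E6I
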