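import Vale.Agent.P011.E6I.Gen6
import Vale.Agent.P011.E6I.Nor
import Vale.Agent.P011.E6I.Top

/-!
The normal subgroups of the inner groups of type `E₆`.
-/

open NumberField

namespace Vale.Agent.P011.E6I

open Vale.Agent.P011.MPQ Vale.Agent.P011.D4 Vale.Agent.P011.D4.Oct Vale.Agent.P011.E6

/-- Every noncentral normal subgroup is the whole group. -/
theorem e6i_normal {k L : Type} [Field k] [NumberField k] [Field L] [NumberField L] [Algebra k L]
    {ρ : L ≃ₐ[k] L} {lam : kˣ} {a b c : kˣ} (H : Hyp ρ lam a b c)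
    (N : Subgroup (GI ρ lam a b c)) (hN : N.Normal) :
    N ≤ Subgroup.center (GI ρ lam a b c) ∨ N = ⊤ :=
  Nor.e6i_normal' H (res0_top H) (fun _ hh => frm H hh) N hN

end Vale.Agent.P011.E6I
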