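import Vale.Agent.P011.E6I.HDefs
import Vale.Agent.P011.E6I.Normal

/-!
The final theorem on the inner groups of type `E₆`, for the group of permutations.
-/

namespace Vale.Agent.P011.E6I

open Vale.Agent.P011.D4 Vale.Agent.P011.D4.Oct Vale.Agent.P011.E6

section hom

variable {k L : Type} [Field k] [Field L] [Algebra k L] {ρ : L ≃ₐ[k] L} {lam a b c : kˣ}

/-- The two descriptions of the group agree. -/
def toGPI : GI ρ lam a b c →* GPI ρ lam a b c where
  toFun φ := ⟨φ.1.toEquiv, fun x y => map_add φ.1 x y, fun t x => map_smul φ.1 t x, φ.2.1, φ.2.2⟩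
  map_one' := rfl
  map_mul' _ _ := rfl

theorem toGPI_surjective : Function.Surjective (toGPI (ρ := ρ) (lam := lam) (a := a) (b := b)
    (c := c)) := by
  rintro ⟨φ, f1, f2, f3, f4⟩
  refine ⟨⟨{ φ with
    map_add' := f1
    map_smul' := f2 }, fun x => f3 x, fun x => f4 x⟩, ?_⟩
  apply Subtype.ext
  apply Equiv.ext
  intro x
  rfl

theorem toGPI_injective : Function.Injective (toGPI (ρ := ρ) (lam := lam) (a := a) (b := b)
    (c := c)) := by
  intro φ ψ h
  apply Subtype.ext
  apply LinearEquiv.ext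
  intro x
  exact congrArg (fun f : GPI ρ lam a b c => (f : Equiv.Perm (AlbL L a b c)) x) h

end hom

/-- **Inner groups of type `E₆`**, final form. -/
theorem gpi_main {k L : Type} [Field k] [NumberField k] [Field L] [NumberField L] [Algebra k L]
    (h3 : Module.finrank k L = 3) {ρ : L ≃ₐ[k] L} (hρ : ρ ≠ 1) {lam : kˣ}
    (hlam : ∀ x : L, Algebra.norm k x ≠ lam) {a b c : kˣ} (hdiv : Division a b c)
    (N : Subgroup (GPI ρ lam a b c)) :
    (N.index ≠ 0 → N = ⊤) ∧ (N.Normal → N ≤ Subgroup.center (GPI ρ lam a b c) ∨ N = ⊤) := by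
  have H : Hyp ρ lam a b c := ⟨h3, hρ, hlam, hdiv⟩
  have htop : N.comap (toGPI (ρ := ρ) (lam := lam) (a := a) (b := b) (c := c)) = ⊤ → N = ⊤ := by
    intro h
    rw [eq_top_iff]
    intro φ _
    obtain ⟨ψ, rfl⟩ := toGPI_surjective φ
    have h3 : ψ ∈ N.comap toGPI := by rw [h]; exact Subgroup.mem_top ψ
    exact h3
  refine ⟨fun hi => htop (e6i_index H _ ?_), fun hN => ?_⟩
  · rw [Subgroup.index_comap_of_surjective _ toGPI_surjective]
    exact hi
  · rcases e6i_normal H
      (N.comap (toGPI (ρ := ρ) (lam := lam) (a := a) (b := b) (c := c))) (hN.comap _) with h | h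
    · left
      intro φ hφ
      obtain ⟨ψ, rfl⟩ := toGPI_surjective φ
      rw [Subgroup.mem_center_iff]
      intro χ
      obtain ⟨ψ', rfl⟩ := toGPI_surjective χ
      have h1 := Subgroup.mem_center_iff.mp (h (Subgroup.mem_comap.mpr hφ)) ψ'
      rw [← map_mul, h1, map_mul]
    · exact Or.inr (htop h)

end Vale.Agent.P011.E6I
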