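import Vale.Agent.P011.E6I.Bas0
import Vale.Agent.P011.D4.Emb
import Vale.Agent.P011.D4.IF.Asm
import Vale.Agent.P011.E6.Herm

/-!
The automorphisms of the octonion algebra, as elements of the group `GI`.
-/

open NumberField Matrix

namespace Vale.Agent.P011.E6I.Nor

open Vale.Agent.P011.MPQ Vale.Agent.P011.D4 Vale.Agent.P011.D4.Oct Vale.Agent.P011.E6
open Vale.Agent.P011.E6.Alb Vale.Agent.P011.E6I

section gen

variable {k L : Type} [Field k] [Field L] [Algebra k L] {ρ : L ≃ₐ[k] L} {lam : kˣ} {a b c : kˣ}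

/-- Elements of the Albert algebra are determined by linear maps over the ground field. -/
theorem alb_unique' {M : Type} [AddCommGroup M] [Module L M] {f g : AlbL L a b c →ₗ[L] M}
    (h : ∀ x : Alb a b c, f (aup L x) = g (aup L x)) : f = g := by
  have h1 : ∀ (d1 d2 d3 : L), f ⟨d1, d2, d3, 0, 0, 0⟩ = g ⟨d1, d2, d3, 0, 0, 0⟩ := by
    intro d1 d2 d3
    have e : (⟨d1, d2, d3, 0, 0, 0⟩ : AlbL L a b c) = d1 • aup L e1 + d2 • aup L e2 +
        d3 • aup L e3 := by
      ext1 <;> simp [aup, e1, e2, e3]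
    rw [e, map_add, map_add, map_smul, map_smul, map_smul, h, h, h, map_add, map_add, map_smul,
      map_smul, map_smul]
  have k1 : ∀ z : OctL L a b c, f ⟨0, 0, 0, z, 0, 0⟩ = g ⟨0, 0, 0, z, 0, 0⟩ := by
    intro z
    induction z using Em.oup_induction with
    | h0 z =>
      have e : (⟨0, 0, 0, oup L z, 0, 0⟩ : AlbL L a b c) = aup L ⟨0, 0, 0, z, 0, 0⟩ := by
        ext1 <;> simp [aup]
      rw [e, h]
    | hadd z w hz hw =>
      have e : (⟨0, 0, 0, z + w, 0, 0⟩ : AlbL L a b c) = ⟨0, 0, 0, z, 0, 0⟩ +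
          ⟨0, 0, 0, w, 0, 0⟩ := by
        ext1 <;> simp
      rw [e, map_add, map_add, hz, hw]
    | hsmul t z hz =>
      have e : (⟨0, 0, 0, t • z, 0, 0⟩ : AlbL L a b c) = t • ⟨0, 0, 0, z, 0, 0⟩ := by
        ext1 <;> simp
      rw [e, map_smul, map_smul, hz]
  have k2 : ∀ z : OctL L a b c, f ⟨0, 0, 0, 0, z, 0⟩ = g ⟨0, 0, 0, 0, z, 0⟩ := by
    intro z
    induction z using Em.oup_induction with
    | h0 z =>
      have e : (⟨0, 0, 0, 0, oup L z, 0⟩ : AlbL L a b c) = aup L ⟨0, 0, 0, 0, z, 0⟩ := by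
        ext1 <;> simp [aup]
      rw [e, h]
    | hadd z w hz hw =>
      have e : (⟨0, 0, 0, 0, z + w, 0⟩ : AlbL L a b c) = ⟨0, 0, 0, 0, z, 0⟩ +
          ⟨0, 0, 0, 0, w, 0⟩ := by
        ext1 <;> simp
      rw [e, map_add, map_add, hz, hw]
    | hsmul t z hz =>
      have e : (⟨0, 0, 0, 0, t • z, 0⟩ : AlbL L a b c) = t • ⟨0, 0, 0, 0, z, 0⟩ := by
        ext1 <;> simp
      rw [e, map_smul, map_smul, hz]
  have k3 : ∀ z : OctL L a b c, f ⟨0, 0, 0, 0, 0, z⟩ = g ⟨0, 0, 0, 0, 0, z⟩ := by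
    intro z
    induction z using Em.oup_induction with
    | h0 z =>
      have e : (⟨0, 0, 0, 0, 0, oup L z⟩ : AlbL L a b c) = aup L ⟨0, 0, 0, 0, 0, z⟩ := by
        ext1 <;> simp [aup]
      rw [e, h]
    | hadd z w hz hw =>
      have e : (⟨0, 0, 0, 0, 0, z + w⟩ : AlbL L a b c) = ⟨0, 0, 0, 0, 0, z⟩ +
          ⟨0, 0, 0, 0, 0, w⟩ := by
        ext1 <;> simp
      rw [e, map_add, map_add, hz, hw]
    | hsmul t z hz =>
      have e : (⟨0, 0, 0, 0, 0, t • z⟩ : AlbL L a b c) = t • ⟨0, 0, 0, 0, 0, z⟩ := by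
        ext1 <;> simp
      rw [e, map_smul, map_smul, hz]
  apply LinearMap.ext
  intro x
  have e : x = ⟨x.d1, x.d2, x.d3, 0, 0, 0⟩ + ⟨0, 0, 0, x.x1, 0, 0⟩ +
      ⟨0, 0, 0, 0, x.x2, 0⟩ + ⟨0, 0, 0, 0, 0, x.x3⟩ := by
    ext1 <;> simp
  rw [e, map_add, map_add, map_add, h1, k1, k2, k3, map_add, map_add, map_add]

theorem equiv_unique' {φ ψ : AlbL L a b c ≃ₗ[L] AlbL L a b c}
    (h : ∀ x : Alb a b c, φ (aup L x) = ψ (aup L x)) : φ = ψ :=
  LinearEquiv.toLinearMap_injective (alb_unique' h)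

theorem mapE_aup (g : Oct a b c ≃ₗ[k] Oct a b c) (x : Alb a b c) :
    Alb.mapE (Em.extE L g) (aup L x) = aup L (Alb.omapA g x) := by
  simp only [mapE_apply, omapA, aup, Em.extE_oup]

theorem mapE_mem [NeZero (2 : L)] (ρ : L ≃ₐ[k] L) (lam : kˣ) (g : AutC a b c) :
    Alb.mapE (Em.extE L g.1) ∈ GI ρ lam a b c := by
  refine ⟨fun x => cub_mapE (fun x y => Em.extL_mul g.2 x y) x, fun x => ?_⟩
  have h : ∀ x : OctL L a b c, omap ρ (Em.extE L g.1 x) = Em.extE L g.1 (omap ρ x) := fun x =>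
    Em.omap_extL ρ _ x
  simp only [mapE_apply, omapA, ph, h, map_smul]

/-- The automorphisms of the octonion algebra. -/
def iota [NeZero (2 : L)] (ρ : L ≃ₐ[k] L) (lam : kˣ) (a b c : kˣ) :
    AutC a b c →* GI ρ lam a b c where
  toFun g := ⟨Alb.mapE (Em.extE L g.1), mapE_mem ρ lam g⟩
  map_one' := by
    apply Subtype.ext
    apply equiv_unique'
    intro x
    exact mapE_aup _ x
  map_mul' g h := by
    apply Subtype.ext
    apply equiv_unique'
    intro x
    refine (mapE_aup _ x).trans ?_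
    change _ = Alb.mapE (Em.extE L g.1) (Alb.mapE (Em.extE L h.1) (aup L x))
    rw [mapE_aup, mapE_aup]
    rfl

theorem iota_apply [NeZero (2 : L)] (g : AutC a b c) (x : AlbL L a b c) :
    (iota ρ lam a b c g).1 x = Alb.omapA (Em.extE L g.1) x := rfl

theorem iota_aup [NeZero (2 : L)] (g : AutC a b c) (x : Alb a b c) :
    (iota ρ lam a b c g).1 (aup L x) = aup L (Alb.omapA g.1 x) := mapE_aup _ x

theorem eq_iota [NeZero (2 : L)] {g : AutC a b c} {φ : GI ρ lam a b c}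
    (h : ∀ x : Alb a b c, φ.1 (aup L x) = aup L (Alb.omapA g.1 x)) :
    φ = iota ρ lam a b c g := by
  apply Subtype.ext
  apply equiv_unique'
  intro x
  rw [h, iota_aup]

theorem iota_injective [NeZero (2 : L)] :
    Function.Injective (iota ρ lam a b c : AutC a b c →* GI ρ lam a b c) := by
  intro g h hgh
  apply Subtype.ext
  apply LinearEquiv.ext
  intro x
  have h1 := congrArg (fun φ : GI ρ lam a b c => (φ.1 (aup L ⟨0, 0, 0, x, 0, 0⟩)).x1) hgh
  simp only [iota_aup, x1_aup, omapA] at h1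
  exact oup_injective h1

theorem extE_long (t : SL1 a b) (x : OctL L a b c) :
    Em.extE L (long a b c t).1 x = ⟨x.fst, qup L ((t : (Qt a b)ˣ) : Qt a b) * x.snd⟩ := by
  induction x using Em.oup_induction with
  | h0 x =>
    rw [Em.extE_oup]
    apply Oct.ext
    · rfl
    · change qup L (((t : (Qt a b)ˣ) : Qt a b) * x.snd) = _
      rw [qup_mul]
      rfl
  | hadd x y hx hy =>
    rw [map_add, hx, hy]
    apply Oct.ext
    · rfl
    · rw [snd_add, snd_add, mul_add]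
  | hsmul s x hx =>
    rw [map_smul, hx]
    apply Oct.ext
    · rfl
    · rw [snd_smul, snd_smul, mul_smul_comm]

/-- The long subgroup fixes the space `V`. -/
theorem iota_long_fix [NeZero (2 : L)] (t : SL1 a b) {v : AlbL L a b c}
    (hv : v ∈ Vsub L a b c) : (iota ρ lam a b c (long a b c t)).1 v = v := by
  obtain ⟨h1, h2, h3⟩ := hv
  have key : ∀ x : OctL L a b c, x.snd = 0 → Em.extE L (long a b c t).1 x = x := by
    intro x hx
    rw [extE_long]
    apply Oct.ext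
    · rfl
    · rw [hx, mul_zero]
  rw [iota_apply]
  apply Alb.ext
  · rfl
  · rfl
  · rfl
  · exact key _ h1
  · exact key _ h2
  · exact key _ h3

/-- The automorphisms fix the matrices over the ground field. -/
theorem iota_ofF [NeZero (2 : L)] (g : AutC a b c) (S : Matrix (Fin 3) (Fin 3) L) :
    (iota ρ lam a b c g).1 (Alb.ofF S) = Alb.ofF S := by
  have h1 : Em.extE L g.1 (1 : OctL L a b c) = 1 := by
    rw [← oup_one, Em.extE_oup, aut_one g]
  have key : ∀ s : L, Em.extE L g.1 (s • 1 : OctL L a b c) = s • 1 := fun s => by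
    rw [map_smul, h1]
  rw [iota_apply]
  apply Alb.ext
  · rfl
  · rfl
  · rfl
  · exact key _
  · exact key _
  · exact key _

end gen

end Vale.Agent.P011.E6I.Nor
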