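import Vale.Agent.P011.E6I.H369.Cent
import Vale.Agent.P011.E6.H64.Act

/-!
Frames: the space `L[z] v` consists of symmetric matrices when `z` is a matrix over `L`.
-/

open Matrix

namespace Vale.Agent.P011.E6I.Nor

open Vale.Agent.P011.MPQ Vale.Agent.P011.D4 Vale.Agent.P011.D4.Oct Vale.Agent.P011.E6
open Vale.Agent.P011.E6.Alb

variable {F : Type} [Field F] [CharZero F] {a b c : Fˣ}

/-- A symmetric matrix over the ground field with vanishing skew part. -/
theorem sym_of_comm {z V : Matrix (Fin 3) (Fin 3) F} (h0 : z.trace = 0) (hd : dz z ≠ 0)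
    (hV : z * V = V * zᵀ) : Vᵀ = V := by
  obtain ⟨S, hS, hzS, hdet⟩ := exists_sym h0 hd
  have hu : IsUnit S.det := isUnit_iff_ne_zero.2 hdet
  have hzS' : zᵀ * S⁻¹ = S⁻¹ * z := by
    have h1 : S⁻¹ * (z * S) * S⁻¹ = S⁻¹ * (S * zᵀ) * S⁻¹ := by rw [hzS]
    rw [← Matrix.mul_assoc S⁻¹ S, Matrix.nonsing_inv_mul _ hu, Matrix.one_mul,
      Matrix.mul_assoc S⁻¹, Matrix.mul_assoc z, Matrix.mul_nonsing_inv _ hu, Matrix.mul_one] at h1
    exact h1.symm
  have hy : V * S⁻¹ * z = z * (V * S⁻¹) := by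
    rw [Matrix.mul_assoc, ← hzS', ← Matrix.mul_assoc, ← hV, Matrix.mul_assoc]
  have h1 := comm_sym h0 hd hy hzS
  rw [Matrix.mul_assoc, Matrix.nonsing_inv_mul _ hu, Matrix.mul_one] at h1
  have h2 : (V * S⁻¹ * S)ᵀ = S * (V * S⁻¹)ᵀ := by rw [Matrix.transpose_mul, hS]
  rw [Matrix.mul_assoc, Matrix.nonsing_inv_mul _ hu, Matrix.mul_one] at h2
  rw [h2, ← h1]

/-- The elements of the commutant. -/
theorem exists_coeff' {z y : Matrix (Fin 3) (Fin 3) F} {t : F}
    (h0 : (z - t • (1 : Matrix (Fin 3) (Fin 3) F)).trace = 0)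
    (hd : dz (z - t • (1 : Matrix (Fin 3) (Fin 3) F)) ≠ 0) (hy : y * z = z * y) :
    ∃ c0 c1 c2 : F, y = c0 • (1 : Matrix (Fin 3) (Fin 3) F) + c1 • z + c2 • (z * z) := by
  obtain ⟨c0, c1, c2, h⟩ := exists_coeff h0 hd (y := y) (by
    rw [Matrix.mul_sub, Matrix.sub_mul, hy, Matrix.mul_smul, Matrix.smul_mul, Matrix.mul_one,
      Matrix.one_mul])
  refine ⟨c0 - c1 * t + c2 * t ^ 2, c1 - 2 * c2 * t, c2, ?_⟩
  rw [h]
  simp only [Matrix.sub_mul, Matrix.mul_sub, Matrix.smul_mul, Matrix.mul_smul, Matrix.one_mul,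
    Matrix.mul_one]
  module

omit [CharZero F] in
theorem det_eq_cub {S : Matrix (Fin 3) (Fin 3) F} (hS : Sᵀ = S) :
    cub (ofF S : Alb a b c) = S.det := by
  have h1 : S 1 0 = S 0 1 := congrFun (congrFun hS 0) 1
  have h2 : S 2 0 = S 0 2 := congrFun (congrFun hS 0) 2
  have h3 : S 2 1 = S 1 2 := congrFun (congrFun hS 1) 2
  rw [Matrix.det_fin_three, h1, h2, h3]
  simp only [cub, ofF, h2]
  simp only [Oct.norm_smul, Oct.norm_one, mul_smul_oct, mul_one, bil_smul_left, bil_self]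
  ring

/-- The `i`-th coordinate of the matrix part. -/
theorem frame_span {z : Matrix (Fin 3) (Fin 3) F} {t : F}
    (h0 : (z - t • (1 : Matrix (Fin 3) (Fin 3) F)).trace = 0)
    (hd : dz (z - t • (1 : Matrix (Fin 3) (Fin 3) F)) ≠ 0) {v x y : Alb a b c}
    (hv : v.x1.snd = 0 ∧ v.x2.snd = 0 ∧ v.x3.snd = 0)
    (hx : x.x1.snd = 0 ∧ x.x2.snd = 0 ∧ x.x3.snd = 0)
    (hy : y.x1.snd = 0 ∧ y.x2.snd = 0 ∧ y.x3.snd = 0)
    (e1 : mat x = z.map (algebraMap F (Qt a b)) * mat v)
    (e2 : mat y = z.map (algebraMap F (Qt a b)) * mat x) (hc : cub v ≠ 0)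
    {S : Matrix (Fin 3) (Fin 3) F} (hzS : z * S = S * zᵀ) :
    ∃ c0 c1 c2 : F, (ofF S : Alb a b c) = c0 • v + c1 • x + c2 • y := by
  -- the coordinates of a product
  have hre : ∀ (w : Matrix (Fin 3) (Fin 3) F) (X : Matrix (Fin 3) (Fin 3) (Qt a b)) (i j : Fin 3),
      ((w.map (algebraMap F (Qt a b)) * X) i j).re = (w * X.map QuaternionAlgebra.re) i j ∧
      ((w.map (algebraMap F (Qt a b)) * X) i j).imI = (w * X.map QuaternionAlgebra.imI) i j ∧
      ((w.map (algebraMap F (Qt a b)) * X) i j).imJ = (w * X.map QuaternionAlgebra.imJ) i j ∧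
      ((w.map (algebraMap F (Qt a b)) * X) i j).imK = (w * X.map QuaternionAlgebra.imK) i j := by
    intro w X i j
    simp [Matrix.mul_apply, Fin.sum_univ_three]
  -- a hermitian matrix
  have hher : ∀ (u : Alb a b c) (i j : Fin 3), (mat u j i).re = (mat u i j).re ∧
      (mat u j i).imI = -(mat u i j).imI ∧ (mat u j i).imJ = -(mat u i j).imJ ∧
      (mat u j i).imK = -(mat u i j).imK := by
    intro u i j
    have h : star (mat u i j) = mat u j i := congrFun (congrFun (H64.mat_isHermitian u) j) i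
    rw [← h]
    simp
  -- the coordinates vanish
  have key : ∀ (f : Qt a b → F), (∀ i j, f (mat v j i) = -f (mat v i j)) →
      (∀ i j, f (mat x j i) = -f (mat x i j)) →
      (∀ i j, f (mat x i j) = (z * (mat v).map f) i j) → ∀ i j, f (mat v i j) = 0 := by
    intro f hf1 hf2 hf3
    have h1 : ((mat v).map f)ᵀ = -(mat v).map f := by
      ext i j
      simp only [Matrix.transpose_apply, Matrix.map_apply, Matrix.neg_apply]
      exact hf1 i j
    have h2 : z * (mat v).map f = (mat v).map f * zᵀ := by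
      have h3 : (z * (mat v).map f)ᵀ = -(z * (mat v).map f) := by
        ext i j
        rw [Matrix.transpose_apply, Matrix.neg_apply, ← hf3, ← hf3]
        exact hf2 i j
      rw [Matrix.transpose_mul, h1, Matrix.neg_mul, neg_inj] at h3
      exact h3.symm
    have h4 : (z - t • (1 : Matrix (Fin 3) (Fin 3) F)) * (mat v).map f = (mat v).map f *
        (z - t • (1 : Matrix (Fin 3) (Fin 3) F))ᵀ := by
      rw [Matrix.transpose_sub, Matrix.transpose_smul, Matrix.transpose_one, Matrix.sub_mul,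
        Matrix.mul_sub, h2, Matrix.smul_mul, Matrix.mul_smul, Matrix.one_mul, Matrix.mul_one]
    have h5 := sym_of_comm h0 hd h4
    rw [h1] at h5
    intro i j
    have h6 := congrFun (congrFun h5 i) j
    rw [Matrix.neg_apply, Matrix.map_apply] at h6
    have h7 : (2 : F) * f (mat v i j) = 0 := by linear_combination -h6
    exact (mul_eq_zero.mp h7).resolve_left two_ne_zero
  have hI := key QuaternionAlgebra.imI (fun i j => (hher v i j).2.1) (fun i j => (hher x i j).2.1)
    (fun i j => by rw [e1]; exact (hre z (mat v) i j).2.1)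
  have hJ := key QuaternionAlgebra.imJ (fun i j => (hher v i j).2.2.1)
    (fun i j => (hher x i j).2.2.1) (fun i j => by rw [e1]; exact (hre z (mat v) i j).2.2.1)
  have hK := key QuaternionAlgebra.imK (fun i j => (hher v i j).2.2.2)
    (fun i j => (hher x i j).2.2.2) (fun i j => by rw [e1]; exact (hre z (mat v) i j).2.2.2)
  obtain ⟨V, hVd⟩ : ∃ V, V = (mat v).map QuaternionAlgebra.re := ⟨_, rfl⟩
  have hVs : Vᵀ = V := by
    rw [hVd]
    ext i j
    exact (hher v i j).1
  have hmv : mat v = V.map (algebraMap F (Qt a b)) := by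
    rw [hVd]
    apply Matrix.ext
    intro i j
    apply QuaternionAlgebra.ext
    · rfl
    · exact hI i j
    · exact hJ i j
    · exact hK i j
  have hmx : mat x = (z * V).map (algebraMap F (Qt a b)) := by rw [e1, hmv, Matrix.map_mul]
  have hmy : mat y = (z * (z * V)).map (algebraMap F (Qt a b)) := by
    rw [e2, hmx]
    exact (Matrix.map_mul (L := z) (M := z * V) (f := algebraMap F (Qt a b))).symm
  -- elements with scalar matrix part
  have hof : ∀ (u : Alb a b c) (U : Matrix (Fin 3) (Fin 3) F),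
      (u.x1.snd = 0 ∧ u.x2.snd = 0 ∧ u.x3.snd = 0) → mat u = U.map (algebraMap F (Qt a b)) →
      u = ofF U := by
    rintro ⟨d1, d2, d3, x1, x2, x3⟩ U ⟨k1, k2, k3⟩ hu
    have g00 := congrArg QuaternionAlgebra.re (congrFun (congrFun hu 0) 0)
    have g11 := congrArg QuaternionAlgebra.re (congrFun (congrFun hu 1) 1)
    have g22 := congrArg QuaternionAlgebra.re (congrFun (congrFun hu 2) 2)
    have g12 := congrFun (congrFun hu 1) 2
    have g20 := congrFun (congrFun hu 2) 0
    have g01 := congrFun (congrFun hu 0) 1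
    change d1 = U 0 0 at g00
    change d2 = U 1 1 at g11
    change d3 = U 2 2 at g22
    change x1.fst = algebraMap F (Qt a b) (U 1 2) at g12
    change x2.fst = algebraMap F (Qt a b) (U 2 0) at g20
    change x3.fst = algebraMap F (Qt a b) (U 0 1) at g01
    simp only at k1 k2 k3
    have hone : ∀ (s : F) (w : Oct a b c), w.fst = algebraMap F (Qt a b) s → w.snd = 0 →
        w = s • 1 := by
      intro s w h1 h2
      apply Oct.ext
      · rw [h1, fst_smul, fst_one, Algebra.algebraMap_eq_smul_one]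
      · rw [h2, snd_smul, snd_one, smul_zero]
    simp only [ofF, g00, g11, g22]
    rw [hone _ _ g12 k1, hone _ _ g20 k2, hone _ _ g01 k3]
  have hv' := hof v V hv hmv
  have hx' := hof x _ hx hmx
  have hy' := hof y _ hy hmy
  have hdet : V.det ≠ 0 := by
    rw [← det_eq_cub (a := a) (b := b) (c := c) hVs, ← hv']
    exact hc
  have hu : IsUnit V.det := isUnit_iff_ne_zero.2 hdet
  have hzV : z * V = V * zᵀ := by
    have h1 : (z * V)ᵀ = z * V := by
      ext i j
      have h2 := (hher x i j).1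
      rw [hmx] at h2
      exact h2
    rw [← h1, Matrix.transpose_mul, hVs]
  have hzV' : zᵀ * V⁻¹ = V⁻¹ * z := by
    have h1 : V⁻¹ * (z * V) * V⁻¹ = V⁻¹ * (V * zᵀ) * V⁻¹ := by rw [hzV]
    rw [← Matrix.mul_assoc V⁻¹ V, Matrix.nonsing_inv_mul _ hu, Matrix.one_mul,
      Matrix.mul_assoc V⁻¹, Matrix.mul_assoc z, Matrix.mul_nonsing_inv _ hu, Matrix.mul_one] at h1
    exact h1.symm
  obtain ⟨c0, c1, c2, hY⟩ := exists_coeff' (y := S * V⁻¹) h0 hd (by
    rw [Matrix.mul_assoc, ← hzV', ← Matrix.mul_assoc, ← hzS, Matrix.mul_assoc])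
  have hSV : S = c0 • V + c1 • (z * V) + c2 • (z * (z * V)) := by
    have h1 : S = S * V⁻¹ * V := by
      rw [Matrix.mul_assoc, Matrix.nonsing_inv_mul _ hu, Matrix.mul_one]
    rw [h1, hY, Matrix.add_mul, Matrix.add_mul, Matrix.smul_mul, Matrix.smul_mul,
      Matrix.smul_mul, Matrix.one_mul, Matrix.mul_assoc z z V]
  refine ⟨c0, c1, c2, ?_⟩
  rw [hv', hx', hy', hSV]
  apply Alb.ext <;> simp [ofF, add_smul, mul_smul]

end Vale.Agent.P011.E6I.Nor
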