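import Vale.Agent.P011.E6I.Frm

/-!
Block E6I: literal statements of the rows.
-/

open NumberField

namespace Vale.Agent.P011.E6I.Spec

open Vale.Agent.P011.MPQ Vale.Agent.P011.D4 Vale.Agent.P011.D4.Oct Vale.Agent.P011.E6
open Vale.Agent.P011.E6I
open Matrix

/-! B (862): basic facts. -/

section B

variable {k L : Type} [Field k] [NumberField k] [Field L] [NumberField L] [Algebra k L]
  {ρ : L ≃ₐ[k] L} {lam : kˣ} {a b c : kˣ}

theorem Hyp.rho3 (H : Hyp ρ lam a b c) (t : L) : ρ (ρ (ρ t)) = t := sorry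
theorem Hyp.fix (H : Hyp ρ lam a b c) {t : L} (ht : ρ t = t) : ∃ s : k, algebraMap k L s = t :=
  sorry
theorem Hyp.aniso (H : Hyp ρ lam a b c) : Aniso (up L a) (up L b) := sorry
theorem Hyp.divL (H : Hyp ρ lam a b c) : Division (up L a) (up L b) (up L c) := sorry

/-- `D ⊗ Q` is a division algebra. -/
theorem isUnit_of_inD (H : Hyp ρ lam a b c) {m : MQ L a b} (hm : InD ρ lam m) (h0 : m ≠ 0) :
    IsUnit m := sorry

theorem InD.inv (H : Hyp ρ lam a b c) {m : (MQ L a b)ˣ} (hm : InD ρ lam (m : MQ L a b)) :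
    InD ρ lam ((m⁻¹ : (MQ L a b)ˣ) : MQ L a b) := sorry

theorem exists_nu (H : Hyp ρ lam a b c) {m : MQ L a b} (hm : InD ρ lam m) :
    ∃ t : k, nu m = algebraMap k L t := sorry

/-- The reduced norms of `D ⊗ Q` are reduced norms of `Q`. -/
theorem exists_kapI (H : Hyp ρ lam a b c) {m : (MQ L a b)ˣ} (hm : InD ρ lam (m : MQ L a b)) :
    ∃ κ : Qt a b, nrd (qup L κ) = nu (m : MQ L a b) := sorry

theorem ph_act (H : Hyp ρ lam a b c) {m : (MQ L a b)ˣ} (hm : InD ρ lam (m : MQ L a b))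
    (κ : Qt a b) (x : AlbL L a b c) :
    ph ρ lam (Alb.act m (qup L κ) x) = Alb.act m (qup L κ) (ph ρ lam x) := sorry

theorem exists_actI (H : Hyp ρ lam a b c) {m : (MQ L a b)ˣ} (hm : InD ρ lam (m : MQ L a b))
    (hn : nu (m : MQ L a b) = 1) : ∃ φ ∈ GI ρ lam a b c, ∀ x, φ x = Alb.act m 1 x := sorry

/-- The similitudes normalise the finite residual. -/
theorem sim_conj (H : Hyp ρ lam a b c) {m : (MQ L a b)ˣ} (hm : InD ρ lam (m : MQ L a b))
    {κ : Qt a b} (hκ : nrd (qup L κ) = nu (m : MQ L a b))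
    {Ψ : AlbL L a b c ≃ₗ[L] AlbL L a b c} (hΨ : ∀ x, Ψ x = Alb.act m (qup L κ) x)
    {φ : AlbL L a b c ≃ₗ[L] AlbL L a b c} :
    (φ ∈ GI ρ lam a b c → Ψ * φ * Ψ⁻¹ ∈ GI ρ lam a b c) ∧
      (φ ∈ Res ρ lam a b c → Ψ * φ * Ψ⁻¹ ∈ Res ρ lam a b c) := sorry

theorem exists_sim (H : Hyp ρ lam a b c) {m : (MQ L a b)ˣ} (hm : InD ρ lam (m : MQ L a b)) :
    ∃ (κ : Qt a b) (Ψ : AlbL L a b c ≃ₗ[L] AlbL L a b c),
      nrd (qup L κ) = nu (m : MQ L a b) ∧ ∀ x, Ψ x = Alb.act m (qup L κ) x := sorry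

theorem InRes.conj (H : Hyp ρ lam a b c) {x m : (MQ L a b)ˣ} (hm : InD ρ lam (m : MQ L a b))
    (hx : InRes ρ lam c x) (hxD : InD ρ lam (x : MQ L a b)) (hxn : nu (x : MQ L a b) = 1) :
    InRes ρ lam c (m * x * m⁻¹) := sorry

theorem InRes.mul (H : Hyp ρ lam a b c) {x y : (MQ L a b)ˣ} (hxD : InD ρ lam (x : MQ L a b))
    (hxn : nu (x : MQ L a b) = 1) (hyD : InD ρ lam (y : MQ L a b)) (hyn : nu (y : MQ L a b) = 1)
    (hx : InRes ρ lam c x) (hy : InRes ρ lam c y) : InRes ρ lam c (x * y) := sorry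

theorem InRes.inv (H : Hyp ρ lam a b c) {x : (MQ L a b)ˣ} (hxD : InD ρ lam (x : MQ L a b))
    (hxn : nu (x : MQ L a b) = 1) (hx : InRes ρ lam c x) : InRes ρ lam c x⁻¹ := sorry

/-- Change of the quaternion subalgebra. -/
theorem trip_Res {a' b' c' : kˣ} {i j l : Oct a b c} (ht : Trip a' b' c' i j l)
    {Ψ : AlbL L a' b' c' ≃ₗ[L] AlbL L a b c}
    (hΨ : ∀ x, Ψ x = Alb.omapA (emb (oup L i) (oup L j) (oup L l)) x)
    {φ : AlbL L a' b' c' ≃ₗ[L] AlbL L a' b' c'} :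
    (φ ∈ GI ρ lam a' b' c' ↔ (Ψ.symm.trans φ).trans Ψ ∈ GI ρ lam a b c) ∧
      (φ ∈ Res ρ lam a' b' c' ↔ (Ψ.symm.trans φ).trans Ψ ∈ Res ρ lam a b c) := sorry

end B

section main

variable {k L : Type} [Field k] [NumberField k] [Field L] [NumberField L] [Algebra k L]
  {ρ : L ≃ₐ[k] L} {lam : kˣ} {a b c : kˣ} (H : Hyp ρ lam a b c)

include H

/-! S1 (63): automorphisms of the octonion algebra, and the quaternion algebras over the cubic
subfields of `D`. -/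

/-- The automorphisms of the octonion algebra. -/
theorem aut_Res (g : AutC a b c) {φ : AlbL L a b c ≃ₗ[L] AlbL L a b c}
    (hφ : ∀ x : Alb a b c, φ (aup L x) = aup L (Alb.omapA g.1 x)) : φ ∈ Res ρ lam a b c := sorry

/-- The special linear groups of the quaternion algebras over the cubic subfields of `D`: `q` is a
polynomial in `z` with coefficients in `Q`, and `q S q* = S` for the symmetric matrices `S` with
`z S = S zᵗ`. -/
theorem cubic_Res {z : Matrix (Fin 3) (Fin 3) L} (hz : InD0 ρ lam z)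
    (hzk : ∀ t : L, z ≠ t • (1 : Matrix (Fin 3) (Fin 3) L)) {q : (MQ L a b)ˣ}
    (hq : InD ρ lam (q : MQ L a b)) (hqz : (q : MQ L a b) * toMQ z = toMQ z * (q : MQ L a b))
    (hfix : ∀ S : Matrix (Fin 3) (Fin 3) L, Sᵀ = S → z * S = S * zᵀ →
      (q : MQ L a b) * toMQ S * (q : MQ L a b)ᴴ = toMQ S) : InRes ρ lam c q := sorry

/-! FIX = S3 (iii) (68): the pointwise stabiliser of a cubic subfield. -/

theorem fix {z : Matrix (Fin 3) (Fin 3) L} (hz : InD0 ρ lam z)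
    (hzk : ∀ t : L, z ≠ t • (1 : Matrix (Fin 3) (Fin 3) L))
    {φ : AlbL L a b c ≃ₗ[L] AlbL L a b c} (hφ : φ ∈ GI ρ lam a b c)
    (hfix : ∀ S : Matrix (Fin 3) (Fin 3) L, Sᵀ = S → z * S = S * zᵀ →
      φ (Alb.ofF S) = Alb.ofF S) : φ ∈ Res ρ lam a b c := sorry

/-! SN (637): Skolem-Noether. -/

/-- A cubic element of `D ⊗ Q` is conjugate to an element of `D`; if it commutes with the
quaternion `w`, the conjugating element can be taken with the same property. -/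
theorem exists_conj_D {x : MQ L a b} (hx : InD ρ lam x) {p2 p1 p0 : k}
    (hp : x ^ 3 = algebraMap k L p2 • x ^ 2 + algebraMap k L p1 • x + algebraMap k L p0 • 1)
    (hx2 : ∀ q1 q0 : k, x ^ 2 ≠ algebraMap k L q1 • x + algebraMap k L q0 • 1) (w : Qt a b) (hw : x * sc L w = sc L w * x) :
    ∃ (m : (MQ L a b)ˣ) (z : Matrix (Fin 3) (Fin 3) L), InD ρ lam (m : MQ L a b) ∧
      (m : MQ L a b) * sc L w = sc L w * m ∧ InD0 ρ lam z ∧
      (∀ t : L, z ≠ t • (1 : Matrix (Fin 3) (Fin 3) L)) ∧ (m : MQ L a b) * x = toMQ z * (m : MQ L a b) := sorry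

/-- Two elements of `D ⊗ Q` with the same cubic polynomial are conjugate. -/
theorem exists_conj_Q {x y : MQ L a b} (hx : InD ρ lam x) (hy : InD ρ lam y) {p2 p1 p0 : k}
    (hp : x ^ 3 = algebraMap k L p2 • x ^ 2 + algebraMap k L p1 • x + algebraMap k L p0 • 1)
    (hq : y ^ 3 = algebraMap k L p2 • y ^ 2 + algebraMap k L p1 • y + algebraMap k L p0 • 1)
    (hx2 : ∀ q1 q0 : k, x ^ 2 ≠ algebraMap k L q1 • x + algebraMap k L q0 • 1)
    (hy2 : ∀ q1 q0 : k, y ^ 2 ≠ algebraMap k L q1 • y + algebraMap k L q0 • 1) :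
    ∃ m : (MQ L a b)ˣ, InD ρ lam (m : MQ L a b) ∧ (m : MQ L a b) * x = y * m := sorry

/-! S2 (637, 64): the special linear group of `D ⊗ Q`. -/

theorem recip (w : Qt a b) (hw : w.re = 0) (hw0 : w ≠ 0) {y : (MQ L a b)ˣ}
    (hy : InD ρ lam (y : MQ L a b)) (hyw : (y : MQ L a b) * sc L w = sc L w * y)
    (hyn : nu (y : MQ L a b) = 1)
    (ht : Matrix.trace ((y⁻¹ : (MQ L a b)ˣ) : MQ L a b) = star (Matrix.trace (y : MQ L a b))) :
    InRes ρ lam c y := sorry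

/-- (a) -/
theorem inRes_D {z : (Matrix (Fin 3) (Fin 3) L)ˣ}
    (hz : InD0 ρ lam (z : Matrix (Fin 3) (Fin 3) L)) {m : (MQ L a b)ˣ}
    (hm : (m : MQ L a b) = toMQ (z : Matrix (Fin 3) (Fin 3) L)) (hn : nu (m : MQ L a b) = 1) :
    InRes ρ lam c m := sorry

/-- (b') -/
theorem inRes_QF {z : Matrix (Fin 3) (Fin 3) L} (hz : InD0 ρ lam z)
    (hzk : ∀ t : L, z ≠ t • (1 : Matrix (Fin 3) (Fin 3) L)) {q : (MQ L a b)ˣ}
    (hq : InD ρ lam (q : MQ L a b)) (hqz : (q : MQ L a b) * toMQ z = toMQ z * (q : MQ L a b))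
    (hn : nu (q : MQ L a b) = 1) : InRes ρ lam c q := sorry

/-- (b) -/
theorem inRes_DP (w : Qt a b) (hw : w.re = 0) (hw0 : w ≠ 0) {h : (MQ L a b)ˣ}
    (hh : InD ρ lam (h : MQ L a b)) (hhw : (h : MQ L a b) * sc L w = sc L w * h)
    (hn : nu (h : MQ L a b) = 1) : InRes ρ lam c h := sorry

/-- (c) -/
theorem inRes_DQ {x : (MQ L a b)ˣ} (hx : InD ρ lam (x : MQ L a b)) (hn : nu (x : MQ L a b) = 1) :
    InRes ρ lam c x := sorry

/-! GEN (342, 493): for every `h`, the space `V ∩ hV` contains a frame. -/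

theorem frm {h : AlbL L a b c ≃ₗ[L] AlbL L a b c} (hh : h ∈ GI ρ lam a b c) : Frm ρ lam h := sorry

/-! (553): the elements with a frame. -/

theorem res_of_frm (hgood : GoodQt a b c) {h : AlbL L a b c ≃ₗ[L] AlbL L a b c}
    (hh : h ∈ GI ρ lam a b c) (hg : Frm ρ lam h) : h ∈ Res ρ lam a b c := sorry

/-! Assembly. -/

theorem res_top : Res ρ lam a b c = GI ρ lam a b c := sorry

end main

theorem e6i_index {k L : Type} [Field k] [NumberField k] [Field L] [NumberField L] [Algebra k L]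
    {ρ : L ≃ₐ[k] L} {lam : kˣ} {a b c : kˣ} (H : Hyp ρ lam a b c)
    (N : Subgroup (GI ρ lam a b c)) (hN : N.index ≠ 0) : N = ⊤ := sorry

/-- Every noncentral normal subgroup is the whole group. -/
theorem e6i_normal {k L : Type} [Field k] [NumberField k] [Field L] [NumberField L] [Algebra k L]
    {ρ : L ≃ₐ[k] L} {lam : kˣ} {a b c : kˣ} (H : Hyp ρ lam a b c)
    (N : Subgroup (GI ρ lam a b c)) (hN : N.Normal) :
    N ≤ Subgroup.center (GI ρ lam a b c) ∨ N = ⊤ := sorry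

end Vale.Agent.P011.E6I.Spec
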