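import Vale.Agent.P011.E6.HitF2

/-!
Elementary transformations of the space of hermitian matrices of degree three over an octonion
algebra.
-/

namespace Vale.Agent.P011.E6I.Tv

open Vale.Agent.P011.MPQ Vale.Agent.P011.D4 Vale.Agent.P011.D4.Oct Vale.Agent.P011.E6
open Vale.Agent.P011.E6.Alb

variable {F : Type} [Field F] {a b c : Fˣ}

/-- Add `w` times the second row to the third row. -/
def loF (w : Oct a b c) (x : Alb a b c) : Alb a b c :=
  ⟨x.d1, x.d2, x.d3 + bil (w * x.x1) 1 + x.d2 * norm w, x.x1 + x.d2 • star w,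
    x.x2 + w * star x.x3, x.x3⟩

/-- Add `w` times the third row to the second row. -/
def hiF (w : Oct a b c) (x : Alb a b c) : Alb a b c :=
  ⟨x.d1, x.d2 + bil w x.x1 + x.d3 * norm w, x.d3, x.x1 + x.d3 • w, x.x2,
    x.x3 + star x.x2 * star w⟩

theorem bil_one (w : Oct a b c) (x : Oct a b c) : bil (w * x) 1 = bil x (star w) := by
  rw [bil_mul_left, mul_one]

theorem loF_zero (x : Alb a b c) : loF 0 x = x := by
  ext1 <;> simp [loF]

theorem hiF_zero (x : Alb a b c) : hiF 0 x = x := by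
  ext1 <;> simp [hiF]

theorem loF_loF (w v : Oct a b c) (x : Alb a b c) : loF w (loF v x) = loF (w + v) x := by
  ext1
  · rfl
  · rfl
  · show x.d3 + bil (v * x.x1) 1 + x.d2 * norm v + bil (w * (x.x1 + x.d2 • star v)) 1 +
      x.d2 * norm w = x.d3 + bil ((w + v) * x.x1) 1 + x.d2 * norm (w + v)
    rw [bil_one, bil_one, bil_one, bil_add_left, bil_smul_left, star_add, bil_add_right,
      bil_star_star, norm_add, bil_comm v w]
    ring
  · show x.x1 + x.d2 • star v + x.d2 • star w = x.x1 + x.d2 • star (w + v)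
    rw [star_add, smul_add]
    abel
  · show x.x2 + v * star x.x3 + w * star x.x3 = x.x2 + (w + v) * star x.x3
    rw [add_mul]
    abel
  · rfl

theorem hiF_hiF (w v : Oct a b c) (x : Alb a b c) : hiF w (hiF v x) = hiF (w + v) x := by
  ext1
  · rfl
  · show x.d2 + bil v x.x1 + x.d3 * norm v + bil w (x.x1 + x.d3 • v) + x.d3 * norm w =
      x.d2 + bil (w + v) x.x1 + x.d3 * norm (w + v)
    rw [bil_add_right, bil_smul_right, bil_add_left, norm_add]
    ring
  · rfl
  · show x.x1 + x.d3 • v + x.d3 • w = x.x1 + x.d3 • (w + v)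
    rw [smul_add]
    abel
  · rfl
  · show x.x3 + star x.x2 * star v + star x.x2 * star w = x.x3 + star x.x2 * star (w + v)
    rw [star_add, mul_add]
    abel

/-- Add `w` times the second row to the third row. -/
def lo (w : Oct a b c) : Alb a b c ≃ₗ[F] Alb a b c where
  toFun := loF w
  invFun := loF (-w)
  map_add' x y := by
    ext1
    · rfl
    · rfl
    · show x.d3 + y.d3 + bil (w * (x.x1 + y.x1)) 1 + (x.d2 + y.d2) * norm w =
        (x.d3 + bil (w * x.x1) 1 + x.d2 * norm w) + (y.d3 + bil (w * y.x1) 1 + y.d2 * norm w)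
      rw [mul_add, bil_add_left]
      ring
    · show x.x1 + y.x1 + (x.d2 + y.d2) • star w = x.x1 + x.d2 • star w + (y.x1 + y.d2 • star w)
      rw [add_smul]
      abel
    · show x.x2 + y.x2 + w * star (x.x3 + y.x3) = x.x2 + w * star x.x3 + (y.x2 + w * star y.x3)
      rw [star_add, mul_add]
      abel
    · rfl
  map_smul' t x := by
    ext1
    · rfl
    · rfl
    · show t * x.d3 + bil (w * (t • x.x1)) 1 + (t * x.d2) * norm w =
        t * (x.d3 + bil (w * x.x1) 1 + x.d2 * norm w)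
      rw [mul_smul_oct, bil_smul_left]
      ring
    · show t • x.x1 + (t * x.d2) • star w = t • (x.x1 + x.d2 • star w)
      rw [smul_add, smul_smul]
    · show t • x.x2 + w * star (t • x.x3) = t • (x.x2 + w * star x.x3)
      rw [star_smul_oct, mul_smul_oct, smul_add]
    · rfl
  left_inv x := by rw [loF_loF, neg_add_cancel, loF_zero]
  right_inv x := by rw [loF_loF, add_neg_cancel, loF_zero]

/-- Add `w` times the third row to the second row. -/
def hi (w : Oct a b c) : Alb a b c ≃ₗ[F] Alb a b c where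
  toFun := hiF w
  invFun := hiF (-w)
  map_add' x y := by
    ext1
    · rfl
    · show x.d2 + y.d2 + bil w (x.x1 + y.x1) + (x.d3 + y.d3) * norm w =
        (x.d2 + bil w x.x1 + x.d3 * norm w) + (y.d2 + bil w y.x1 + y.d3 * norm w)
      rw [bil_add_right]
      ring
    · rfl
    · show x.x1 + y.x1 + (x.d3 + y.d3) • w = x.x1 + x.d3 • w + (y.x1 + y.d3 • w)
      rw [add_smul]
      abel
    · rfl
    · show x.x3 + y.x3 + star (x.x2 + y.x2) * star w =
        x.x3 + star x.x2 * star w + (y.x3 + star y.x2 * star w)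
      rw [star_add, add_mul]
      abel
  map_smul' t x := by
    ext1
    · rfl
    · show t * x.d2 + bil w (t • x.x1) + (t * x.d3) * norm w =
        t * (x.d2 + bil w x.x1 + x.d3 * norm w)
      rw [bil_smul_right]
      ring
    · rfl
    · show t • x.x1 + (t * x.d3) • w = t • (x.x1 + x.d3 • w)
      rw [smul_add, smul_smul]
    · rfl
    · show t • x.x3 + star (t • x.x2) * star w = t • (x.x3 + star x.x2 * star w)
      rw [star_smul_oct, smul_mul_oct, smul_add]
  left_inv x := by rw [hiF_hiF, neg_add_cancel, hiF_zero]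
  right_inv x := by rw [hiF_hiF, add_neg_cancel, hiF_zero]

/-- The cyclic permutation of the rows. -/
def cyc (a b c : Fˣ) : Alb a b c ≃ₗ[F] Alb a b c where
  toFun x := ⟨x.d2, x.d3, x.d1, x.x2, x.x3, x.x1⟩
  invFun x := ⟨x.d3, x.d1, x.d2, x.x3, x.x1, x.x2⟩
  map_add' _ _ := rfl
  map_smul' _ _ := rfl
  left_inv _ := rfl
  right_inv _ := rfl

theorem cub_lo (w : Oct a b c) (x : Alb a b c) : cub (lo w x) = cub x := by
  show x.d1 * x.d2 * (x.d3 + bil (w * x.x1) 1 + x.d2 * norm w) -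
    x.d1 * norm (x.x1 + x.d2 • star w) - x.d2 * norm (x.x2 + w * star x.x3) -
    (x.d3 + bil (w * x.x1) 1 + x.d2 * norm w) * norm x.x3 +
    bil ((x.x1 + x.d2 • star w) * (x.x2 + w * star x.x3) * x.x3) 1 =
    x.d1 * x.d2 * x.d3 - x.d1 * norm x.x1 - x.d2 * norm x.x2 - x.d3 * norm x.x3 +
      bil (x.x1 * x.x2 * x.x3) 1
  have e1 : bil ((x.x1 + x.d2 • star w) * (x.x2 + w * star x.x3) * x.x3) 1 =
      bil (x.x1 * x.x2 * x.x3) 1 + norm x.x3 * bil x.x1 (star w) +
        x.d2 * bil (star w * x.x2) (star x.x3) + 2 * (x.d2 * norm w * norm x.x3) := by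
    have h0 : ∀ u v : Oct a b c, bil (u * v * x.x3) 1 = bil (u * v) (star x.x3) := fun u v => by
      rw [bil_mul_left', one_mul]
    rw [h0, h0, add_mul, mul_add, mul_add, bil_add_left, bil_add_left, bil_add_left,
      smul_mul_oct, smul_mul_oct, bil_smul_left, bil_smul_left, star_mul_mul, bil_smul_left,
      bil_self, Oct.norm_star, bil_mul_left' x.x1 (w * star x.x3), star_mul, star_star,
      star_mul_mul, bil_smul_right]
    ring
  have e2 : bil x.x2 (w * star x.x3) = bil (star w * x.x2) (star x.x3) := bil_mul_right _ _ _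
  rw [e1, norm_add, Oct.norm_smul, Oct.norm_star, bil_smul_right, norm_add, Oct.norm_mul,
    Oct.norm_star, bil_one, e2]
  ring

theorem cub_hi (w : Oct a b c) (x : Alb a b c) : cub (hi w x) = cub x := by
  show x.d1 * (x.d2 + bil w x.x1 + x.d3 * norm w) * x.d3 -
    x.d1 * norm (x.x1 + x.d3 • w) - (x.d2 + bil w x.x1 + x.d3 * norm w) * norm x.x2 -
    x.d3 * norm (x.x3 + star x.x2 * star w) +
    bil ((x.x1 + x.d3 • w) * x.x2 * (x.x3 + star x.x2 * star w)) 1 =
    x.d1 * x.d2 * x.d3 - x.d1 * norm x.x1 - x.d2 * norm x.x2 - x.d3 * norm x.x3 +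
      bil (x.x1 * x.x2 * x.x3) 1
  have h0 : ∀ u v z : Oct a b c, bil (u * v * z) 1 = bil (u * v) (star z) := fun u v z => by
    rw [bil_mul_left', one_mul]
  have e1 : bil ((x.x1 + x.d3 • w) * x.x2 * (x.x3 + star x.x2 * star w)) 1 =
      bil (x.x1 * x.x2 * x.x3) 1 + norm x.x2 * bil x.x1 w +
        x.d3 * bil (w * x.x2) (star x.x3) + 2 * (x.d3 * norm w * norm x.x2) := by
    rw [h0, h0, star_add, star_mul, star_star, star_star, add_mul, bil_add_left, bil_add_right,
      bil_add_right, smul_mul_oct, bil_smul_left, bil_smul_left, bil_mul_mul_right, bil_self,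
      Oct.norm_mul]
    ring
  have e2 : bil x.x3 (star x.x2 * star w) = bil (w * x.x2) (star x.x3) := by
    rw [← star_mul, ← bil_star_left, bil_comm]
  rw [e1, norm_add, Oct.norm_smul, bil_smul_right, norm_add, Oct.norm_mul, Oct.norm_star,
    Oct.norm_star, bil_comm w, e2]
  ring

theorem cub_cyc (x : Alb a b c) : cub (cyc a b c x) = cub x := by
  show x.d2 * x.d3 * x.d1 - x.d2 * norm x.x2 - x.d3 * norm x.x3 - x.d1 * norm x.x1 +
    bil (x.x2 * x.x3 * x.x1) 1 = x.d1 * x.d2 * x.d3 - x.d1 * norm x.x1 - x.d2 * norm x.x2 -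
      x.d3 * norm x.x3 + bil (x.x1 * x.x2 * x.x3) 1
  rw [← tri1 x.x1, ← tri3 x.x2 x.x3 x.x1]
  ring

/-- Add `w` times the third row to the first row. -/
def lo1 (w : Oct a b c) : Alb a b c ≃ₗ[F] Alb a b c := (cyc a b c)⁻¹ * lo w * cyc a b c

/-- Add `w` times the first row to the second row. -/
def lo2 (w : Oct a b c) : Alb a b c ≃ₗ[F] Alb a b c := cyc a b c * lo w * (cyc a b c)⁻¹

/-- Add `w` times the first row to the third row. -/
def hi1 (w : Oct a b c) : Alb a b c ≃ₗ[F] Alb a b c := (cyc a b c)⁻¹ * hi w * cyc a b c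

/-- Add `w` times the second row to the first row. -/
def hi2 (w : Oct a b c) : Alb a b c ≃ₗ[F] Alb a b c := cyc a b c * hi w * (cyc a b c)⁻¹

/-! Explicit forms. -/

theorem lo_apply (w : Oct a b c) (x : Alb a b c) : lo w x =
    ⟨x.d1, x.d2, x.d3 + bil (w * x.x1) 1 + x.d2 * norm w, x.x1 + x.d2 • star w,
      x.x2 + w * star x.x3, x.x3⟩ := rfl

theorem hi_apply (w : Oct a b c) (x : Alb a b c) : hi w x =
    ⟨x.d1, x.d2 + bil w x.x1 + x.d3 * norm w, x.d3, x.x1 + x.d3 • w, x.x2,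
      x.x3 + star x.x2 * star w⟩ := rfl

theorem lo1_apply (w : Oct a b c) (x : Alb a b c) : lo1 w x =
    ⟨x.d1 + bil (w * x.x2) 1 + x.d3 * norm w, x.d2, x.d3, x.x1, x.x2 + x.d3 • star w,
      x.x3 + w * star x.x1⟩ := rfl

theorem lo2_apply (w : Oct a b c) (x : Alb a b c) : lo2 w x =
    ⟨x.d1, x.d2 + bil (w * x.x3) 1 + x.d1 * norm w, x.d3, x.x1 + w * star x.x2, x.x2,
      x.x3 + x.d1 • star w⟩ := rfl

theorem hi1_apply (w : Oct a b c) (x : Alb a b c) : hi1 w x =
    ⟨x.d1, x.d2, x.d3 + bil w x.x2 + x.d1 * norm w, x.x1 + star x.x3 * star w,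
      x.x2 + x.d1 • w, x.x3⟩ := rfl

theorem hi2_apply (w : Oct a b c) (x : Alb a b c) : hi2 w x =
    ⟨x.d1 + bil w x.x3 + x.d2 * norm w, x.d2, x.d3, x.x1, x.x2 + star x.x1 * star w,
      x.x3 + x.d2 • w⟩ := rfl

/-- The six families of elementary transformations: `w` times row `s` is added to row `r`, where
`(r, s)` is `(3, 2)`, `(2, 3)`, `(2, 1)`, `(1, 2)`, `(1, 3)`, `(3, 1)`. -/
def tv (i : Fin 6) (w : Oct a b c) : Alb a b c ≃ₗ[F] Alb a b c :=
  match i with
  | 0 => lo w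
  | 1 => hi w
  | 2 => lo2 w
  | 3 => hi2 w
  | 4 => lo1 w
  | 5 => hi1 w

@[simp] theorem tv0_apply (w : Oct a b c) (x : Alb a b c) : tv 0 w x =
    ⟨x.d1, x.d2, x.d3 + bil (w * x.x1) 1 + x.d2 * norm w, x.x1 + x.d2 • star w,
      x.x2 + w * star x.x3, x.x3⟩ := rfl

@[simp] theorem tv1_apply (w : Oct a b c) (x : Alb a b c) : tv 1 w x =
    ⟨x.d1, x.d2 + bil w x.x1 + x.d3 * norm w, x.d3, x.x1 + x.d3 • w, x.x2,
      x.x3 + star x.x2 * star w⟩ := rfl

@[simp] theorem tv2_apply (w : Oct a b c) (x : Alb a b c) : tv 2 w x =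
    ⟨x.d1, x.d2 + bil (w * x.x3) 1 + x.d1 * norm w, x.d3, x.x1 + w * star x.x2, x.x2,
      x.x3 + x.d1 • star w⟩ := rfl

@[simp] theorem tv3_apply (w : Oct a b c) (x : Alb a b c) : tv 3 w x =
    ⟨x.d1 + bil w x.x3 + x.d2 * norm w, x.d2, x.d3, x.x1, x.x2 + star x.x1 * star w,
      x.x3 + x.d2 • w⟩ := rfl

@[simp] theorem tv4_apply (w : Oct a b c) (x : Alb a b c) : tv 4 w x =
    ⟨x.d1 + bil (w * x.x2) 1 + x.d3 * norm w, x.d2, x.d3, x.x1, x.x2 + x.d3 • star w,
      x.x3 + w * star x.x1⟩ := rfl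

@[simp] theorem tv5_apply (w : Oct a b c) (x : Alb a b c) : tv 5 w x =
    ⟨x.d1, x.d2, x.d3 + bil w x.x2 + x.d1 * norm w, x.x1 + star x.x3 * star w,
      x.x2 + x.d1 • w, x.x3⟩ := rfl

theorem cub_tv (i : Fin 6) (w : Oct a b c) (x : Alb a b c) : cub (tv i w x) = cub x := by
  have h1 : ∀ y : Alb a b c, cub ((cyc a b c)⁻¹ y) = cub y := fun y => by
    rw [← cub_cyc ((cyc a b c)⁻¹ y)]
    rfl
  fin_cases i
  · exact cub_lo w x
  · exact cub_hi w x
  · exact (cub_cyc _).trans ((cub_lo w _).trans (h1 x))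
  · exact (cub_cyc _).trans ((cub_hi w _).trans (h1 x))
  · exact (h1 _).trans ((cub_lo w _).trans (cub_cyc x))
  · exact (h1 _).trans ((cub_hi w _).trans (cub_cyc x))

theorem lo_add (w v : Oct a b c) : lo (w + v) = lo w * lo v :=
  LinearEquiv.ext fun x => (loF_loF w v x).symm

theorem hi_add (w v : Oct a b c) : hi (w + v) = hi w * hi v :=
  LinearEquiv.ext fun x => (hiF_hiF w v x).symm

theorem tv_add (i : Fin 6) (w v : Oct a b c) : tv i (w + v) = tv i w * tv i v := by
  fin_cases i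
  · exact lo_add w v
  · exact hi_add w v
  · show lo2 (w + v) = lo2 w * lo2 v
    rw [lo2, lo2, lo2, lo_add]
    group
  · show hi2 (w + v) = hi2 w * hi2 v
    rw [hi2, hi2, hi2, hi_add]
    group
  · show lo1 (w + v) = lo1 w * lo1 v
    rw [lo1, lo1, lo1, lo_add]
    group
  · show hi1 (w + v) = hi1 w * hi1 v
    rw [hi1, hi1, hi1, hi_add]
    group

/-- The group generated by the elementary transformations. -/
def El (a b c : Fˣ) : Subgroup (Alb a b c ≃ₗ[F] Alb a b c) :=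
  Subgroup.closure {ψ | ∃ i w, ψ = tv i w}

theorem tv_mem (i : Fin 6) (w : Oct a b c) : tv i w ∈ El a b c :=
  Subgroup.subset_closure ⟨i, w, rfl⟩

theorem lo_mem (w : Oct a b c) : lo w ∈ El a b c := tv_mem 0 w
theorem hi_mem (w : Oct a b c) : hi w ∈ El a b c := tv_mem 1 w
theorem lo2_mem (w : Oct a b c) : lo2 w ∈ El a b c := tv_mem 2 w
theorem hi2_mem (w : Oct a b c) : hi2 w ∈ El a b c := tv_mem 3 w
theorem lo1_mem (w : Oct a b c) : lo1 w ∈ El a b c := tv_mem 4 w
theorem hi1_mem (w : Oct a b c) : hi1 w ∈ El a b c := tv_mem 5 w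

theorem cyc_conj {ψ : Alb a b c ≃ₗ[F] Alb a b c} (h : ψ ∈ El a b c) :
    cyc a b c * ψ * (cyc a b c)⁻¹ ∈ El a b c := by
  refine Subgroup.closure_induction (p := fun ψ _ => cyc a b c * ψ * (cyc a b c)⁻¹ ∈
    El a b c) ?_ ?_ ?_ ?_ h
  · rintro _ ⟨j, w, rfl⟩
    fin_cases j
    · exact lo2_mem w
    · exact hi2_mem w
    · exact lo1_mem w
    · exact hi1_mem w
    · exact lo_mem w
    · exact hi_mem w
  · rw [mul_one, mul_inv_cancel]
    exact one_mem _
  · intro x y _ _ hx hy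
    have e : cyc a b c * (x * y) * (cyc a b c)⁻¹ =
        (cyc a b c * x * (cyc a b c)⁻¹) * (cyc a b c * y * (cyc a b c)⁻¹) := by
      group
    rw [e]
    exact mul_mem hx hy
  · intro x _ hx
    have e : cyc a b c * x⁻¹ * (cyc a b c)⁻¹ = (cyc a b c * x * (cyc a b c)⁻¹)⁻¹ := by
      group
    rw [e]
    exact inv_mem hx

theorem cyc_conj' {ψ : Alb a b c ≃ₗ[F] Alb a b c} (h : ψ ∈ El a b c) :
    (cyc a b c)⁻¹ * ψ * cyc a b c ∈ El a b c :=
  cyc_conj (cyc_conj h)

/-- The maps that preserve the cubic norm. -/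
def Iso (a b c : Fˣ) : Subgroup (Alb a b c ≃ₗ[F] Alb a b c) where
  carrier := {φ | ∀ x, cub (φ x) = cub x}
  mul_mem' := by
    intro φ ψ h1 h2 x
    rw [LinearEquiv.mul_apply, h1, h2]
  one_mem' := fun _ => rfl
  inv_mem' := by
    intro φ h x
    rw [← h (φ⁻¹ x), ← LinearEquiv.mul_apply, mul_inv_cancel]
    rfl

theorem el_le : El a b c ≤ Iso a b c := by
  rw [El, Subgroup.closure_le]
  rintro _ ⟨j, w, rfl⟩
  exact cub_tv j w

end Vale.Agent.P011.E6I.Tv
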