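import Vale.Agent.P011.E6I.TvRank
import Vale.Agent.P011.E6.Pos3

/-!
The frames: over the real numbers, the group generated by the elementary transformations is
transitive on the images of the three diagonal idempotents.
-/

open Matrix

namespace Vale.Agent.P011.E6I.Tv

open Vale.Agent.P011.MPQ Vale.Agent.P011.D4 Vale.Agent.P011.D4.Oct Vale.Agent.P011.E6
open Vale.Agent.P011.E6.Alb

section any

variable {F : Type} [Field F] {a b c : Fˣ}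

theorem e1_ne : (e1 : Alb a b c) ≠ 0 := fun h => one_ne_zero (congrArg d1 h)
theorem e2_ne : (e2 : Alb a b c) ≠ 0 := fun h => one_ne_zero (congrArg d2 h)
theorem e3_ne : (e3 : Alb a b c) ≠ 0 := fun h => one_ne_zero (congrArg d3 h)

theorem lo_e1 (w : Oct a b c) : lo w e1 = e1 := by
  apply Alb.ext <;> simp [lo_apply, e1]

theorem hi_e1 (w : Oct a b c) : hi w e1 = e1 := by
  apply Alb.ext <;> simp [hi_apply, e1]

theorem hi_e2 (w : Oct a b c) : hi w e2 = e2 := by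
  apply Alb.ext <;> simp [hi_apply, e2]

theorem lo1_e1 (w : Oct a b c) : lo1 w e1 = e1 := by
  apply Alb.ext <;> simp [lo1_apply, e1]

theorem lo1_e2 (w : Oct a b c) : lo1 w e2 = e2 := by
  apply Alb.ext <;> simp [lo1_apply, e2]

theorem hi2_e1 (w : Oct a b c) : hi2 w e1 = e1 := by
  apply Alb.ext <;> simp [hi2_apply, e1]

theorem Dg_e1 {s : F} (hs : s ≠ 0) : (Dg s : Alb a b c ≃ₗ[F] Alb a b c) e1 = e1 := by
  rw [Dg_apply hs]
  apply Alb.ext <;> simp [e1]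

theorem Dg_e2 {s : F} (hs : s ≠ 0) : (Dg s : Alb a b c ≃ₗ[F] Alb a b c) e2 = s ^ 2 • e2 := by
  rw [Dg_apply hs]
  apply Alb.ext <;> simp [e2]

theorem frame2_aux [NeZero (2 : F)] {y : Alb a b c} (hy : adj y = 0) (h2 : y.d2 ≠ 0) :
    ∃ γ ∈ El a b c, γ e1 = e1 ∧ γ y = y.d2 • e2 := by
  have hm := mul_mem (hi2_mem (-(y.d2⁻¹) • (lo (-(y.d2⁻¹) • star y.x1) y).x3))
    (lo_mem (-(y.d2⁻¹) • star y.x1))
  refine ⟨_, hm, ?_, ?_⟩
  · rw [LinearEquiv.mul_apply, lo_e1, hi2_e1]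
  have hadj := adj_eq (adj_map_zero (el_cub hm) hy)
  rw [LinearEquiv.mul_apply] at hadj ⊢
  set z := lo (-(y.d2⁻¹) • star y.x1) y with hz
  have z2 : z.d2 = y.d2 := rfl
  have z1 : z.x1 = 0 := by
    show y.x1 + y.d2 • star (-(y.d2⁻¹) • star y.x1) = 0
    rw [star_smul_oct, star_star, smul_smul, mul_neg, mul_inv_cancel₀ h2, neg_one_smul,
      add_neg_cancel]
  set v := hi2 (-(y.d2⁻¹) • z.x3) z with hv
  have v2 : v.d2 = y.d2 := rfl
  have v1 : v.x1 = 0 := z1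
  have v3 : v.x3 = 0 := by
    show z.x3 + z.d2 • (-(y.d2⁻¹) • z.x3) = 0
    rw [z2, smul_smul, mul_neg, mul_inv_cancel₀ h2, neg_one_smul, add_neg_cancel]
  obtain ⟨k1, -, k3, -, k5, -⟩ := hadj
  rw [v2, v1, Oct.norm_zero] at k1
  rw [v2, v3, Oct.norm_zero] at k3
  rw [v2, v1, mul_zero, star_zero] at k5
  have d3' : v.d3 = 0 := (mul_eq_zero.1 k1).resolve_left h2
  have d1' : v.d1 = 0 := (mul_eq_zero.1 k3).resolve_right h2
  have x2' : v.x2 = 0 := (smul_eq_zero.1 k5.symm).resolve_left h2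
  apply Alb.ext
  · simp [d1', e2]
  · simp [v2, e2]
  · simp [d3', e2]
  · simp [v1, e2]
  · simp [x2', e2]
  · simp [v3, e2]

theorem frame2 [NeZero (2 : F)] (hdiv : Division a b c) {φ : Alb a b c ≃ₗ[F] Alb a b c}
    (h : ∀ x, cub (φ x) = cub x) (h1 : φ e1 = e1) :
    ∃ γ ∈ El a b c, ∃ t : F, t ≠ 0 ∧ γ e1 = e1 ∧ γ (φ e2) = t • e2 := by
  have hy : adj (φ e2) = 0 := adj_map_zero h adj_e2
  have hc := tf_cross_map h e1 e2 e3
  rw [h1, cross_e1, cross_e1] at hc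
  obtain ⟨k1, -⟩ := adj_eq hy
  by_cases h2 : (φ e2).d2 = 0
  · rw [h2, zero_mul] at k1
    have x1' := hdiv _ k1.symm
    have h3 : (φ e2).d3 ≠ 0 := by
      intro h3
      rw [h2, h3, x1'] at hc
      simp [tf, e2, e3] at hc
    have hd : (hi 1 (φ e2)).d2 = (φ e2).d3 := by
      show (φ e2).d2 + bil 1 (φ e2).x1 + (φ e2).d3 * Oct.norm (1 : Oct a b c) = (φ e2).d3
      rw [h2, x1', bil_zero_right, Oct.norm_one]
      ring
    obtain ⟨γ, hγ, g1, g2⟩ := frame2_aux (adj_map_zero (el_cub (hi_mem 1)) hy)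
      (by rw [hd]; exact h3)
    refine ⟨γ * hi 1, mul_mem hγ (hi_mem 1), _, ?_, ?_, g2⟩
    · rw [hd]
      exact h3
    · rw [LinearEquiv.mul_apply, hi_e1, g1]
  · obtain ⟨γ, hγ, g1, g2⟩ := frame2_aux hy h2
    exact ⟨γ, hγ, _, h2, g1, g2⟩

theorem frame3 [NeZero (2 : F)] {φ : Alb a b c ≃ₗ[F] Alb a b c}
    (h : ∀ x, cub (φ x) = cub x) (h1 : φ e1 = e1) (h2 : φ e2 = e2) :
    ∃ γ ∈ El a b c, γ e1 = e1 ∧ γ e2 = e2 ∧ γ (φ e3) = e3 := by
  have hy : adj (φ e3) = 0 := adj_map_zero h adj_e3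
  have hc := tf_cross_map h e1 e2 e3
  rw [h1, h2, cross_e1] at hc
  have hd3 : (φ e3).d3 = 1 := by
    simpa [tf, e2, e3] using hc
  set y := φ e3 with hy'
  have hm := mul_mem (lo1_mem (-star (hi (-y.x1) y).x2)) (hi_mem (-y.x1))
  refine ⟨_, hm, ?_, ?_, ?_⟩
  · rw [LinearEquiv.mul_apply, hi_e1, lo1_e1]
  · rw [LinearEquiv.mul_apply, hi_e2, lo1_e2]
  have hadj := adj_eq (adj_map_zero (el_cub hm) hy)
  rw [LinearEquiv.mul_apply] at hadj ⊢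
  set z := hi (-y.x1) y with hz
  have z3 : z.d3 = 1 := hd3
  have z1 : z.x1 = 0 := by
    show y.x1 + y.d3 • -y.x1 = 0
    rw [hd3, one_smul, add_neg_cancel]
  set v := lo1 (-star z.x2) z with hv
  have v3 : v.d3 = 1 := hd3
  have v1 : v.x1 = 0 := z1
  have v2 : v.x2 = 0 := by
    show z.x2 + z.d3 • star (-star z.x2) = 0
    rw [z3, one_smul, star_neg, star_star, add_neg_cancel]
  obtain ⟨k1, k2, -, -, -, k6⟩ := hadj
  rw [v3, v1, Oct.norm_zero, mul_one] at k1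
  rw [v3, v2, Oct.norm_zero, one_mul] at k2
  rw [v3, v1, zero_mul, star_zero, one_smul] at k6
  apply Alb.ext
  · simp [k2, e3]
  · simp [k1, e3]
  · simp [v3, e3]
  · simp [v1, e3]
  · simp [v2, e3]
  · simp [← k6, e3]

end any

section real

variable {a b c : ℝˣ}

theorem ofF_e1 {F : Type} [Field F] {a b c : Fˣ} (t : F) :
    (ofF (t • vecMulVec ![1, 0, 0] ![1, 0, 0]) : Alb a b c) = t • e1 := by
  apply Alb.ext <;> simp [ofF, e1]

theorem ofF_e2 {F : Type} [Field F] {a b c : Fˣ} (t : F) :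
    (ofF (t • vecMulVec ![0, 1, 0] ![0, 1, 0]) : Alb a b c) = t • e2 := by
  apply Alb.ext <;> simp [ofF, e2]

theorem exists_sq {t : ℝ} (ht : 0 < t) : ∃ s : ℝ, s ≠ 0 ∧ t * s ^ 2 = 1 := by
  refine ⟨(Real.sqrt t)⁻¹, inv_ne_zero (Real.sqrt_ne_zero'.2 ht), ?_⟩
  rw [inv_pow, Real.sq_sqrt ht.le, mul_inv_cancel₀ ht.ne']

theorem div_of_dfn (hd : Dfn (RingHom.id ℝ) a b c) : Division a b c := by
  intro x hx
  by_contra h0
  have h1 := hd.defAt x h0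
  rw [hx, map_zero] at h1
  exact lt_irrefl _ h1

theorem frame1 (hd : Dfn (RingHom.id ℝ) a b c) {φ : Alb a b c ≃ₗ[ℝ] Alb a b c}
    (h : ∀ x, cub (φ x) = cub x) : ∃ γ ∈ El a b c, γ (φ e1) = e1 := by
  obtain ⟨γ, hγ, t, -, e⟩ := rank_one (div_of_dfn hd) (adj_map_zero h adj_e1)
    (fun h0 => e1_ne (φ.map_eq_zero_iff.1 h0))
  have h1 : ∀ x, cub ((γ * φ) x) = cub x := fun x => by
    rw [LinearEquiv.mul_apply, el_cub hγ, h]
  have ht : 0 < t := Lit.sign_of_orbit (RingHom.id ℝ) hd h1 (u := ![1, 0, 0])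
    (by rw [ofF_e1]; exact e)
  obtain ⟨s, hs, hst⟩ := exists_sq ht
  refine ⟨cyc a b c * Dg s * (cyc a b c)⁻¹ * γ, mul_mem (cyc_conj (Dg_mem s)) hγ, ?_⟩
  have e' : cyc a b c (Dg s ((cyc a b c)⁻¹ (t • e1))) = e1 := by
    have k1 : (cyc a b c)⁻¹ (t • e1) = t • e2 := rfl
    rw [k1, map_smul, Dg_e2 hs, smul_smul, hst, one_smul]
    rfl
  show cyc a b c (Dg s ((cyc a b c)⁻¹ (γ (φ e1)))) = e1
  rw [e, e']

theorem frame2' (hd : Dfn (RingHom.id ℝ) a b c) {φ : Alb a b c ≃ₗ[ℝ] Alb a b c}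
    (h : ∀ x, cub (φ x) = cub x) (h1 : φ e1 = e1) :
    ∃ γ ∈ El a b c, γ e1 = e1 ∧ γ (φ e2) = e2 := by
  obtain ⟨γ, hγ, t, -, g1, e⟩ := frame2 (div_of_dfn hd) h h1
  have h2 : ∀ x, cub ((γ * φ) x) = cub x := fun x => by
    rw [LinearEquiv.mul_apply, el_cub hγ, h]
  have ht : 0 < t := sign_of_orbit2 (RingHom.id ℝ) hd h2 (u := ![0, 1, 0])
    (by rw [ofF_e2]; exact e)
  obtain ⟨s, hs, hst⟩ := exists_sq ht
  refine ⟨Dg s * γ, mul_mem (Dg_mem s) hγ, ?_, ?_⟩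
  · rw [LinearEquiv.mul_apply, g1, Dg_e1 hs]
  · rw [LinearEquiv.mul_apply, e, map_smul, Dg_e2 hs, smul_smul, hst, one_smul]

/-- Every map that preserves the cubic norm can be changed so that it fixes the three
idempotents. -/
theorem frame (hd : Dfn (RingHom.id ℝ) a b c) {φ : Alb a b c ≃ₗ[ℝ] Alb a b c}
    (h : ∀ x, cub (φ x) = cub x) :
    ∃ γ ∈ El a b c, (γ * φ) e1 = e1 ∧ (γ * φ) e2 = e2 ∧ (γ * φ) e3 = e3 := by
  obtain ⟨γ1, hγ1, k1⟩ := frame1 hd h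
  have h1 : ∀ x, cub ((γ1 * φ) x) = cub x := fun x => by
    rw [LinearEquiv.mul_apply, el_cub hγ1, h]
  obtain ⟨γ2, hγ2, k2, k3⟩ := frame2' hd h1 k1
  have h2 : ∀ x, cub ((γ2 * (γ1 * φ)) x) = cub x := fun x => by
    rw [LinearEquiv.mul_apply, el_cub hγ2, h1]
  have k4 : (γ2 * (γ1 * φ)) e1 = e1 := by
    rw [LinearEquiv.mul_apply, LinearEquiv.mul_apply, k1, k2]
  obtain ⟨γ3, hγ3, m1, m2, m3⟩ := frame3 h2 k4 k3
  refine ⟨γ3 * γ2 * γ1, mul_mem (mul_mem hγ3 hγ2) hγ1, ?_, ?_, m3⟩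
  · show γ3 ((γ2 * (γ1 * φ)) e1) = e1
    rw [k4, m1]
  · show γ3 ((γ2 * (γ1 * φ)) e2) = e2
    rw [show (γ2 * (γ1 * φ)) e2 = e2 from k3, m2]

end real

end Vale.Agent.P011.E6I.Tv
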