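import Vale.Agent.P011.E6I.TvFrame

/-!
Over the real numbers, the maps that preserve the cubic norm are products of elementary
transformations.
-/

namespace Vale.Agent.P011.E6I.Tv

open Vale.Agent.P011.MPQ Vale.Agent.P011.D4 Vale.Agent.P011.D4.Oct Vale.Agent.P011.E6
open Vale.Agent.P011.E6.Alb

section oct

variable {F : Type} [Field F] [NeZero (2 : F)] {a b c : Fˣ}

theorem nucleus {p : Oct a b c} (hp : ∀ y z, y * (p * z) = (y * p) * z) :
    ∃ s : F, p = s • (1 : Oct a b c) := by
  have h2 : (2 : F) ≠ 0 := NeZero.ne 2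
  have ha := a.ne_zero
  have hb := b.ne_zero
  have hz : ∀ t : F, t = -t → t = 0 := fun t ht => by
    have : 2 * t = 0 := by linear_combination ht
    exact (mul_eq_zero.1 this).resolve_left h2
  have h1 := hp ⟨⟨0, 1, 0, 0⟩, 0⟩ ⟨⟨0, 0, 1, 0⟩, 0⟩
  have h3 := hp ⟨⟨0, 1, 0, 0⟩, 0⟩ ⟨0, ⟨1, 0, 0, 0⟩⟩
  have h4 := hp ⟨⟨0, 0, 1, 0⟩, 0⟩ ⟨0, ⟨1, 0, 0, 0⟩⟩
  have k1 := congrArg (fun x => x.snd.re) h1
  have k2 := congrArg (fun x => x.snd.imI) h1
  have k3 := congrArg (fun x => x.snd.imJ) h1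
  have k4 := congrArg (fun x => x.snd.imK) h1
  have m2 := congrArg (fun x => x.snd.imJ) h3
  have m3 := congrArg (fun x => x.snd.imK) h3
  have m4 := congrArg (fun x => x.snd.imK) h4
  simp at k1 k2 k3 k4 m2 m3 m4
  have n1 : p.snd.imK = 0 := by
    have := hz _ (show (a : F) * (b * p.snd.imK) = -((a : F) * (b * p.snd.imK)) by
      linear_combination -k1)
    simpa [ha, hb] using this
  have n2 : p.snd.imJ = 0 := by
    have := hz _ k2.symm
    simpa [hb] using this
  have n3 : p.snd.imI = 0 := by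
    have := hz _ k3
    simpa [ha] using this
  have n4 := hz _ k4
  have n5 : p.fst.imK = 0 := by
    have := hz _ m2.symm
    simpa [ha] using this
  have n6 := hz _ m3.symm
  have n7 := hz _ m4
  exact ⟨p.fst.re, ext8 (by simp) (by simp [n7]) (by simp [n6]) (by simp [n5]) (by simp [n4])
    (by simp [n3]) (by simp [n2]) (by simp [n1])⟩

theorem centre {p : Oct a b c} (hp : ∀ y, p * y = y * p) : ∃ s : F, p = s • (1 : Oct a b c) := by
  have h2 : (2 : F) ≠ 0 := NeZero.ne 2
  have ha := a.ne_zero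
  have hb := b.ne_zero
  have hz : ∀ t : F, t = -t → t = 0 := fun t ht => by
    have : 2 * t = 0 := by linear_combination ht
    exact (mul_eq_zero.1 this).resolve_left h2
  have h1 := hp ⟨⟨0, 1, 0, 0⟩, 0⟩
  have h3 := hp ⟨0, ⟨1, 0, 0, 0⟩⟩
  have k1 := congrArg (fun x => x.snd.re) h1
  have k2 := congrArg (fun x => x.snd.imI) h1
  have k3 := congrArg (fun x => x.snd.imJ) h1
  have k4 := congrArg (fun x => x.snd.imK) h1
  have m2 := congrArg (fun x => x.snd.imI) h3
  have m3 := congrArg (fun x => x.snd.imJ) h3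
  have m4 := congrArg (fun x => x.snd.imK) h3
  simp at k1 k2 k3 k4 m2 m3 m4
  have n1 : p.snd.imI = 0 := by
    have := hz _ k1.symm
    simpa [ha] using this
  have n2 := hz _ k2.symm
  have n3 : p.snd.imK = 0 := by
    have := hz _ k3
    simpa [ha] using this
  have n4 := hz _ k4
  exact ⟨p.fst.re, ext8 (by simp) (by simp [hz _ m2]) (by simp [hz _ m3]) (by simp [hz _ m4])
    (by simp [n2]) (by simp [n1]) (by simp [n4]) (by simp [n3])⟩

theorem not_comm : ¬ ∀ x y : Oct a b c, x * y = y * x := by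
  intro h
  have h2 : (2 : F) ≠ 0 := NeZero.ne 2
  have h1 := congrArg (fun x => x.fst.imK) (h ⟨⟨0, 1, 0, 0⟩, 0⟩ ⟨⟨0, 0, 1, 0⟩, 0⟩)
  simp at h1
  apply h2
  linear_combination h1

/-- The maps that fix the idempotents and the first coordinate. -/
theorem fixed_one {t' t'' : Oct a b c → Oct a b c} (h : ∀ y z, t' y * t'' z = y * z) :
    ∃ s : F, s ≠ 0 ∧ (∀ y, t' y = s⁻¹ • y) ∧ ∀ z, t'' z = s • z := by
  set p := t'' 1 with hp
  set q := t' 1 with hq
  have h1 : q * p = 1 := by rw [h, mul_one]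
  have hn : norm p ≠ 0 := by
    intro h0
    have := congrArg Oct.norm h1
    rw [Oct.norm_mul, h0, mul_zero, Oct.norm_one] at this
    exact zero_ne_one this
  have ht' : ∀ y, norm p • t' y = y * star p := fun y => by
    rw [← mul_mul_star, hp, h, mul_one]
  have hq' : norm p • q = star p := by rw [hq, ht', one_mul]
  have hq2 : norm q * norm p = 1 := by rw [← Oct.norm_mul, h1, Oct.norm_one]
  have ht'' : ∀ z, t'' z = p * z := fun z => by
    have h2 : norm q • t'' z = star q * z := by rw [← star_mul_mul, hq, h, one_mul]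
    have h3 : norm p • star q = p := by rw [← star_smul_oct, hq', star_star]
    calc t'' z = norm p • (norm q • t'' z) := by
          rw [smul_smul, mul_comm, hq2, one_smul]
      _ = p * z := by rw [h2, ← smul_mul_oct, h3]
  have hnuc : ∀ y z, y * (p * z) = (y * p) * z := by
    intro y z
    have h2 := h (y * p) z
    have h3 : norm p • t' (y * p) = norm p • y := by rw [ht', mul_mul_star]
    have h4 : t' (y * p) = y := by
      have := congrArg (fun x => (norm p)⁻¹ • x) h3
      simpa [smul_smul, inv_mul_cancel₀ hn] using this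
    rwa [h4, ht''] at h2
  obtain ⟨s, hs⟩ := nucleus hnuc
  have hn' : norm p = s ^ 2 := by rw [hs, Oct.norm_smul, Oct.norm_one, mul_one]
  have hs0 : s ≠ 0 := by
    rintro rfl
    apply hn
    rw [hn']
    ring
  refine ⟨s, hs0, fun y => ?_, fun z => ?_⟩
  · have h2 := ht' y
    rw [hn', hs, star_smul_oct, star_one, mul_smul_oct, mul_one] at h2
    have := congrArg (fun x => (s ^ 2)⁻¹ • x) h2
    simp only [smul_smul] at this
    rw [inv_mul_cancel₀ (pow_ne_zero _ hs0), one_smul] at this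
    rw [this]
    congr 1
    field_simp
  · rw [ht'', hs, smul_mul_oct, one_mul]

/-- The conjugation is not the first component of a proper similarity. -/
theorem fixed_two {t' t'' : Oct a b c → Oct a b c}
    (h : ∀ y z, -(t' y * t'' z) = star z * star y) : False := by
  set p := t'' 1 with hp
  set q := t' 1 with hq
  have h1 : q * p = -1 := by
    have := h 1 1
    rw [star_one, mul_one] at this
    rw [← this, neg_neg]
  have hn : norm p ≠ 0 := by
    intro h0
    have := congrArg Oct.norm h1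
    rw [Oct.norm_mul, h0, mul_zero, Oct.norm_neg, Oct.norm_one] at this
    exact zero_ne_one this
  have ht' : ∀ y, norm p • t' y = -(star y * star p) := fun y => by
    have h2 := h y 1
    rw [star_one, one_mul] at h2
    rw [← mul_mul_star, hp, ← h2]
    simp
  have hq' : norm p • q = -star p := by rw [hq, ht', star_one, one_mul]
  have hq2 : norm q * norm p = 1 := by rw [← Oct.norm_mul, h1, Oct.norm_neg, Oct.norm_one]
  have ht'' : ∀ z, t'' z = p * star z := fun z => by
    have h2 : norm q • t'' z = -(star q * star z) := by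
      have h2 := h 1 z
      rw [star_one, mul_one] at h2
      rw [← star_mul_mul, hq, ← h2]
      simp
    have h3 : norm p • star q = -p := by rw [← star_smul_oct, hq', star_neg, star_star]
    calc t'' z = norm p • (norm q • t'' z) := by
          rw [smul_smul, mul_comm, hq2, one_smul]
      _ = p * star z := by rw [h2, smul_neg, ← smul_mul_oct, h3, neg_mul, neg_neg]
  have key : ∀ y z : Oct a b c, y * (p * z) = z * (y * p) := by
    intro y z
    have h2 := h (star (y * p)) (star z)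
    rw [star_star, star_star, ht'', star_star] at h2
    have h3 : norm p • t' (star (y * p)) = norm p • -y := by
      rw [ht', star_star, mul_mul_star, smul_neg]
    have h4 : t' (star (y * p)) = -y := by
      have := congrArg (fun x => (norm p)⁻¹ • x) h3
      simpa [smul_smul, inv_mul_cancel₀ hn] using this
    rwa [h4, neg_mul, neg_neg] at h2
  obtain ⟨s, hs⟩ := centre (p := p) (fun z => by
    have := key 1 z
    rwa [one_mul, one_mul] at this)
  have hs0 : s ≠ 0 := by
    rintro rfl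
    apply hn
    rw [hs, zero_smul, Oct.norm_zero]
  apply not_comm (F := F) (a := a) (b := b) (c := c)
  intro y z
  have h2 := key y z
  rw [hs, smul_mul_oct, one_mul, mul_smul_oct, mul_smul_oct, mul_one, mul_smul_oct] at h2
  have := congrArg (fun x => s⁻¹ • x) h2
  simpa [smul_smul, inv_mul_cancel₀ hs0] using this

end oct

section first

variable {F : Type} [Field F] {a b c : Fˣ}

/-- The entries `(2, 3)`. -/
def iX (x : Oct a b c) : Alb a b c := ⟨0, 0, 0, x, 0, 0⟩

theorem iX_add (x y : Oct a b c) : iX (x + y) = iX x + iX y := by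
  apply Alb.ext <;> simp [iX]

theorem iX_smul (t : F) (x : Oct a b c) : iX (t • x) = t • iX x := by
  apply Alb.ext <;> simp [iX]

theorem iX_sum {ι : Type} (s : Finset ι) (f : ι → Oct a b c) :
    iX (∑ i ∈ s, f i) = ∑ i ∈ s, iX (f i) := by
  classical
  induction s using Finset.induction_on with
  | empty => rfl
  | insert i s hi ih => rw [Finset.sum_insert hi, Finset.sum_insert hi, iX_add, ih]

variable {u : Oct a b c}

theorem Wm_u1 (hu : norm u = 1) : Wm u e1 = e1 := by
  rw [Wm_apply (by rw [hu]; exact one_ne_zero)]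
  apply Alb.ext <;> simp [e1]

theorem Wm_u2 (hu : norm u = 1) : Wm u e2 = e3 := by
  rw [Wm_apply (by rw [hu]; exact one_ne_zero)]
  apply Alb.ext <;> simp [e2, e3, hu]

theorem Wm_u3 (hu : norm u = 1) : Wm u e3 = e2 := by
  rw [Wm_apply (by rw [hu]; exact one_ne_zero)]
  apply Alb.ext <;> simp [e2, e3, hu]

theorem Wm_iX (hu : norm u = 1) (x : Oct a b c) : Wm u (iX x) = iX (x - bil u x • u) := by
  rw [Wm_apply (by rw [hu]; exact one_ne_zero)]
  apply Alb.ext <;> simp [iX, hu]

/-- The maps that act on the idempotents by the identity or by the transposition. -/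
structure Ki (χ : Alb a b c ≃ₗ[F] Alb a b c) : Prop where
  /-- the cubic norm -/
  h : ∀ x, cub (χ x) = cub x
  /-- the first idempotent -/
  h1 : χ e1 = e1
  /-- the two others -/
  h23 : (χ e2 = e2 ∧ χ e3 = e3) ∨ (χ e2 = e3 ∧ χ e3 = e2)
  /-- the first coordinate -/
  hX : ∀ x, χ (iX x) = iX (χ (iX x)).x1

theorem Ki.wm {χ : Alb a b c ≃ₗ[F] Alb a b c} (h : Ki χ) (hu : norm u = 1) : Ki (Wm u * χ) where
  h x := by rw [LinearEquiv.mul_apply, el_cub (Wm_mem u), h.h]
  h1 := by rw [LinearEquiv.mul_apply, h.h1, Wm_u1 hu]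
  h23 := by
    rw [LinearEquiv.mul_apply, LinearEquiv.mul_apply]
    rcases h.h23 with ⟨h2, h3⟩ | ⟨h2, h3⟩
    · rw [h2, h3]
      exact Or.inr ⟨Wm_u2 hu, Wm_u3 hu⟩
    · rw [h2, h3]
      exact Or.inl ⟨Wm_u3 hu, Wm_u2 hu⟩
  hX x := by
    rw [LinearEquiv.mul_apply, h.hX, Wm_iX hu]
    rfl

theorem Ki.norm {χ : Alb a b c ≃ₗ[F] Alb a b c} (h : Ki χ) (x : Oct a b c) :
    Oct.norm (χ (iX x)).x1 = Oct.norm x := by
  have h1 := h.h (e1 + iX x)
  rw [map_add, h.h1, h.hX] at h1
  simp only [cub, e1, iX, d1_add, d2_add, d3_add, x1_add, x2_add, x3_add, add_zero, zero_add,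
    mul_zero, sub_zero, Oct.norm_zero, bil_zero_left, one_mul] at h1
  have h2 : 0 - Oct.norm (χ (iX x)).x1 = 0 - Oct.norm x := h1
  linear_combination -h2

theorem Ki.bil {χ : Alb a b c ≃ₗ[F] Alb a b c} (h : Ki χ) (x y : Oct a b c) :
    Oct.bil (χ (iX x)).x1 (χ (iX y)).x1 = Oct.bil x y := by
  have h1 : (χ (iX (x + y))).x1 = (χ (iX x)).x1 + (χ (iX y)).x1 := by
    rw [iX_add, map_add, x1_add]
  rw [Oct.bil, Oct.bil, ← h1, h.norm, h.norm, h.norm]

/-- The three components. -/
theorem tri_comp [NeZero (2 : F)] {χ : Alb a b c ≃ₗ[F] Alb a b c} (h : ∀ x, cub (χ x) = cub x)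
    (h1 : χ e1 = e1) (h2 : χ e2 = e2) (h3 : χ e3 = e3) :
    ∃ (t' t'' : Oct a b c → Oct a b c),
      (∀ x, χ x = ⟨x.d1, x.d2, x.d3, (χ (iX x.x1)).x1, t' x.x2, t'' x.x3⟩) ∧
      ∀ x y z, Oct.bil (χ (iX x)).x1 (star (t'' z) * star (t' y)) =
        Oct.bil x (star z * star y) := by
  obtain ⟨t, t', t'', ht⟩ := exists_t h h1 h2 h3
  have et : ∀ x, t x = (χ (iX x)).x1 := fun x => by
    rw [ht (iX x)]
    rfl
  refine ⟨t', t'', fun x => by rw [← et]; exact ht x, fun x y z => ?_⟩
  have h6 := h ⟨0, 0, 0, x, y, z⟩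
  rw [ht] at h6
  simp only [cub] at h6
  have h0 : ∀ u v w : Oct a b c, Oct.bil (u * v * w) 1 = Oct.bil u (star w * star v) :=
    fun u v w => by rw [bil_mul_left', one_mul, bil_mul_left']
  rw [h0, h0] at h6
  rw [← et]
  linear_combination h6

end first

section real

variable {a b c : ℝˣ}

/-- The theorem of Cartan and Dieudonné. -/
theorem cd (hd : Dfn (RingHom.id ℝ) a b c) {χ : Alb a b c ≃ₗ[ℝ] Alb a b c} (h : Ki χ)
    (l : List (Oct a b c)) :
    ∃ ψ ∈ El a b c, Ki (ψ * χ) ∧ ∀ s ∈ l, (ψ * χ) (iX s) = iX s := by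
  induction l with
  | nil => exact ⟨1, one_mem _, by rwa [one_mul], fun s hs => absurd hs List.not_mem_nil⟩
  | cons y l ih =>
    obtain ⟨ψ, hψ, hK, hl⟩ := ih
    set τ : Oct a b c → Oct a b c := fun x => ((ψ * χ) (iX x)).x1 with hτ
    have hτX : ∀ x, (ψ * χ) (iX x) = iX (τ x) := hK.hX
    have hτn : ∀ x, Oct.norm (τ x) = Oct.norm x := hK.norm
    have hτb : ∀ x y, Oct.bil (τ x) (τ y) = Oct.bil x y := hK.bil
    by_cases hv : τ y = y
    · refine ⟨ψ, hψ, hK, fun s hs => ?_⟩
      rcases List.mem_cons.1 hs with rfl | hs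
      · rw [hτX, hv]
      · exact hl s hs
    · have hv0 : τ y - y ≠ 0 := sub_ne_zero.2 hv
      set v := τ y - y with hv'
      have hpos : 0 < Oct.norm v := hd.defAt v hv0
      obtain ⟨r, -, hr⟩ := exists_sq hpos
      have hu : Oct.norm (r • v) = 1 := by
        rw [Oct.norm_smul, mul_comm]
        exact hr
      have hbv : Oct.bil v (τ y) = Oct.norm v := by
        rw [hv', bil_sub_left, bil_self, Oct.norm_sub, hτn, bil_comm y]
        ring
      refine ⟨Wm (r • v) * ψ, mul_mem (Wm_mem _) hψ, ?_, fun s hs => ?_⟩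
      · rw [mul_assoc]
        exact hK.wm hu
      · rw [mul_assoc, LinearEquiv.mul_apply, hτX, Wm_iX hu, bil_smul_left, smul_smul]
        rcases List.mem_cons.1 hs with rfl | hs
        · rw [hbv]
          have e : r * Oct.norm v * r = 1 := by linear_combination hr
          rw [e, one_smul, hv', sub_sub_cancel]
        · have e1' : τ s = s := congrArg x1 (hl s hs)
          have e2' : Oct.bil v (τ s) = 0 := by
            rw [hv', bil_sub_left, hτb, e1', sub_self]
          rw [e2', mul_zero, zero_mul, zero_smul, sub_zero, e1']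

/-- The maps that act trivially on the first coordinate. -/
theorem gen_aux {χ : Alb a b c ≃ₗ[ℝ] Alb a b c} (hK : Ki χ) (hall : ∀ x, χ (iX x) = iX x)
    (k2 : χ e2 = e2) (k3 : χ e3 = e3) : χ ∈ El a b c := by
  obtain ⟨t', t'', ht, htri⟩ := tri_comp hK.h hK.h1 k2 k3
  have hx : ∀ x, (χ (iX x)).x1 = x := fun x => by rw [hall]; rfl
  have hm : ∀ y z, t' y * t'' z = y * z := by
    intro y z
    apply star_injective
    rw [star_mul, star_mul]
    apply eq_of_bil
    intro w
    rw [bil_comm, bil_comm _ w, ← htri w y z, hx]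
  obtain ⟨s, hs0, hs1, hs2⟩ := fixed_one hm
  have hs : s ^ 2 = 1 := by
    have h6 := hK.h ⟨0, 1, 0, 0, 1, 0⟩
    rw [ht, hs1, hs2, hx] at h6
    simp only [cub, smul_zero, mul_zero, zero_mul, bil_zero_left, Oct.norm_zero, sub_zero,
      add_zero, one_mul, Oct.norm_smul, Oct.norm_one, mul_one, zero_sub] at h6
    have h7 : (s⁻¹) ^ 2 = 1 := by linear_combination -h6
    rw [inv_pow, inv_eq_one] at h7
    exact h7
  have e : χ = Dg s := by
    refine LinearEquiv.ext fun x => ?_
    rw [ht, Dg_apply hs0, hx, hs1, hs2, hs, inv_one, one_mul, one_mul]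
  rw [e]
  exact Dg_mem s

/-- The transposition of the idempotents cannot occur. -/
theorem gen_aux' {χ χ' : Alb a b c ≃ₗ[ℝ] Alb a b c} (hK : Ki χ) (hall : ∀ x, χ (iX x) = iX x)
    (k2 : χ e2 = e3) (k3 : χ e3 = e2) (hχ : χ' = Wm 1 * χ) : False := by
  have hm1 : Oct.norm (1 : Oct a b c) = 1 := Oct.norm_one
  have hK' := hK.wm hm1
  rw [← hχ] at hK'
  have c3 : χ' e2 = e2 := by rw [hχ, LinearEquiv.mul_apply, k2, Wm_u3 hm1]
  have c4 : χ' e3 = e3 := by rw [hχ, LinearEquiv.mul_apply, k3, Wm_u2 hm1]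
  obtain ⟨t', t'', -, htri⟩ := tri_comp hK'.h hK'.h1 c3 c4
  have hx : ∀ x, (χ' (iX x)).x1 = -star x := fun x => by
    rw [hχ, LinearEquiv.mul_apply, hall, Wm_one]
    rfl
  refine fixed_two (t' := t') (t'' := t'') fun y z => ?_
  apply eq_of_bil
  intro w
  have h7 := htri w y z
  rw [hx, ← star_mul, bil_neg_left, bil_star_star] at h7
  rw [bil_comm, bil_neg_right, h7, bil_comm]

/-- Over the real numbers, if the octonion algebra is definite, the maps that preserve the cubic
norm are products of elementary transformations. -/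
theorem gen (ha : (a : ℝ) < 0) (hb : (b : ℝ) < 0) (hc : (c : ℝ) < 0)
    (φ : Alb a b c ≃ₗ[ℝ] Alb a b c) (h : ∀ x, cub (φ x) = cub x) : φ ∈ El a b c := by
  have hd : Dfn (RingHom.id ℝ) a b c := ⟨ha, hb, hc⟩
  obtain ⟨γ, hγ, h1, h2, h3⟩ := frame hd h
  have h' : ∀ x, cub ((γ * φ) x) = cub x := fun x => by
    rw [LinearEquiv.mul_apply, el_cub hγ, h]
  have hK : Ki (γ * φ) := ⟨h', h1, Or.inl ⟨h2, h3⟩, fun x => (fix_x h' h1 h2 h3 x).1⟩
  obtain ⟨ψ, hψ, hK', hl⟩ := cd hd hK (List.ofFn D4.H24.ob)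
  have hall : ∀ x, (ψ * (γ * φ)) (iX x) = iX x := by
    intro x
    conv_lhs => rw [← D4.H24.sum_oc x]
    conv_rhs => rw [← D4.H24.sum_oc x]
    rw [iX_sum, map_sum]
    refine Finset.sum_congr rfl fun m _ => ?_
    rw [iX_smul, map_smul, hl (D4.H24.ob m) (List.mem_ofFn.2 ⟨m, rfl⟩)]
  have hm : ψ * (γ * φ) ∈ El a b c := by
    rcases hK'.h23 with ⟨k2, k3⟩ | ⟨k2, k3⟩
    · exact gen_aux hK' hall k2 k3
    · exact (gen_aux' hK' hall k2 k3 rfl).elim
  have e : φ = γ⁻¹ * (ψ⁻¹ * (ψ * (γ * φ))) := by group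
  rw [e]
  exact mul_mem (inv_mem hγ) (mul_mem (inv_mem hψ) hm)

end real

end Vale.Agent.P011.E6I.Tv
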