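import Vale.Agent.P011.E6I.TvDef

/-!
Elements of rank one, and the Weyl elements.
-/

namespace Vale.Agent.P011.E6I.Tv

open Vale.Agent.P011.MPQ Vale.Agent.P011.D4 Vale.Agent.P011.D4.Oct Vale.Agent.P011.E6
open Vale.Agent.P011.E6.Alb

variable {F : Type} [Field F] {a b c : Fˣ}

/-- The maps that preserve the cubic norm preserve the elements of rank one. -/
theorem adj_map_zero [NeZero (2 : F)] {φ : Alb a b c ≃ₗ[F] Alb a b c}
    (h : ∀ x, cub (φ x) = cub x) {x : Alb a b c} (hx : adj x = 0) : adj (φ x) = 0 := by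
  apply eq_zero_of_tf
  intro z
  obtain ⟨w, rfl⟩ := φ.surjective z
  have h1 := tf_adj_of_cub (φ := φ.toLinearMap) (μ := 1)
    (fun x => by rw [one_mul]; exact h x) x w
  have h2 : tf (adj (φ x)) (φ w) = 1 * tf (adj x) w := h1
  rw [h2, hx, tf_zero_left, mul_zero]

theorem adj_eq {x : Alb a b c} (h : adj x = 0) :
    x.d2 * x.d3 = norm x.x1 ∧ x.d3 * x.d1 = norm x.x2 ∧ x.d1 * x.d2 = norm x.x3 ∧
      star (x.x2 * x.x3) = x.d1 • x.x1 ∧ star (x.x3 * x.x1) = x.d2 • x.x2 ∧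
      star (x.x1 * x.x2) = x.d3 • x.x3 :=
  ⟨sub_eq_zero.1 (congrArg d1 h), sub_eq_zero.1 (congrArg d2 h), sub_eq_zero.1 (congrArg d3 h),
    sub_eq_zero.1 (congrArg x1 h), sub_eq_zero.1 (congrArg x2 h), sub_eq_zero.1 (congrArg x3 h)⟩

theorem adj_e1 : adj (e1 : Alb a b c) = 0 := by
  apply Alb.ext <;> simp [adj, e1]

theorem adj_e2 : adj (e2 : Alb a b c) = 0 := by
  apply Alb.ext <;> simp [adj, e2]

theorem adj_e3 : adj (e3 : Alb a b c) = 0 := by
  apply Alb.ext <;> simp [adj, e3]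

theorem el_cub {γ : Alb a b c ≃ₗ[F] Alb a b c} (h : γ ∈ El a b c) (x : Alb a b c) :
    cub (γ x) = cub x := el_le h x

/-- An element of rank one with nonzero first diagonal entry. -/
theorem rank_aux [NeZero (2 : F)] {x : Alb a b c} (hx : adj x = 0)
    (h1 : x.d1 ≠ 0) : ∃ γ ∈ El a b c, γ x = x.d1 • e1 := by
  have hm := mul_mem (hi1_mem (-(x.d1⁻¹) • (lo2 (-(x.d1⁻¹) • star x.x3) x).x2))
    (lo2_mem (-(x.d1⁻¹) • star x.x3))
  refine ⟨_, hm, ?_⟩
  have hadj := adj_eq (adj_map_zero (el_cub hm) hx)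
  rw [LinearEquiv.mul_apply] at hadj ⊢
  set y := lo2 (-(x.d1⁻¹) • star x.x3) x with hy
  have y1 : y.d1 = x.d1 := rfl
  have y3 : y.x3 = 0 := by
    show x.x3 + x.d1 • star (-(x.d1⁻¹) • star x.x3) = 0
    rw [star_smul_oct, star_star, smul_smul, mul_neg, mul_inv_cancel₀ h1, neg_one_smul,
      add_neg_cancel]
  set z := hi1 (-(x.d1⁻¹) • y.x2) y with hz
  have z1 : z.d1 = x.d1 := rfl
  have z3 : z.x3 = 0 := y3
  have z2 : z.x2 = 0 := by
    show y.x2 + y.d1 • (-(x.d1⁻¹) • y.x2) = 0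
    rw [y1, smul_smul, mul_neg, mul_inv_cancel₀ h1, neg_one_smul, add_neg_cancel]
  obtain ⟨-, h2, h3, h4, -, -⟩ := hadj
  rw [z1, z2, Oct.norm_zero] at h2
  rw [z1, z3, Oct.norm_zero] at h3
  rw [z1, z2, zero_mul, star_zero] at h4
  have d3' : z.d3 = 0 := (mul_eq_zero.1 h2).resolve_right h1
  have d2' : z.d2 = 0 := (mul_eq_zero.1 h3).resolve_left h1
  have x1' : z.x1 = 0 := (smul_eq_zero.1 h4.symm).resolve_left h1
  apply Alb.ext
  · simp [z1, e1]
  · simp [d2', e1]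
  · simp [d3', e1]
  · simp [x1', e1]
  · simp [z2, e1]
  · simp [z3, e1]

/-- The elements of rank one are in the orbits of the multiples of the first idempotent. -/
theorem rank_one [NeZero (2 : F)] (hdiv : Division a b c) {x : Alb a b c} (hx : adj x = 0)
    (h0 : x ≠ 0) : ∃ γ ∈ El a b c, ∃ t : F, t ≠ 0 ∧ γ x = t • e1 := by
  by_cases h1 : x.d1 = 0
  · obtain ⟨k1, k2, k3, -⟩ := adj_eq hx
    rw [h1, mul_zero] at k2
    rw [h1, zero_mul] at k3
    have e2' := hdiv _ k2.symm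
    have e3' := hdiv _ k3.symm
    by_cases h2 : x.d2 = 0
    · rw [h2, zero_mul] at k1
      have e1' := hdiv _ k1.symm
      have h3 : x.d3 ≠ 0 := fun h3 => h0 (Alb.ext h1 h2 h3 e1' e2' e3')
      have hd : (lo1 1 x).d1 = x.d3 := by
        show x.d1 + bil (1 * x.x2) 1 + x.d3 * Oct.norm (1 : Oct a b c) = x.d3
        rw [h1, e2', mul_zero, bil_zero_left, Oct.norm_one]
        ring
      obtain ⟨γ, hγ, e⟩ := rank_aux (adj_map_zero (el_cub (lo1_mem 1)) hx) (by rw [hd]; exact h3)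
      exact ⟨γ * lo1 1, mul_mem hγ (lo1_mem 1), _, by rw [hd]; exact h3, e⟩
    · have hd : (hi2 1 x).d1 = x.d2 := by
        show x.d1 + bil 1 x.x3 + x.d2 * Oct.norm (1 : Oct a b c) = x.d2
        rw [h1, e3', bil_zero_right, Oct.norm_one]
        ring
      obtain ⟨γ, hγ, e⟩ := rank_aux (adj_map_zero (el_cub (hi2_mem 1)) hx) (by rw [hd]; exact h2)
      exact ⟨γ * hi2 1, mul_mem hγ (hi2_mem 1), _, by rw [hd]; exact h2, e⟩
  · obtain ⟨γ, hγ, e⟩ := rank_aux hx h1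
    exact ⟨γ, hγ, _, h1, e⟩

/-- The Weyl element. -/
def Wm (u : Oct a b c) : Alb a b c ≃ₗ[F] Alb a b c :=
  hi u * lo (-(norm u)⁻¹ • star u) * hi u

theorem Wm_mem (u : Oct a b c) : Wm u ∈ El a b c :=
  mul_mem (mul_mem (hi_mem u) (lo_mem _)) (hi_mem u)

theorem Wm_apply {u : Oct a b c} (hu : norm u ≠ 0) (x : Alb a b c) : Wm u x =
    ⟨x.d1, norm u * x.d3, (norm u)⁻¹ * x.d2, x.x1 - ((norm u)⁻¹ * bil u x.x1) • u,
      -((norm u)⁻¹ • star (x.x3 * u)), star (u * x.x2)⟩ := by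
  set v : Oct a b c := -(norm u)⁻¹ • star u with hv
  have hsv : star v = -(norm u)⁻¹ • u := by rw [hv, star_smul_oct, star_star]
  have hnv : norm v = (norm u)⁻¹ := by
    rw [hv, Oct.norm_smul, Oct.norm_star, neg_sq, sq, mul_assoc, inv_mul_cancel₀ hu, mul_one]
  set y := hi u x with hy
  set z := lo v y with hz
  have hd : z.d3 = (norm u)⁻¹ * x.d2 := by
    show x.d3 + bil (v * (x.x1 + x.d3 • u)) 1 +
      (x.d2 + bil u x.x1 + x.d3 * norm u) * norm v = (norm u)⁻¹ * x.d2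
    rw [bil_one, hsv, hnv, bil_add_left, bil_smul_left, bil_smul_right, bil_smul_right, bil_self,
      bil_comm x.x1]
    field_simp
    ring
  have hx1 : z.x1 = x.x1 - ((norm u)⁻¹ * (x.d2 + bil u x.x1)) • u := by
    show x.x1 + x.d3 • u + (x.d2 + bil u x.x1 + x.d3 * norm u) • star v = _
    rw [hsv, smul_smul]
    have e : (x.d2 + bil u x.x1 + x.d3 * norm u) * -(norm u)⁻¹ =
        -((norm u)⁻¹ * (x.d2 + bil u x.x1)) - x.d3 := by
      field_simp
      ring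
    rw [e, sub_smul, neg_smul]
    abel
  have hx2 : z.x2 = -((norm u)⁻¹ • star (x.x3 * u)) := by
    show x.x2 + v * star (x.x3 + star x.x2 * star u) = _
    rw [star_add, star_mul, star_star, star_star, mul_add, hv, smul_mul_oct, smul_mul_oct,
      star_mul_mul, smul_smul, neg_mul, inv_mul_cancel₀ hu, neg_one_smul, star_mul, neg_smul]
    abel
  show hi u z = _
  apply Alb.ext
  · rfl
  · show (x.d2 + bil u x.x1 + x.d3 * norm u) + bil u z.x1 + z.d3 * norm u = norm u * x.d3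
    rw [hd, hx1, bil_sub_right, bil_smul_right, bil_self]
    field_simp
    ring
  · exact hd
  · show z.x1 + z.d3 • u = x.x1 - ((norm u)⁻¹ * bil u x.x1) • u
    rw [hd, hx1, mul_add, add_smul]
    abel
  · exact hx2
  · show (x.x3 + star x.x2 * star u) + star z.x2 * star u = star (u * x.x2)
    rw [hx2, star_neg, star_smul_oct, star_star, neg_mul, smul_mul_oct, mul_mul_star, smul_smul,
      inv_mul_cancel₀ hu, one_smul, star_mul]
    abel

theorem Wm_one (x : Alb a b c) : Wm 1 x =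
    ⟨x.d1, x.d3, x.d2, -star x.x1, -star x.x3, star x.x2⟩ := by
  rw [Wm_apply (by rw [Oct.norm_one]; exact one_ne_zero)]
  simp only [Oct.norm_one, inv_one, one_mul, one_smul, mul_one]
  rw [star_eq x.x1, bil_comm 1]
  congr 1
  abel

theorem Wm_neg_one (x : Alb a b c) : Wm (-1) x =
    ⟨x.d1, x.d3, x.d2, -star x.x1, star x.x3, -star x.x2⟩ := by
  rw [Wm_apply (by rw [Oct.norm_neg, Oct.norm_one]; exact one_ne_zero)]
  simp only [Oct.norm_neg, Oct.norm_one, inv_one, one_mul, one_smul, mul_neg, mul_one, neg_mul,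
    star_neg, neg_neg]
  rw [star_eq x.x1, bil_neg_left, neg_smul_neg, bil_comm 1]
  congr 1
  abel

/-- The diagonal transformation. -/
def Dg (s : F) : Alb a b c ≃ₗ[F] Alb a b c := Wm (s • 1) * Wm (-1)

theorem Dg_mem (s : F) : (Dg s : Alb a b c ≃ₗ[F] Alb a b c) ∈ El a b c :=
  mul_mem (Wm_mem _) (Wm_mem _)

theorem Dg_apply {s : F} (hs : s ≠ 0) (x : Alb a b c) : Dg s x =
    ⟨x.d1, s ^ 2 * x.d2, (s ^ 2)⁻¹ * x.d3, x.x1, s⁻¹ • x.x2, s • x.x3⟩ := by
  have hn : norm (s • (1 : Oct a b c)) = s ^ 2 := by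
    rw [Oct.norm_smul, Oct.norm_one, mul_one]
  have h2 : s ^ 2 ≠ 0 := pow_ne_zero _ hs
  rw [Dg, LinearEquiv.mul_apply, Wm_neg_one, Wm_apply (by rw [hn]; exact h2)]
  simp only [hn]
  apply Alb.ext
  · rfl
  · rfl
  · rfl
  · show -star x.x1 - ((s ^ 2)⁻¹ * bil (s • 1) (-star x.x1)) • (s • (1 : Oct a b c)) = x.x1
    rw [bil_smul_left, bil_neg_right, bil_comm, bil_star_left, star_one, smul_smul]
    have e : (s ^ 2)⁻¹ * (s * -bil x.x1 1) * s = -bil x.x1 1 := by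
      field_simp
    rw [e, star_eq, neg_smul]
    abel
  · show -((s ^ 2)⁻¹ • star (-star x.x2 * (s • (1 : Oct a b c)))) = s⁻¹ • x.x2
    rw [mul_smul_oct, mul_one, star_smul_oct, star_neg, star_star, smul_smul, smul_neg, neg_neg]
    congr 1
    field_simp
  · show star ((s • (1 : Oct a b c)) * star x.x3) = s • x.x3
    rw [smul_mul_oct, one_mul, star_smul_oct, star_star]

end Vale.Agent.P011.E6I.Tv
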